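import Crest.Agent.R350.QS

/-! # Row 350: from `QS` to the model of the statement -/

set_option autoImplicit false

namespace Crest.Agent.R350

open Crest.MathPhysics.Query Matrix

namespace Conv

variable {N w : ℕ} {E : Type}

/-- The basis states of the statement, regrouped. -/
def regroup (eE : E ≃ Fin w) : QIdx N w ≃ (Fin N × Bool) × E where
  toFun p := ((p.1, p.2.1), eE.symm p.2.2)
  invFun p := (p.1.1, p.1.2, eE p.2)
  left_inv p := by simp
  right_inv p := by simp

/-- A real vector as a state of the statement's model. -/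
def vecC (eE : E ≃ Fin w) (ψ : (Fin N × Bool) × E → ℝ) : QIdx N w → ℂ :=
  fun p => (ψ (regroup eE p) : ℂ)

/-- A real matrix as an operator of the statement's model. -/
def matC (eE : E ≃ Fin w) (M : Matrix ((Fin N × Bool) × E) ((Fin N × Bool) × E) ℝ) :
    Matrix (QIdx N w) (QIdx N w) ℂ :=
  fun p p' => (M (regroup eE p) (regroup eE p') : ℂ)

lemma matC_mulVec [Fintype E] (eE : E ≃ Fin w)
    (M : Matrix ((Fin N × Bool) × E) ((Fin N × Bool) × E) ℝ) (ψ : (Fin N × Bool) × E → ℝ) :
    (matC eE M).mulVec (vecC eE ψ) = vecC eE (M.mulVec ψ) := by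
  funext p
  simp only [mulVec, dotProduct, matC, vecC]
  push_cast
  exact (regroup eE).sum_comp (fun p' => (M (regroup eE p) p' : ℂ) * (ψ p' : ℂ))

lemma matC_unitary [Fintype E] [DecidableEq E] (eE : E ≃ Fin w)
    (M : Matrix ((Fin N × Bool) × E) ((Fin N × Bool) × E) ℝ) (hM : Mᵀ * M = 1) :
    matC eE M ∈ Matrix.unitaryGroup (QIdx N w) ℂ := by
  rw [Matrix.mem_unitaryGroup_iff']
  ext p p'
  have h := congrFun (congrFun hM (regroup eE p)) (regroup eE p')
  simp only [Matrix.mul_apply, transpose_apply, Matrix.one_apply, EmbeddingLike.apply_eq_iff_eq] at h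
  simp only [Matrix.mul_apply, star_apply, matC, Matrix.one_apply, RCLike.star_def,
    Complex.conj_ofReal]
  rw [(regroup eE).sum_comp (fun a => (M a (regroup eE p) : ℂ) * (M a (regroup eE p') : ℂ))]
  have := congrArg (fun r : ℝ => (r : ℂ)) h
  simp only [Complex.ofReal_sum, Complex.ofReal_mul] at this
  rw [this]
  split_ifs <;> simp

lemma stateAfter_congr {U U' : ℕ → Matrix (QIdx N w) (QIdx N w) ℂ} (y : Fin N → Bool)
    (ψ₀ : QIdx N w → ℂ) : ∀ t : ℕ, (∀ s, s ≤ t → U s = U' s) →
      stateAfter U y ψ₀ t = stateAfter U' y ψ₀ t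
  | 0, h => by simp only [stateAfter, h 0 le_rfl]
  | t + 1, h => by
    simp only [stateAfter, h (t + 1) le_rfl,
      stateAfter_congr y ψ₀ t (fun s hs => h s (by omega))]

/-- The work register in the state `ψ`, the query registers in a fixed basis state. -/
def emb (d₀ : Fin N × Bool) (ψ : E → ℝ) : (Fin N × Bool) × E → ℝ :=
  fun p => if p.1 = d₀ then ψ p.2 else 0

/-- An operator on the work register. -/
def lift (A : Matrix E E ℝ) : Matrix ((Fin N × Bool) × E) ((Fin N × Bool) × E) ℝ :=
  (blockDiagonal fun _ : Fin N × Bool => A).submatrix (Equiv.prodComm _ _) (Equiv.prodComm _ _)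

lemma lift_orth [Fintype E] [DecidableEq E] {A : Matrix E E ℝ} (hA : Aᵀ * A = 1) :
    (lift (N := N) A)ᵀ * lift A = 1 := by
  rw [lift, transpose_submatrix, submatrix_mul_equiv, blockDiagonal_transpose,
    ← blockDiagonal_mul]
  simp only [hA]
  rw [show (fun _ : Fin N × Bool => (1 : Matrix E E ℝ)) = 1 from rfl, blockDiagonal_one,
    submatrix_one_equiv]

lemma lift_emb [Fintype E] (A : Matrix E E ℝ) (d₀ : Fin N × Bool) (ψ : E → ℝ) :
    (lift A).mulVec (emb d₀ ψ) = emb d₀ (A.mulVec ψ) := by
  funext ⟨d, z⟩
  simp only [mulVec, dotProduct, lift, emb, submatrix_apply, Equiv.prodComm_apply, Prod.swap,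
    blockDiagonal_apply]
  rw [Fintype.sum_prod_type, Finset.sum_eq_single d]
  · split_ifs <;> simp
  · intro b _ hb
    simp [Ne.symm hb]
  · simp

end Conv

open Conv in
theorem QS.toQuantum {ι : Type} [Nonempty ι] {N : ℕ} (e : ι ≃ Fin N) {q : ℕ}
    {L : (ι → Bool) → (Bool → ℝ) → ℝ} (h : QS q L) (F : (ι → Bool) → Bool)
    (hF : ∀ x, 2 / 3 ≤ L x (fun b => if b = F x then 1 else 0)) :
    QuantumComputes (fun y : Fin N → Bool => F (fun i => y (e i))) q := by
  obtain ⟨E, _, _, e₀, U, out, hU, hL⟩ := h
  set w := Fintype.card E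
  set eE : E ≃ Fin w := Fintype.equivFin E
  set i₀ : Fin N := e (Classical.arbitrary ι)
  set d₀ : Fin N × Bool := (i₀, false)
  set ψ₀ : QIdx N w → ℂ := vecC eE (emb d₀ (Pi.single e₀ 1)) with hψ₀
  have hs2 : (Real.sqrt 2)⁻¹ ^ 2 = 1 / 2 := by
    rw [inv_pow, Real.sq_sqrt (by norm_num)]; norm_num
  have main : ∀ (q : ℕ) (U : (ι → Bool) → Matrix E E ℝ), Impl q U →
      ∀ W : Matrix ((Fin N × Bool) × E) ((Fin N × Bool) × E) ℝ, Wᵀ * W = 1 →
      ∃ Us : ℕ → Matrix (QIdx N w) (QIdx N w) ℂ, (∀ t, Us t ∈ Matrix.unitaryGroup _ ℂ) ∧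
        ∀ y : Fin N → Bool, stateAfter Us y ψ₀ q =
          vecC eE (W.mulVec (emb d₀ fun z => U (fun i => y (e i)) z e₀)) := by
    intro q
    induction q with
    | zero =>
      rintro U ⟨A, hA, hU⟩ W hW
      refine ⟨fun _ => matC eE (W * lift A),
        fun _ => matC_unitary eE _ (Impl.orth_mul hW (lift_orth hA)), fun y => ?_⟩
      simp only [stateAfter, hψ₀, matC_mulVec, ← mulVec_mulVec, lift_emb, hU]
      congr 3
      funext z
      simp
    | succ q ih =>
      rintro U ⟨A, idx, V, hA, hV, hU⟩ W hW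
      set v : E → Fin N × Bool → ℝ := fun z d => (idx z).elim
        (if d.1 = i₀ then (Real.sqrt 2)⁻¹ else 0)
        (fun j => if d.1 = e j then sgn d.2 * (Real.sqrt 2)⁻¹ else 0) with hv
      have hvA : ∀ z, ∃ A : Matrix (Fin N × Bool) (Fin N × Bool) ℝ, Aᵀ * A = 1 ∧
          ∀ d, A d d₀ = v z d := by
        intro z
        refine exists_orth_col (v z) d₀ ?_ ?_
        · simp only [hv, Fintype.sum_prod_type]
          cases idx z with
          | none =>
            simp only [Option.elim_none]
            rw [Finset.sum_eq_single i₀]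
            · simp only [if_true, hs2]; norm_num
            · intro b _ hb; simp [hb]
            · simp
          | some j =>
            simp only [Option.elim_some]
            rw [Finset.sum_eq_single (e j)]
            · simp only [if_true, mul_pow, sgn_sq, hs2]; norm_num
            · intro b _ hb; simp [hb]
            · simp
        · simp only [hv]
          cases idx z with
          | none => simp [d₀]
          | some j =>
            simp only [Option.elim_some, d₀, sgn_false]
            split_ifs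
            · positivity
            · exact le_rfl
      choose Az hAz hAz' using hvA
      set Lm : Matrix ((Fin N × Bool) × E) ((Fin N × Bool) × E) ℝ := blockDiagonal Az with hLm
      have hLo : Lmᵀ * Lm = 1 := by
        rw [hLm, blockDiagonal_transpose, ← blockDiagonal_mul]
        simp only [hAz]
        exact blockDiagonal_one
      have hLemb : ∀ ψ : E → ℝ, Lm.mulVec (emb d₀ ψ) = fun p => v p.2 p.1 * ψ p.2 := by
        intro ψ
        funext ⟨d, z⟩
        simp only [mulVec, dotProduct, hLm, emb, blockDiagonal_apply]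
        rw [Finset.sum_eq_single (d₀, z)]
        · simp [hAz']
        · rintro ⟨a, b⟩ _ hab
          by_cases hb : z = b
          · have ha : a ≠ d₀ := fun ha => hab (by rw [ha, hb])
            simp [ha]
          · simp [hb]
        · simp
      have horc : ∀ (y : Fin N → Bool) (ψ : E → ℝ),
          oracle y (vecC eE (Lm.mulVec (emb d₀ ψ))) =
            vecC eE (Lm.mulVec (emb d₀ ((phase idx fun i => y (e i)).mulVec ψ))) := by
        intro y ψ
        funext ⟨i, b, z⟩
        simp only [hLemb, oracle, vecC, regroup, Equiv.coe_fn_mk, phase, mulVec_diagonal, hv]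
        congr 1
        cases idx (eE.symm z) with
        | none => simp
        | some j =>
          simp only [Option.elim_some]
          split_ifs with hi
          · rw [sgn_xor, hi]; ring
          · simp
      obtain ⟨Us, hUs, hst⟩ := ih V hV Lm hLo
      have hLo' : Lmᵀᵀ * Lmᵀ = 1 := by rw [transpose_transpose]; exact mul_eq_one_comm.mp hLo
      refine ⟨Function.update Us (q + 1) (matC eE (W * lift A * Lmᵀ)), fun t => ?_, fun y => ?_⟩
      · by_cases ht : t = q + 1
        · subst ht
          rw [Function.update_self]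
          exact matC_unitary eE _ (Impl.orth_mul (Impl.orth_mul hW (lift_orth hA)) hLo')
        · rw [Function.update_of_ne ht]; exact hUs t
      · simp only [stateAfter, Function.update_self]
        rw [stateAfter_congr (U' := Us) y ψ₀ q
          (fun s hs => Function.update_of_ne (by omega) _ _), hst, horc, matC_mulVec,
          mulVec_mulVec, Matrix.mul_assoc, hLo, Matrix.mul_one, ← mulVec_mulVec, lift_emb, hU,
          mulVec_mulVec]
        rfl
  obtain ⟨Us, hUs, hst⟩ := main q U hU 1 (by simp)
  have hsum : ∀ (ψ : E → ℝ) (g : E → ℝ),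
      ∑ p : QIdx N w, ‖vecC eE (emb d₀ ψ) p‖ ^ 2 * g (regroup eE p).2 = ∑ z, ψ z ^ 2 * g z := by
    intro ψ g
    simp only [vecC, Complex.norm_real, Real.norm_eq_abs, sq_abs]
    rw [(regroup eE).sum_comp (fun p => emb d₀ ψ p ^ 2 * g p.2), Fintype.sum_prod_type,
      Finset.sum_eq_single d₀]
    · simp [emb]
    · intro b _ hb; simp [emb, hb]
    · simp
  refine ⟨w, Us, ψ₀, fun p => out (regroup eE p).2, hUs, ?_, fun y => ?_⟩
  · have := hsum (Pi.single e₀ 1) (fun _ => 1)
    simp only [mul_one] at this
    rw [hψ₀, this, Finset.sum_eq_single e₀]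
    · simp
    · intro b _ hb; simp [hb]
    · simp
  · refine (hF (fun i => y (e i))).trans (le_of_eq ?_)
    rw [hL, hst, one_mulVec, ← hsum]
    exact Finset.sum_congr rfl fun p _ => by split_ifs <;> simp

end Crest.Agent.R350
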