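import Crest.Agent.R350.Defs

/-! # Row 350: closure properties of `DT` -/

set_option autoImplicit false

namespace Crest.Agent.R350

@[simp] lemma sgn_true : sgn true = -1 := by simp [sgn]
@[simp] lemma sgn_false : sgn false = 1 := by simp [sgn]
lemma sgn_sq (b : Bool) : sgn b ^ 2 = 1 := by cases b <;> simp
lemma sgn_mul_self (b : Bool) : sgn b * sgn b = 1 := by cases b <;> simp
lemma abs_sgn (b : Bool) : |sgn b| = 1 := by cases b <;> simp
lemma sgn_xor (a b : Bool) : sgn (xor a b) = sgn a * sgn b := by cases a <;> cases b <;> simp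

namespace DT

variable {V W A B : Type}

lemma congr {r : ℕ} {f g : (V → Bool) → A} (h : DT r f) (hfg : ∀ x, f x = g x) : DT r g := by
  have : f = g := funext hfg
  exact this ▸ h

lemma succ {r : ℕ} {f : (V → Bool) → A} (h : DT r f) : DT (r + 1) f := by
  induction h with
  | const r a => exact DT.const _ a
  | read r v f₀ f₁ _ _ ih₀ ih₁ => exact DT.read _ v f₀ f₁ ih₀ ih₁

lemma mono {r s : ℕ} {f : (V → Bool) → A} (h : DT r f) (hrs : r ≤ s) : DT s f := by
  induction hrs with
  | refl => exact h
  | step _ ih => exact ih.succ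

/-- Reading one bit. -/
lemma bit (v : V) : DT 1 (fun x : V → Bool => x v) := by
  refine (DT.read 0 v (fun _ => false) (fun _ => true) (DT.const _ _) (DT.const _ _)).congr ?_
  intro x
  cases x v <;> simp

/-- Sequential composition. -/
lemma bind {r s : ℕ} {f : (V → Bool) → A} {g : A → (V → Bool) → B} (hf : DT r f)
    (hg : ∀ a, DT s (g a)) : DT (r + s) (fun x => g (f x) x) := by
  induction hf with
  | const r a => exact (hg a).mono (by omega)
  | read r v f₀ f₁ _ _ ih₀ ih₁ =>
    have := DT.read (r + s) v _ _ ih₀ ih₁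
    rw [show r + 1 + s = r + s + 1 by omega]
    refine this.congr ?_
    intro x
    by_cases h : x v = true <;> simp [h]

lemma map {r : ℕ} {f : (V → Bool) → A} (hf : DT r f) (φ : A → B) : DT r (fun x => φ (f x)) :=
  hf.bind (s := 0) (g := fun a _ => φ a) (fun a => DT.const 0 (φ a))

lemma pair {r s : ℕ} {f : (V → Bool) → A} {g : (V → Bool) → B} (hf : DT r f) (hg : DT s g) :
    DT (r + s) (fun x => (f x, g x)) :=
  hf.bind (g := fun a x => (a, g x)) (fun a => hg.map (fun b => (a, b)))

lemma map₂ {C : Type} {r s : ℕ} {f : (V → Bool) → A} {g : (V → Bool) → B} (hf : DT r f)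
    (hg : DT s g) (φ : A → B → C) : DT (r + s) (fun x => φ (f x) (g x)) :=
  (hf.pair hg).map (fun p => φ p.1 p.2)

/-- Substituting for each bit either a constant or a (possibly negated) bit of a new input. -/
lemma subst {r : ℕ} {f : (V → Bool) → A} (hf : DT r f) (σ : (W → Bool) → V → Bool)
    (hσ : ∀ v, (∃ b, ∀ y, σ y v = b) ∨ ∃ w b, ∀ y, σ y v = xor (y w) b) :
    DT r (fun y => f (σ y)) := by
  induction hf with
  | const r a => exact DT.const _ a
  | read r v f₀ f₁ _ _ ih₀ ih₁ =>
    rcases hσ v with ⟨b, hb⟩ | ⟨w, b, hb⟩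
    · cases b
      · refine ih₀.succ.congr ?_
        intro y; simp [hb]
      · refine ih₁.succ.congr ?_
        intro y; simp [hb]
    · cases b
      · refine (DT.read r w _ _ ih₀ ih₁).congr ?_
        intro y; simp [hb]
      · refine (DT.read r w _ _ ih₁ ih₀).congr ?_
        intro y
        by_cases h : y w = true <;> simp [hb, h]

lemma comap {r : ℕ} {f : (V → Bool) → A} (hf : DT r f) (j : V → W) :
    DT r (fun y : W → Bool => f (fun v => y (j v))) :=
  hf.subst (fun y v => y (j v)) (fun v => Or.inr ⟨j v, false, fun y => by simp⟩)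

lemma flip {r : ℕ} {f : (V → Bool) → A} (hf : DT r f) (m : V → Bool) :
    DT r (fun y : V → Bool => f (fun v => xor (y v) (m v))) :=
  hf.subst (fun y v => xor (y v) (m v)) (fun v => Or.inr ⟨v, m v, fun _ => rfl⟩)

lemma restrict [DecidableEq V] {r : ℕ} {f : (V → Bool) → A} (hf : DT r f) (v : V) (b : Bool) :
    DT r (fun y : V → Bool => f (Function.update y v b)) := by
  refine hf.subst (fun y => Function.update y v b) (fun w => ?_)
  by_cases h : w = v
  · left; exact ⟨b, fun y => by simp [h]⟩
  · right; exact ⟨w, false, fun y => by simp [h]⟩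

/-- Inversion at depth zero. -/
lemma zero_inv {f : (V → Bool) → A} (hf : DT 0 f) : ∃ a, ∀ x, f x = a := by
  generalize h : 0 = r at hf
  cases hf with
  | const r a => exact ⟨a, fun _ => rfl⟩
  | read r v f₀ f₁ _ _ => omega

/-- Inversion at positive depth: a constant, or both restrictions at some bit have smaller
depth. -/
lemma succ_inv [DecidableEq V] {r : ℕ} {f : (V → Bool) → A} (hf : DT (r + 1) f) :
    (∃ a, ∀ x, f x = a) ∨ ∃ v, ∀ b, DT r (fun y => f (Function.update y v b)) := by
  generalize h : r + 1 = s at hf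
  cases hf with
  | const r a => exact Or.inl ⟨a, fun _ => rfl⟩
  | read r' v f₀ f₁ h₀ h₁ =>
    obtain rfl : r = r' := by omega
    right
    refine ⟨v, fun b => ?_⟩
    cases b
    · refine (h₀.restrict v false).congr ?_
      intro y; simp
    · refine (h₁.restrict v true).congr ?_
      intro y; simp

/-- Reading all bits at the positions `j s`, `s : Fin t`. -/
lemma bits (t : ℕ) (j : Fin t → V) : DT t (fun x : V → Bool => fun s => x (j s)) := by
  induction t with
  | zero => exact (DT.const 0 (fun s : Fin 0 => s.elim0)).congr (fun x => by funext s; exact s.elim0)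
  | succ t ih =>
    have := (DT.bit (j 0)).map₂ (ih (fun s => j s.succ))
      (fun b (y : Fin t → Bool) => (Fin.cons b y : Fin (t + 1) → Bool))
    refine (this.mono (by omega)).congr ?_
    intro x
    funext s
    refine Fin.cases ?_ (fun s => ?_) s <;> simp

end DT

end Crest.Agent.R350
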