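import Mathlib
import Crest.Prelude.Def_QueryComplexity

/-!
# Row 350 (S0554): definitions

Shared definitions for the quartic separation between randomized and quantum query complexity.
-/

set_option autoImplicit false

namespace Crest.Agent.R350

open Matrix

/-- The sign `(-1)^b` of a bit. -/
def sgn (b : Bool) : ℝ := if b then -1 else 1

/-- `DT r f`: the function `f` of the bits `V → Bool` is computed by a deterministic decision
tree of depth at most `r`. -/
inductive DT {V A : Type} : ℕ → ((V → Bool) → A) → Prop
  | const (r : ℕ) (a : A) : DT r (fun _ => a)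
  | read (r : ℕ) (v : V) (f₀ f₁ : (V → Bool) → A) :
      DT r f₀ → DT r f₁ → DT (r + 1) (fun x => if x v = true then f₁ x else f₀ x)

/-- The mixed partial derivative `∂_S` at the point `μ` of the multilinear extension of `f`
(the extension is the mean of `f` when the signs `sgn (x v)` are independent with means `μ v`). -/
noncomputable def pd {V : Type} [Fintype V] [DecidableEq V] (f : (V → Bool) → ℝ) (S : Finset V)
    (μ : V → ℝ) : ℝ :=
  ∑ x : V → Bool, f x * ∏ v, (if v ∈ S then sgn (x v) / 2 else (1 + μ v * sgn (x v)) / 2)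

/-! ## Quantum query algorithms over the reals, with phase oracles -/

/-- One phase query: the basis state `e` picks up the sign of the input bit `idx e` (no sign
when `idx e = none`). -/
def phase {ι E : Type} [DecidableEq E] (idx : E → Option ι) (x : ι → Bool) : Matrix E E ℝ :=
  Matrix.diagonal fun e => (idx e).elim 1 (fun i => sgn (x i))

/-- `Impl q U`: the family of matrices `U x` is a product of fixed orthogonal matrices and
exactly `q` phase queries. -/
def Impl {ι E : Type} [Fintype E] [DecidableEq E] :
    ℕ → ((ι → Bool) → Matrix E E ℝ) → Prop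
  | 0, U => ∃ A : Matrix E E ℝ, Aᵀ * A = 1 ∧ ∀ x, U x = A
  | q + 1, U => ∃ (A : Matrix E E ℝ) (idx : E → Option ι) (W : (ι → Bool) → Matrix E E ℝ),
      Aᵀ * A = 1 ∧ Impl q W ∧ ∀ x, U x = A * phase idx x * W x

/-- `QS q L`: some `q`-query quantum algorithm outputs on input `x` a random element of `A`
whose expectation functional is `L x`. -/
def QS {ι A : Type} (q : ℕ) (L : (ι → Bool) → (A → ℝ) → ℝ) : Prop :=
  ∃ (E : Type) (_ : Fintype E) (_ : DecidableEq E) (e₀ : E) (U : (ι → Bool) → Matrix E E ℝ)
    (out : E → A), Impl q U ∧ ∀ x g, L x g = ∑ e, (U x e e₀) ^ 2 * g (out e)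

/-! ## Forrelation -/

/-- Bit strings of length `n`. -/
abbrev Cube (n : ℕ) : Type := Fin n → Bool

/-- The normalised Walsh-Hadamard matrix. -/
noncomputable def had (n : ℕ) : Matrix (Cube n) (Cube n) ℝ :=
  fun i j => ∏ t, (sgn (i t && j t) / Real.sqrt 2)

/-- Block `κ` of a vector with `k + 1` blocks (all ones out of range). -/
def blk {G : Type} {k : ℕ} (z : Fin (k + 1) × G → ℝ) (κ : ℕ) (i : G) : ℝ :=
  if h : κ < k + 1 then z (⟨κ, h⟩, i) else 1

/-- The vectors `w₀ = (1, …, 1)`, `w_{κ+1} = H · diag (z κ) · w_κ`. -/
noncomputable def fw {G : Type} [Fintype G] (H : Matrix G G ℝ) (z : ℕ → G → ℝ) : ℕ → G → ℝ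
  | 0 => fun _ => 1
  | κ + 1 => H.mulVec fun i => z κ i * fw H z κ i

/-- The `(k+1)`-fold forrelation form `(1/N) 1ᵀ D_k H D_{k-1} ⋯ H D_0 1`. -/
noncomputable def forr {G : Type} [Fintype G] {k : ℕ} (H : Matrix G G ℝ)
    (z : Fin (k + 1) × G → ℝ) : ℝ :=
  (∑ i, blk z k i * fw H (blk z) k i) / Fintype.card G

/-- The amplitude of `a` in the state `H D_k H ⋯ H D_0 H |0⟩`. -/
noncomputable def amp {n k : ℕ} (x : Fin (k + 1) × Cube n → Bool) (a : Cube n) : ℝ :=
  fw (had n) (blk fun v => sgn (x v)) (k + 1) a / Real.sqrt (2 ^ n)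

/-! ## The total function -/

/-- Input positions: a candidate `u`, and either a bit of its instance, or a bit of its cell
at an address `a` (two flags, a table of pointers, a proof string). -/
abbrev Idx (n : ℕ) (V Pf : Type) : Type :=
  Cube n × (V ⊕ (Cube n × (Bool ⊕ (Cube n × Fin n) ⊕ Pf)))

section
variable {n : ℕ} {V Pf : Type}

/-- The instance of the candidate `u`. -/
def inst (X : Idx n V Pf → Bool) (u : Cube n) : V → Bool := fun v => X (u, .inl v)

/-- The live flag of the cell `(u, a)`. -/
def live (X : Idx n V Pf → Bool) (u a : Cube n) : Bool := X (u, .inr (a, .inl false))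

/-- The dead flag of the cell `(u, a)`. -/
def dead (X : Idx n V Pf → Bool) (u a : Cube n) : Bool := X (u, .inr (a, .inl true))

/-- The pointer that the cell `(u, a)` holds for the candidate `u'`. -/
def ptr (X : Idx n V Pf → Bool) (u a u' : Cube n) : Cube n :=
  fun s => X (u, .inr (a, .inr (.inl (u', s))))

/-- The proof string of the cell `(u, a)`. -/
def prf (X : Idx n V Pf → Bool) (u a : Cube n) : Pf → Bool :=
  fun β => X (u, .inr (a, .inr (.inr β)))

/-- The cell `(b, a)` is valid: `b` has no dead flag and its only live flag is at `a`; the cell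
points to a dead flag of every other candidate; its proof string is accepted. -/
def Valid (acc : (V → Bool) → Cube n → (Pf → Bool) → Prop) (X : Idx n V Pf → Bool)
    (b a : Cube n) : Prop :=
  (∀ a', dead X b a' = false ∧ (live X b a' = true ↔ a' = a)) ∧
    (∀ u, u ≠ b → dead X u (ptr X b a u) = true) ∧ acc (inst X b) a (prf X b a)

open Classical in
/-- The total function: some cell is valid. -/
noncomputable def FF (acc : (V → Bool) → Cube n → (Pf → Bool) → Prop)
    (X : Idx n V Pf → Bool) : Bool :=
  decide (∃ b a, Valid acc X b a)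

end

end Crest.Agent.R350
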