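import Crest.Agent.R350.Had

/-! # Row 350: a locally checkable proof that an amplitude is large (the FFT transcript) -/

set_option autoImplicit false

namespace Crest.Agent.R350

open Matrix

namespace FFT

/-- The unnormalised two-by-two Hadamard matrix. -/
def h2 : Matrix Bool Bool ℝ := fun a b => sgn (a && b)

/-- The transform on the first `s` bits. -/
def Pm (n s : ℕ) : Matrix (Cube n) (Cube n) ℝ := tens fun t => if t.val < s then h2 else 1

/-- The butterfly on the bit `s`. -/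
def Bm {n : ℕ} (s : Fin n) : Matrix (Cube n) (Cube n) ℝ := tens fun t => if t = s then h2 else 1

lemma Pm_zero (n : ℕ) : Pm n 0 = 1 := by
  simp only [Pm, Nat.not_lt_zero, if_false]
  exact tens_one

lemma Pm_succ {n : ℕ} (s : Fin n) : Pm n (s.val + 1) = Bm s * Pm n s.val := by
  rw [Pm, Pm, Bm, tens_mul]
  congr 1
  funext t
  by_cases h : t = s
  · subst h; simp
  · have h' : t.val ≠ s.val := fun h' => h (Fin.ext h')
    by_cases h2 : t.val < s.val
    · simp [h, h2, show t.val < s.val + 1 by omega]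
    · simp [h, h2, show ¬ t.val < s.val + 1 by omega]

lemma Pm_last (n : ℕ) : Pm n n = Real.sqrt (2 ^ n) • had n := by
  ext i j
  have hp : (0 : ℝ) < Real.sqrt (2 ^ n) := Real.sqrt_pos.mpr (by positivity)
  simp only [Pm, tens, Fin.is_lt, if_true, h2, Matrix.smul_apply, smul_eq_mul, had_apply]
  field_simp

lemma Bm_mulVec {n : ℕ} (s : Fin n) (v : Cube n → ℝ) (i : Cube n) :
    (Bm s).mulVec v i =
      v (Function.update i s false) + sgn (i s) * v (Function.update i s true) := by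
  have hval : ∀ b, Bm s i (Function.update i s b) = sgn (i s && b) := by
    intro b
    simp only [Bm, tens]
    rw [Finset.prod_eq_single s]
    · simp [h2]
    · intro t _ ht
      rw [if_neg ht, Function.update_of_ne ht, Matrix.one_apply_eq]
    · simp
  rw [mulVec, dotProduct, Finset.sum_eq_add_of_mem (Function.update i s false)
    (Function.update i s true) (Finset.mem_univ _) (Finset.mem_univ _)]
  · simp [hval]
  · intro h
    have := congrFun h s
    simp at this
  · intro j _ hj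
    have : ∃ t, t ≠ s ∧ i t ≠ j t := by
      by_contra hcon
      push Not at hcon
      have : j = Function.update i s (j s) := by
        funext t
        by_cases ht : t = s
        · subst ht; simp
        · simp [ht, hcon t ht]
      cases hjs : j s
      · exact hj.1 (by rw [this, hjs])
      · exact hj.2 (by rw [this, hjs])
    obtain ⟨t, ht, hij⟩ := this
    rw [Bm, tens, Finset.prod_eq_zero (Finset.mem_univ t) (by simp [ht, hij]), zero_mul]

lemma fw_Pm (n : ℕ) (z : ℕ → Cube n → ℝ) :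
    ∀ κ, fw (Pm n n) z κ = fun i => Real.sqrt (2 ^ n) ^ κ * fw (had n) z κ i
  | 0 => by simp [fw]
  | κ + 1 => by
    funext a
    rw [fw, fw_Pm n z κ]
    simp only [fw, Pm_last, mulVec, dotProduct, Matrix.smul_apply, smul_eq_mul,
      Finset.mul_sum]
    exact Finset.sum_congr rfl fun i _ => by ring

/-- The true transcript. -/
noncomputable def tv {n : ℕ} (z : ℕ → Cube n → ℝ) (κ s : ℕ) : Cube n → ℝ :=
  (Pm n s).mulVec fun i => z κ i * fw (Pm n n) z κ i

lemma tv_zero {n : ℕ} (z : ℕ → Cube n → ℝ) (κ : ℕ) (i : Cube n) :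
    tv z κ 0 i = z κ i * fw (Pm n n) z κ i := by
  simp [tv, Pm_zero]

lemma tv_last {n : ℕ} (z : ℕ → Cube n → ℝ) (κ : ℕ) : tv z κ n = fw (Pm n n) z (κ + 1) := rfl

lemma tv_succ {n : ℕ} (z : ℕ → Cube n → ℝ) (κ : ℕ) (s : Fin n) (i : Cube n) :
    tv z κ (s.val + 1) i = tv z κ s (Function.update i s false) +
      sgn (i s) * tv z κ s (Function.update i s true) := by
  rw [← Bm_mulVec, tv, tv, Pm_succ, mulVec_mulVec]

/-- All entries are integers of absolute value at most `2 ^ e`. -/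
def IntBd {n : ℕ} (e : ℕ) (v : Cube n → ℝ) : Prop :=
  ∀ i, ∃ t : ℤ, v i = t ∧ |t| ≤ 2 ^ e

lemma IntBd.mono {n e e' : ℕ} {v : Cube n → ℝ} (h : IntBd e v) (he : e ≤ e') : IntBd e' v :=
  fun i => by
    obtain ⟨t, h1, h2⟩ := h i
    exact ⟨t, h1, h2.trans (pow_le_pow_right₀ (by norm_num) he)⟩

lemma tv_intBd {n : ℕ} (z : ℕ → Cube n → ℝ) (hz : ∀ κ i, z κ i = 1 ∨ z κ i = -1) (κ : ℕ)
    (h : IntBd (κ * n) (fw (Pm n n) z κ)) : ∀ s, s ≤ n → IntBd (κ * n + s) (tv z κ s)
  | 0, _ => fun i => by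
    obtain ⟨t, h1, h2⟩ := h i
    rcases hz κ i with h3 | h3
    · exact ⟨t, by rw [tv_zero, h1, h3, one_mul], h2⟩
    · exact ⟨-t, by rw [tv_zero, h1, h3]; push_cast; ring, by rw [abs_neg]; exact h2⟩
  | s + 1, hs => fun i => by
    have ih := tv_intBd z hz κ h s (by omega)
    obtain ⟨t₀, h0, h0'⟩ := ih (Function.update i ⟨s, hs⟩ false)
    obtain ⟨t₁, h1, h1'⟩ := ih (Function.update i ⟨s, hs⟩ true)
    have e := tv_succ z κ ⟨s, hs⟩ i
    simp only at e
    rw [h0, h1] at e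
    have e2 : (2 : ℤ) ^ (κ * n + (s + 1)) = 2 ^ (κ * n + s) + 2 ^ (κ * n + s) := by ring
    cases hi : i ⟨s, hs⟩
    · refine ⟨t₀ + t₁, by rw [e, hi]; simp, ?_⟩
      rw [e2]; exact (abs_add_le _ _).trans (add_le_add h0' h1')
    · refine ⟨t₀ - t₁, by rw [e, hi]; simp; ring, ?_⟩
      rw [e2]; exact (abs_sub _ _).trans (add_le_add h0' h1')

lemma fw_intBd {n : ℕ} (z : ℕ → Cube n → ℝ) (hz : ∀ κ i, z κ i = 1 ∨ z κ i = -1) :
    ∀ κ, IntBd (κ * n) (fw (Pm n n) z κ)
  | 0 => fun i => ⟨1, by simp [fw], by simp⟩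
  | κ + 1 => by
    have := tv_intBd z hz κ (fw_intBd z hz κ) n le_rfl
    rw [tv_last] at this
    exact this.mono (le_of_eq (by ring))

lemma exists_dec (e : ℕ) : ∃ dec : (Fin (e + 2) → Bool) → ℝ,
    ∀ t : ℤ, |t| ≤ 2 ^ e → ∃ β, dec β = t := by
  classical
  have hcard : Fintype.card (Finset.Icc (-(2 ^ e : ℤ)) (2 ^ e)) ≤
      Fintype.card (Fin (e + 2) → Bool) := by
    rw [Fintype.card_coe, Int.card_Icc]
    simp only [Fintype.card_pi, Fintype.card_bool, Finset.prod_const, Finset.card_univ,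
      Fintype.card_fin]
    rw [Int.toNat_le]
    push_cast
    have : (1 : ℤ) ≤ 2 ^ e := one_le_pow₀ (by norm_num)
    rw [pow_add]
    linarith
  obtain ⟨j⟩ := Function.Embedding.nonempty_of_card_le hcard
  refine ⟨Function.extend j (fun t => ((t : ℤ) : ℝ)) 0, fun t ht => ?_⟩
  exact ⟨j ⟨t, Finset.mem_Icc.mpr (abs_le.mp ht)⟩, j.injective.extend_apply _ _ _⟩

end FFT

open FFT in
theorem fft_proof (n k : ℕ) (θ₂ : ℝ) :
    ∃ (Pf : Type) (_ : Fintype Pf)
      (ok : (Fin (k + 1) × Fin (n + 1) × Cube n) → Cube n →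
        ((Fin (k + 1) × Cube n) ⊕ Pf → Bool) → Bool),
      (∀ c a, DT (4 * ((k + 1) * n + 2) + 1) (ok c a)) ∧
      (∀ x a π, (∀ c, ok c a (Sum.elim x π) = true) → θ₂ ≤ amp x a ^ 2) ∧
      (∀ x a, θ₂ ≤ amp x a ^ 2 → ∃ π, ∀ c, ok c a (Sum.elim x π) = true) := by
  classical
  obtain ⟨B, hB⟩ : ∃ B, B = (k + 1) * n + 2 := ⟨_, rfl⟩
  obtain ⟨dec, hdec⟩ : ∃ dec : (Fin B → Bool) → ℝ,
      ∀ t : ℤ, |t| ≤ 2 ^ ((k + 1) * n) → ∃ β, dec β = t := hB ▸ exists_dec ((k + 1) * n)
  set val : ℕ → ℕ → Cube n →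
      ((Fin (k + 1) × Cube n) ⊕ (Fin (k + 1) × Fin (n + 1) × Cube n × Fin B) → Bool) → ℝ :=
    fun κ s i y => if h : κ < k + 1 ∧ s < n + 1 then
      dec (fun β => y (.inr (⟨κ, h.1⟩, ⟨s, h.2⟩, i, β))) else 0 with hval
  set rhs : Fin (k + 1) → Fin (n + 1) → Cube n →
      ((Fin (k + 1) × Cube n) ⊕ (Fin (k + 1) × Fin (n + 1) × Cube n × Fin B) → Bool) → ℝ :=
    fun κ s i y => Fin.cases (motive := fun _ => ℝ)
      (sgn (y (.inl (κ, i))) * (if κ.val = 0 then 1 else val (κ.val - 1) n i y))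
      (fun s' => val κ s' (Function.update i s' false) y +
        sgn (i s') * val κ s' (Function.update i s' true) y) s with hrhs
  have hvalDT : ∀ κ s i, DT B (val κ s i) := by
    intro κ s i
    by_cases h : κ < k + 1 ∧ s < n + 1
    · refine ((DT.bits B (fun β => (.inr (⟨κ, h.1⟩, ⟨s, h.2⟩, i, β) :
        (Fin (k + 1) × Cube n) ⊕ (Fin (k + 1) × Fin (n + 1) × Cube n × Fin B)))).map dec).congr
        fun y => ?_
      simp only [hval, dif_pos h]
    · refine (DT.const B (0 : ℝ)).congr fun y => ?_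
      simp only [hval, dif_neg h]
  have hrhsDT : ∀ κ s i, DT (2 * B + 1) (rhs κ s i) := by
    intro κ s i
    refine Fin.cases ?_ (fun s' => ?_) s
    · refine (((DT.bit (.inl (κ, i))).map₂ (hvalDT (κ.val - 1) n i)
        (fun b t => sgn b * (if κ.val = 0 then 1 else t))).mono (by omega)).congr fun y => ?_
      simp only [hrhs, Fin.cases_zero]
    · refine (((hvalDT κ s' (Function.update i s' false)).map₂
        (hvalDT κ s' (Function.update i s' true)) (fun t t' => t + sgn (i s') * t')).mono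
        (by omega)).congr fun y => ?_
      simp only [hrhs, Fin.cases_succ]
  have hamp : ∀ (x : Fin (k + 1) × Cube n → Bool) (a : Cube n),
      θ₂ * (2 ^ n) ^ (k + 2) ≤ tv (blk fun v => sgn (x v)) k n a ^ 2 ↔ θ₂ ≤ amp x a ^ 2 := by
    intro x a
    have e1 : (Real.sqrt (2 ^ n) ^ (k + 1)) ^ 2 = (2 ^ n) ^ (k + 1) := by
      rw [← pow_mul, mul_comm, pow_mul, Real.sq_sqrt (by positivity)]
    have e2 : θ₂ * (2 ^ n) ^ (k + 2) = (2 ^ n) ^ (k + 1) * (θ₂ * 2 ^ n) := by ring
    rw [tv_last, fw_Pm, amp, mul_pow, div_pow, e1, e2, Real.sq_sqrt (by positivity),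
      le_div_iff₀ (by positivity)]
    exact mul_le_mul_iff_right₀ (by positivity)
  have htv : ∀ (x : Fin (k + 1) × Cube n → Bool) (π) (κ : Fin (k + 1)) (s : Fin (n + 1))
      (i : Cube n),
      (∀ κ' s' i', κ' < k + 1 → s' < n + 1 → κ' < κ.val ∨ (κ' = κ.val ∧ s' < s.val) →
        val κ' s' i' (Sum.elim x π) = tv (blk fun v => sgn (x v)) κ' s' i') →
      rhs κ s i (Sum.elim x π) = tv (blk fun v => sgn (x v)) κ s i := by
    intro x π κ s i
    refine Fin.cases (fun h => ?_) (fun s' h => ?_) s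
    · simp only [hrhs, Fin.cases_zero, Sum.elim_inl, Fin.val_zero, tv_zero]
      congr 1
      · simp only [blk, dif_pos κ.2]
      · split_ifs with h0
        · rw [h0]; rfl
        · rw [h (κ.val - 1) n i (by omega) (by omega) (Or.inl (by omega)), tv_last,
            show κ.val - 1 + 1 = κ.val by omega]
    · simp only [hrhs, Fin.cases_succ, Fin.val_succ, tv_succ]
      rw [h κ s' _ κ.2 (by omega) (Or.inr ⟨rfl, by simp⟩),
        h κ s' _ κ.2 (by omega) (Or.inr ⟨rfl, by simp⟩)]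
  refine ⟨Fin (k + 1) × Fin (n + 1) × Cube n × Fin B, inferInstance,
    fun c a y => decide (val c.1 c.2.1 c.2.2 y = rhs c.1 c.2.1 c.2.2 y ∧
      θ₂ * (2 ^ n) ^ (k + 2) ≤ val k n a y ^ 2), fun c a => ?_, fun x a π h => ?_,
    fun x a h => ?_⟩
  · exact ((((hvalDT c.1 c.2.1 c.2.2).pair (hrhsDT c.1 c.2.1 c.2.2)).map₂ (hvalDT k n a)
      (fun p t => decide (p.1 = p.2 ∧ θ₂ * (2 ^ n) ^ (k + 2) ≤ t ^ 2))).mono
      (by omega)).congr fun y => rfl
  · simp only [decide_eq_true_eq] at h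
    have hall : ∀ κ, κ < k + 1 → ∀ s, s < n + 1 → ∀ i,
        val κ s i (Sum.elim x π) = tv (blk fun v => sgn (x v)) κ s i := by
      intro κ
      induction κ using Nat.strong_induction_on with
      | _ κ ihκ =>
        intro hκ s
        induction s using Nat.strong_induction_on with
        | _ s ihs =>
          intro hs i
          refine (h (⟨κ, hκ⟩, ⟨s, hs⟩, i)).1.trans (htv x π ⟨κ, hκ⟩ ⟨s, hs⟩ i ?_)
          rintro κ' s' i' h1 h2 (h3 | ⟨h3, h4⟩)
          · exact ihκ κ' h3 h1 s' h2 i'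
          · subst h3
            exact ihs s' h4 h2 i'
    rw [← hamp, ← hall k (by omega) n (by omega)]
    exact (h (0, 0, a)).2
  · have hz : ∀ κ i, blk (fun v => sgn (x v)) κ i = 1 ∨ blk (fun v => sgn (x v)) κ i = -1 :=
      fun κ i => sq_eq_one_iff.mp (blk_sgn_sq x κ i)
    have hex : ∀ (κ : Fin (k + 1)) (s : Fin (n + 1)) (i : Cube n),
        ∃ β, dec β = tv (blk fun v => sgn (x v)) κ s i := by
      intro κ s i
      obtain ⟨t, h1, h2⟩ := (tv_intBd _ hz κ (fw_intBd _ hz κ) s (by omega)).mono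
        (e' := (k + 1) * n) (by
          have h1 : κ.val ≤ k := by omega
          have h2 : s.val ≤ n := by omega
          nlinarith) i
      rw [h1]
      exact hdec t h2
    choose β hβ using hex
    have hall : ∀ κ s i, κ < k + 1 → s < n + 1 →
        val κ s i (Sum.elim x fun p => β p.1 p.2.1 p.2.2.1 p.2.2.2) =
          tv (blk fun v => sgn (x v)) κ s i := by
      intro κ s i h1 h2
      simp only [hval, dif_pos (And.intro h1 h2), Sum.elim_inr]
      exact hβ ⟨κ, h1⟩ ⟨s, h2⟩ i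
    refine ⟨fun p => β p.1 p.2.1 p.2.2.1 p.2.2.2, fun c => ?_⟩
    simp only [decide_eq_true_eq]
    refine ⟨?_, ?_⟩
    · rw [hall _ _ _ c.1.2 c.2.1.2, htv x _ c.1 c.2.1 c.2.2 fun κ' s' i' h1 h2 _ =>
        hall κ' s' i' h1 h2]
    · rw [hall k n a (by omega) (by omega), hamp]
      exact h

end Crest.Agent.R350
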