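import Crest.Agent.R350.DTBasic

/-! # Row 350: level growth of the derivatives of a decision tree -/

set_option autoImplicit false

namespace Crest.Agent.R350

lemma gr_taylor (a h : ℝ) (n : ℕ) :
    |(a + h) ^ (n + 2) - a ^ (n + 2) - ((n : ℝ) + 2) * a ^ (n + 1) * h| ≤
      4 ^ n * h ^ 2 * (max |a| |h|) ^ n := by
  induction n with
  | zero =>
    have : (a + h) ^ (0 + 2) - a ^ (0 + 2) - (((0 : ℕ) : ℝ) + 2) * a ^ (0 + 1) * h = h ^ 2 := by
      push_cast; ring
    rw [this, abs_of_nonneg (sq_nonneg h)]; simp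
  | succ n ih =>
    set M := max |a| |h| with hM
    have hM0 : 0 ≤ M := le_trans (abs_nonneg a) (le_max_left _ _)
    have e : (a + h) ^ (n + 1 + 2) - a ^ (n + 1 + 2) - (((n + 1 : ℕ) : ℝ) + 2) * a ^ (n + 1 + 1) * h =
        (a + h) * ((a + h) ^ (n + 2) - a ^ (n + 2) - ((n : ℝ) + 2) * a ^ (n + 1) * h) +
          ((n : ℝ) + 2) * a ^ (n + 1) * h ^ 2 := by
      push_cast; ring
    rw [e]
    have h1 : |a + h| ≤ 2 * M := by
      have := abs_add_le a h
      have := le_max_left |a| |h|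
      have := le_max_right |a| |h|
      linarith
    have h2 : |((n : ℝ) + 2) * a ^ (n + 1) * h ^ 2| ≤ ((n : ℝ) + 2) * M ^ (n + 1) * h ^ 2 := by
      rw [abs_mul, abs_mul, abs_pow, abs_of_nonneg (sq_nonneg h),
        abs_of_nonneg (by positivity : (0 : ℝ) ≤ (n : ℝ) + 2)]
      gcongr
      exact le_max_left _ _
    have h3 : ((n : ℝ) + 2) ≤ 2 * 4 ^ n := by
      have : n + 2 ≤ 2 * 4 ^ n := by
        have := Nat.lt_pow_self (n := n) (show 1 < 4 by norm_num)
        omega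
      exact_mod_cast this
    calc _ ≤ |(a + h) * ((a + h) ^ (n + 2) - a ^ (n + 2) - ((n : ℝ) + 2) * a ^ (n + 1) * h)| +
          |((n : ℝ) + 2) * a ^ (n + 1) * h ^ 2| := abs_add_le _ _
      _ ≤ (2 * M) * (4 ^ n * h ^ 2 * M ^ n) + (2 * 4 ^ n) * M ^ (n + 1) * h ^ 2 := by
        rw [abs_mul]
        gcongr
        exact h2.trans (by gcongr)
      _ = 4 ^ (n + 1) * h ^ 2 * M ^ (n + 1) := by ring

lemma gr_young (A H t : ℝ) (hA : 0 ≤ A) (hH : 0 ≤ H) (ht : 0 < t) (ht1 : t ≤ 1) (m : ℕ) :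
    H * (max A H) ^ m ≤ t * A ^ (m + 1) + (1 / t) ^ (m + 1) * H ^ (m + 1) := by
  have h1t : 1 ≤ 1 / t := by rw [le_div_iff₀ ht]; linarith
  by_cases h : H ≤ t * A
  · have hHA : H ≤ A := h.trans (by nlinarith)
    rw [max_eq_left hHA]
    have : H * A ^ m ≤ t * A ^ (m + 1) := by
      calc H * A ^ m ≤ (t * A) * A ^ m := by gcongr
        _ = _ := by ring
    have : 0 ≤ (1 / t) ^ (m + 1) * H ^ (m + 1) := by positivity
    linarith
  · push Not at h
    have hm : max A H ≤ (1 / t) * H := by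
      apply max_le
      · rw [one_div, inv_mul_eq_div, le_div_iff₀ ht]; linarith
      · nlinarith
    have : H * (max A H) ^ m ≤ (1 / t) ^ (m + 1) * H ^ (m + 1) := by
      calc H * (max A H) ^ m ≤ ((1 / t) * H) * ((1 / t) * H) ^ m := by
            gcongr
            nlinarith
        _ = _ := by rw [← mul_pow]; ring
    have : 0 ≤ t * A ^ (m + 1) := by positivity
    linarith

/-- One-point form of the scalar lemma. -/
lemma gr_one (m : ℕ) (d : ℕ) (hd : 1 ≤ d) (a h b : ℝ) (hh : |h| ≤ 2 * |b|) :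
    (a + h) ^ (2 * (m + 1)) ≤ (1 + 1 / (d : ℝ)) * a ^ (2 * (m + 1)) +
      ((2 * m : ℕ) + 2 : ℝ) * a ^ (2 * m + 1) * h +
      (4 ^ (2 * m)) ^ (m + 2) * 4 ^ (m + 1) * (d : ℝ) ^ (m + 1) * b ^ (2 * (m + 1)) := by
  have hT := (abs_le.mp (gr_taylor a h (2 * m))).2
  have hd' : (1 : ℝ) ≤ d := by exact_mod_cast hd
  set C : ℝ := 4 ^ (2 * m) with hC
  have hC1 : 1 ≤ C := one_le_pow₀ (by norm_num)
  have hCd : 1 ≤ C * d := by nlinarith
  have hY := gr_young (a ^ 2) (h ^ 2) (1 / (C * d)) (sq_nonneg _) (sq_nonneg _) (by positivity)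
    (by rw [div_le_one (by positivity)]; exact hCd) m
  have hmax : (max |a| |h|) ^ (2 * m) = (max (a ^ 2) (h ^ 2)) ^ m := by
    rw [pow_mul]
    congr 1
    rcases le_total |a| |h| with h1 | h1
    · rw [max_eq_right h1, max_eq_right (sq_le_sq.mpr h1), sq_abs]
    · rw [max_eq_left h1, max_eq_left (sq_le_sq.mpr h1), sq_abs]
  rw [hmax] at hT
  have hh2 : h ^ 2 ≤ 4 * b ^ 2 := by
    have : h ^ 2 ≤ (2 * |b|) ^ 2 := by
      rw [← sq_abs h]; gcongr
    rw [mul_pow, sq_abs] at this; linarith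
  have hp : (h ^ 2) ^ (m + 1) ≤ 4 ^ (m + 1) * b ^ (2 * (m + 1)) := by
    calc (h ^ 2) ^ (m + 1) ≤ (4 * b ^ 2) ^ (m + 1) := by gcongr
      _ = _ := by rw [mul_pow, ← pow_mul]
  rw [one_div_one_div] at hY
  have hY2 : C * h ^ 2 * (max (a ^ 2) (h ^ 2)) ^ m ≤
      1 / (d : ℝ) * a ^ (2 * (m + 1)) + C ^ (m + 2) * 4 ^ (m + 1) * (d : ℝ) ^ (m + 1) * b ^ (2 * (m + 1)) := by
    calc C * h ^ 2 * (max (a ^ 2) (h ^ 2)) ^ m = C * (h ^ 2 * (max (a ^ 2) (h ^ 2)) ^ m) := by ring
      _ ≤ C * (1 / (C * d) * (a ^ 2) ^ (m + 1) + (C * d) ^ (m + 1) * (h ^ 2) ^ (m + 1)) := by gcongr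
      _ ≤ C * (1 / (C * d) * (a ^ 2) ^ (m + 1) +
          (C * d) ^ (m + 1) * (4 ^ (m + 1) * b ^ (2 * (m + 1)))) := by gcongr
      _ = _ := by
        rw [← pow_mul, mul_pow]
        field_simp
        ring
  have e1 : 2 * (m + 1) = 2 * m + 2 := by ring
  rw [e1] at hY2 ⊢
  linarith

/-- The scalar lemma. -/
lemma gr_scalar (m : ℕ) (d : ℕ) (hd : 1 ≤ d) (a b μ : ℝ) (hμ : |μ| ≤ 1 / 2) :
    (1 + μ) / 2 * (a + 1 / (1 + μ) * b) ^ (2 * (m + 1)) +
      (1 - μ) / 2 * (a - 1 / (1 - μ) * b) ^ (2 * (m + 1)) ≤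
      (1 + 1 / (d : ℝ)) * a ^ (2 * (m + 1)) +
      (4 ^ (2 * m)) ^ (m + 2) * 4 ^ (m + 1) * (d : ℝ) ^ (m + 1) * b ^ (2 * (m + 1)) := by
  obtain ⟨h1, h2⟩ := abs_le.mp hμ
  have p0 : 0 < 1 + μ := by linarith
  have p1 : 0 < 1 - μ := by linarith
  have k0 : |1 / (1 + μ) * b| ≤ 2 * |b| := by
    rw [abs_mul, abs_of_pos (by positivity)]
    gcongr
    rw [div_le_iff₀ p0]; linarith
  have k1 : |-(1 / (1 - μ) * b)| ≤ 2 * |b| := by
    rw [abs_neg, abs_mul, abs_of_pos (by positivity)]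
    gcongr
    rw [div_le_iff₀ p1]; linarith
  have g0 := mul_le_mul_of_nonneg_left (gr_one m d hd a _ b k0) (show 0 ≤ (1 + μ) / 2 by positivity)
  have g1 := mul_le_mul_of_nonneg_left (gr_one m d hd a _ b k1) (show 0 ≤ (1 - μ) / 2 by positivity)
  rw [← sub_eq_add_neg] at g1
  refine (add_le_add g0 g1).trans (le_of_eq ?_)
  field_simp
  ring

section
variable {V : Type} [Fintype V] [DecidableEq V]

lemma gr_sum_split (F : (V → Bool) → ℝ) (v : V) :
    ∑ x, F x = (∑ x, (F (Function.update x v false) + F (Function.update x v true))) / 2 := by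
  have hinv : Function.Involutive (fun x : V → Bool => Function.update x v (!x v)) := by
    intro x; simp
  have h1 : ∑ x, F x = ∑ x, F (Function.update x v (!x v)) :=
    (Equiv.sum_comp hinv.toPerm F).symm
  have h2 : ∑ x, (F (Function.update x v false) + F (Function.update x v true)) =
      ∑ x, (F x + F (Function.update x v (!x v))) := by
    refine Finset.sum_congr rfl fun x _ => ?_
    cases hx : x v
    · have : Function.update x v false = x := by rw [← hx]; simp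
      simp [this]
    · have : Function.update x v true = x := by rw [← hx]; simp
      simp [this, add_comm]
  rw [h2, Finset.sum_add_distrib, ← h1]; ring

/-- The weight of the bit `b` at `u`. -/
noncomputable def grW (S : Finset V) (μ : V → ℝ) (u : V) (b : Bool) : ℝ :=
  if u ∈ S then sgn b / 2 else (1 + μ u * sgn b) / 2

/-- The sum with the coordinate `v` frozen at `b`. -/
noncomputable def grZ (f : (V → Bool) → ℝ) (S : Finset V) (μ : V → ℝ) (v : V) (b : Bool) : ℝ :=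
  (∑ x : V → Bool, f (Function.update x v b) * ∏ u ∈ Finset.univ.erase v, grW S μ u (x u)) / 2

lemma gr_pd_split (f : (V → Bool) → ℝ) (S : Finset V) (μ : V → ℝ) (v : V) :
    pd f S μ = grW S μ v false * grZ f S μ v false + grW S μ v true * grZ f S μ v true := by
  have h : ∀ (x : V → Bool) (b : Bool), ∏ u, grW S μ u (Function.update x v b u) =
      grW S μ v b * ∏ u ∈ Finset.univ.erase v, grW S μ u (x u) := by
    intro x b
    rw [← Finset.mul_prod_erase Finset.univ _ (Finset.mem_univ v)]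
    simp only [Function.update_self]
    congr 1
    refine Finset.prod_congr rfl fun u hu => ?_
    rw [Function.update_of_ne (Finset.ne_of_mem_erase hu)]
  show ∑ x : V → Bool, f x * ∏ u, grW S μ u (x u) = _
  rw [gr_sum_split _ v]
  simp only [h, grZ]
  rw [Finset.sum_add_distrib, mul_div_assoc', mul_div_assoc', ← add_div, Finset.mul_sum, Finset.mul_sum]
  congr 2 <;> refine Finset.sum_congr rfl fun x _ => ?_ <;> ring

lemma gr_Z_insert (f : (V → Bool) → ℝ) (S : Finset V) (μ : V → ℝ) (v : V) (b : Bool) :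
    grZ f (insert v S) μ v b = grZ f S μ v b := by
  unfold grZ
  congr 1
  refine Finset.sum_congr rfl fun x _ => ?_
  congr 1
  refine Finset.prod_congr rfl fun u hu => ?_
  simp [grW, Finset.ne_of_mem_erase hu]

lemma gr_pd_restrict (f : (V → Bool) → ℝ) (S : Finset V) (μ : V → ℝ) (v : V) (b : Bool) :
    pd (fun y => f (Function.update y v b)) S μ = if v ∈ S then 0 else grZ f S μ v b := by
  rw [gr_pd_split _ S μ v]
  have : ∀ c, grZ (fun y => f (Function.update y v b)) S μ v c = grZ f S μ v b := by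
    intro c; simp [grZ]
  rw [this, this]
  by_cases hv : v ∈ S
  · simp only [grW, hv, if_true, sgn_false, sgn_true]; ring
  · simp only [grW, hv, if_false, sgn_false, sgn_true]; ring

lemma gr_pd_const (a : ℝ) (S : Finset V) (μ : V → ℝ) :
    pd (fun _ => a) S μ = if S = ∅ then a else 0 := by
  show ∑ x : V → Bool, a * ∏ u, grW S μ u (x u) = _
  rw [← Finset.mul_sum, ← Fintype.prod_sum]
  by_cases hS : S = ∅
  · subst hS
    have : ∀ u, ∑ b, grW (∅ : Finset V) μ u b = 1 := by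
      intro u; simp [grW]; ring
    rw [Finset.prod_congr rfl (fun u _ => this u)]
    simp
  · obtain ⟨v, hv⟩ := Finset.nonempty_iff_ne_empty.mpr hS
    rw [Finset.prod_eq_zero (Finset.mem_univ v)]
    · simp [hS]
    · simp [grW, hv]; ring

lemma gr_sum_sets (G : Finset V → ℝ) (v : V) :
    ∑ S, G S = ∑ S ∈ Finset.univ.filter (fun S : Finset V => v ∉ S), (G S + G (insert v S)) := by
  rw [Finset.sum_add_distrib, ← Finset.sum_filter_add_sum_filter_not Finset.univ (fun S => v ∉ S)]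
  congr 1
  symm
  refine Finset.sum_bij' (fun S _ => insert v S) (fun S _ => S.erase v) ?_ ?_ ?_ ?_ ?_
  · intro S _; simp
  · intro S _; simp
  · intro S hS; simp at hS; simp [hS]
  · intro S hS; simp at hS; simp [hS]
  · intro S _; rfl

lemma gr_main (m d : ℕ) (hd : 1 ≤ d) (μ : V → ℝ) (hμ : ∀ v, |μ v| ≤ 1 / 2) (w : ℝ)
    (hw : w = (4 ^ (2 * m)) ^ (m + 2) * 4 ^ (m + 1) * (d : ℝ) ^ (m + 1)) (r : ℕ) :
    ∀ f : (V → Bool) → ℝ, DT r f → (∀ x, |f x| ≤ 1) → ∀ Y : Finset V → ℝ,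
      (∑ S, Y S * pd f S μ) ^ (2 * (m + 1)) ≤
        (1 + 1 / (d : ℝ)) ^ r * ∑ S : Finset V, w ^ S.card * Y S ^ (2 * (m + 1)) := by
  have hw0 : 0 ≤ w := by rw [hw]; positivity
  have hev : Even (2 * (m + 1)) := even_two_mul _
  have hconst : ∀ (r : ℕ) (f : (V → Bool) → ℝ), (∃ a, ∀ x, f x = a) → (∀ x, |f x| ≤ 1) →
      ∀ Y : Finset V → ℝ, (∑ S, Y S * pd f S μ) ^ (2 * (m + 1)) ≤
        (1 + 1 / (d : ℝ)) ^ r * ∑ S : Finset V, w ^ S.card * Y S ^ (2 * (m + 1)) := by
    rintro r f ⟨a, ha⟩ hf Y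
    have hfa : f = fun _ => a := funext ha
    have ha1 : |a| ≤ 1 := by have := hf (fun _ => false); rwa [ha] at this
    subst hfa
    have h1 : ∑ S, Y S * pd (fun _ => a) S μ = Y ∅ * a := by
      simp [gr_pd_const]
    rw [h1]
    have h2 : (Y ∅ * a) ^ (2 * (m + 1)) ≤ Y ∅ ^ (2 * (m + 1)) := by
      rw [mul_pow]
      have : a ^ (2 * (m + 1)) ≤ 1 := by
        rw [← hev.pow_abs]; exact pow_le_one₀ (abs_nonneg _) ha1
      exact mul_le_of_le_one_right (hev.pow_nonneg _) this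
    have h3 : Y ∅ ^ (2 * (m + 1)) ≤ ∑ S : Finset V, w ^ S.card * Y S ^ (2 * (m + 1)) := by
      have := Finset.single_le_sum (f := fun S : Finset V => w ^ S.card * Y S ^ (2 * (m + 1)))
        (fun S _ => mul_nonneg (pow_nonneg hw0 _) (hev.pow_nonneg _)) (Finset.mem_univ ∅)
      simpa using this
    have h4 : (1 : ℝ) ≤ (1 + 1 / (d : ℝ)) ^ r := one_le_pow₀ (by
      have : (0 : ℝ) ≤ 1 / d := by positivity
      linarith)
    have h5 : 0 ≤ ∑ S : Finset V, w ^ S.card * Y S ^ (2 * (m + 1)) := (hev.pow_nonneg _).trans h3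
    nlinarith
  induction r with
  | zero => intro f hf; exact hconst 0 f hf.zero_inv
  | succ r ih =>
    intro f hf hf1 Y
    rcases hf.succ_inv with h | ⟨v, hv⟩
    · exact hconst _ f h hf1 Y
    obtain ⟨m1, m2⟩ := abs_le.mp (hμ v)
    have p0 : 0 < 1 + μ v := by linarith
    have p1 : 0 < 1 - μ v := by linarith
    set Y0 : Finset V → ℝ := fun S => if v ∈ S then 0 else Y S + 1 / (1 + μ v) * Y (insert v S)
      with hY0
    set Y1 : Finset V → ℝ := fun S => if v ∈ S then 0 else Y S - 1 / (1 - μ v) * Y (insert v S)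
      with hY1
    have i0 := ih _ (hv false) (fun x => hf1 _) Y0
    have i1 := ih _ (hv true) (fun x => hf1 _) Y1
    set A0 := ∑ S, Y0 S * pd (fun y => f (Function.update y v false)) S μ with hA0
    set A1 := ∑ S, Y1 S * pd (fun y => f (Function.update y v true)) S μ with hA1
    have hsplit : ∑ S, Y S * pd f S μ = (1 + μ v) / 2 * A0 + (1 - μ v) / 2 * A1 := by
      rw [hA0, hA1, gr_sum_sets _ v, gr_sum_sets (fun S => Y0 S * _) v,
        gr_sum_sets (fun S => Y1 S * _) v, Finset.mul_sum, Finset.mul_sum, ← Finset.sum_add_distrib]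
      refine Finset.sum_congr rfl fun S hS => ?_
      have hS' : v ∉ S := by simpa using hS
      rw [gr_pd_split f S μ v, gr_pd_split f (insert v S) μ v]
      simp only [gr_pd_restrict, gr_Z_insert, hY0, hY1, grW, hS', Finset.mem_insert_self, if_true,
        if_false, sgn_false, sgn_true]
      field_simp
      ring
    have hconv := (hev.convexOn_pow (𝕜 := ℝ)).2 (Set.mem_univ A0) (Set.mem_univ A1)
      (show 0 ≤ (1 + μ v) / 2 by positivity) (show 0 ≤ (1 - μ v) / 2 by positivity) (by ring)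
    simp only [smul_eq_mul] at hconv
    rw [hsplit]
    refine hconv.trans ?_
    have hsum : (1 + μ v) / 2 * (∑ S : Finset V, w ^ S.card * Y0 S ^ (2 * (m + 1))) +
        (1 - μ v) / 2 * (∑ S : Finset V, w ^ S.card * Y1 S ^ (2 * (m + 1))) ≤
        (1 + 1 / (d : ℝ)) * ∑ S : Finset V, w ^ S.card * Y S ^ (2 * (m + 1)) := by
      rw [gr_sum_sets _ v, gr_sum_sets (fun S => w ^ S.card * Y1 S ^ _) v,
        gr_sum_sets (fun S => w ^ S.card * Y S ^ _) v, Finset.mul_sum, Finset.mul_sum,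
        Finset.mul_sum, ← Finset.sum_add_distrib]
      refine Finset.sum_le_sum fun S hS => ?_
      have hS' : v ∉ S := by simpa using hS
      have hs := gr_scalar m d hd (Y S) (Y (insert v S)) (μ v) (hμ v)
      rw [← hw] at hs
      simp only [hY0, hY1, hS', Finset.mem_insert_self, if_true, if_false,
        Finset.card_insert_of_notMem hS']
      rw [zero_pow (by omega)]
      have hwS : 0 ≤ w ^ S.card := pow_nonneg hw0 _
      have hs' := mul_le_mul_of_nonneg_left hs hwS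
      have hx : 0 ≤ 1 / (d : ℝ) * (w ^ (S.card + 1) * Y (insert v S) ^ (2 * (m + 1))) :=
        mul_nonneg (by positivity) (mul_nonneg (pow_nonneg hw0 _) (hev.pow_nonneg _))
      rw [pow_succ] at hx ⊢
      nlinarith
    have hr : (0 : ℝ) ≤ (1 + 1 / (d : ℝ)) ^ r := by positivity
    calc _ ≤ (1 + μ v) / 2 * ((1 + 1 / (d : ℝ)) ^ r *
            ∑ S : Finset V, w ^ S.card * Y0 S ^ (2 * (m + 1))) +
          (1 - μ v) / 2 * ((1 + 1 / (d : ℝ)) ^ r *
            ∑ S : Finset V, w ^ S.card * Y1 S ^ (2 * (m + 1))) := by gcongr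
      _ = (1 + 1 / (d : ℝ)) ^ r *
          ((1 + μ v) / 2 * (∑ S : Finset V, w ^ S.card * Y0 S ^ (2 * (m + 1))) +
          (1 - μ v) / 2 * (∑ S : Finset V, w ^ S.card * Y1 S ^ (2 * (m + 1)))) := by ring
      _ ≤ (1 + 1 / (d : ℝ)) ^ r *
          ((1 + 1 / (d : ℝ)) * ∑ S : Finset V, w ^ S.card * Y S ^ (2 * (m + 1))) := by gcongr
      _ = _ := by ring

end

theorem growth (q : ℕ) (hq : 1 ≤ q) : ∃ K : ℝ, 1 ≤ K ∧
    ∀ (V : Type) [Fintype V] [DecidableEq V] (d : ℕ), 1 ≤ d → ∀ f : (V → Bool) → ℝ, DT d f →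
      (∀ x, |f x| ≤ 1) → ∀ μ : V → ℝ, (∀ v, |μ v| ≤ 1 / 2) → ∀ Y : Finset V → ℝ,
        (∑ S, Y S * pd f S μ) ^ (2 * q) ≤
          3 * ∑ S : Finset V, (K * (d : ℝ) ^ q) ^ S.card * Y S ^ (2 * q) := by
  obtain ⟨m, rfl⟩ : ∃ m, q = m + 1 := ⟨q - 1, by omega⟩
  refine ⟨(4 ^ (2 * m)) ^ (m + 2) * 4 ^ (m + 1), ?_, ?_⟩
  · exact one_le_mul_of_one_le_of_one_le (one_le_pow₀ (one_le_pow₀ (by norm_num)))
      (one_le_pow₀ (by norm_num))
  intro V _ _ d hd f hf hf1 μ hμ Y
  refine (gr_main m d hd μ hμ _ rfl d f hf hf1 Y).trans ?_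
  have hev : Even (2 * (m + 1)) := even_two_mul _
  have h3 : (1 + 1 / (d : ℝ)) ^ d ≤ 3 := by
    have h1 : (1 + 1 / (d : ℝ)) ≤ Real.exp (1 / d) := by
      have := Real.add_one_le_exp (1 / (d : ℝ)); linarith
    have hd0 : (d : ℝ) ≠ 0 := by positivity
    calc (1 + 1 / (d : ℝ)) ^ d ≤ Real.exp (1 / d) ^ d := by gcongr
      _ = Real.exp 1 := by rw [← Real.exp_nat_mul]; congr 1; field_simp
      _ ≤ 3 := by have := Real.exp_one_lt_d9; linarith
  refine mul_le_mul_of_nonneg_right h3 (Finset.sum_nonneg fun S _ => ?_)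
  exact mul_nonneg (by positivity) (hev.pow_nonneg _)

/-- The form that `key` uses: an injective family of sets of size `k`. -/
theorem growth_family (q : ℕ) (hq : 1 ≤ q) : ∃ K : ℝ, 1 ≤ K ∧
    ∀ (V : Type) [Fintype V] [DecidableEq V] (d : ℕ), 1 ≤ d → ∀ f : (V → Bool) → ℝ, DT d f →
      (∀ x, |f x| ≤ 1) → ∀ μ : V → ℝ, (∀ v, |μ v| ≤ 1 / 2) →
      ∀ (C : Type) [Fintype C] (s : C → Finset V) (k : ℕ) (β : C → ℝ) (B : ℝ),
        Function.Injective s → (∀ c, (s c).card = k) → (∀ c, β c ^ 2 ≤ B) →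
        (∑ c, β c * pd f (s c) μ) ^ (2 * q) ≤
          3 * (K * (d : ℝ) ^ q) ^ k * Fintype.card C * B ^ q := by
  obtain ⟨K, hK, h⟩ := growth q hq
  refine ⟨K, hK, ?_⟩
  intro V _ _ d hd f hf hf1 μ hμ C _ s k β B hs hk hβ
  classical
  set Y : Finset V → ℝ := Function.extend s β (fun _ => 0) with hY
  have hYs : ∀ c, Y (s c) = β c := fun c => hs.extend_apply _ _ c
  have hsum : ∀ G : Finset V → ℝ → ℝ, (∀ S, G S 0 = 0) →
      ∑ S, G S (Y S) = ∑ c, G (s c) (β c) := by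
    intro G hG
    symm
    refine Finset.sum_of_injOn s hs.injOn (fun c _ => Finset.mem_univ _) ?_ ?_
    · intro S _ hS
      have : Y S = 0 := by
        rw [hY, Function.extend_apply']
        rintro ⟨c, rfl⟩
        exact hS ⟨c, by simp, rfl⟩
      rw [this, hG]
    · intro c _; rw [hYs]
  have h1 := h V d hd f hf hf1 μ hμ Y
  rw [hsum (fun S y => y * pd f S μ) (by simp),
    hsum (fun S y => (K * (d : ℝ) ^ q) ^ S.card * y ^ (2 * q))
      (by intro S; rw [zero_pow (by omega), mul_zero])] at h1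
  refine h1.trans ?_
  have hw : 0 ≤ (K * (d : ℝ) ^ q) ^ k := by positivity
  have : ∑ c, (K * (d : ℝ) ^ q) ^ (s c).card * β c ^ (2 * q) ≤
      ∑ _c : C, (K * (d : ℝ) ^ q) ^ k * B ^ q := by
    refine Finset.sum_le_sum fun c _ => ?_
    rw [hk, pow_mul]
    gcongr
    exact hβ c
  rw [Finset.sum_const, Finset.card_univ, nsmul_eq_mul] at this
  nlinarith

end Crest.Agent.R350
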