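import Crest.Agent.R350.DTBasic

/-! # Row 350: the Hadamard matrix, the forrelation amplitudes -/

set_option autoImplicit false

namespace Crest.Agent.R350

open Matrix

/-- The tensor product of `n` two-by-two matrices. -/
def tens {n : ℕ} (M : Fin n → Matrix Bool Bool ℝ) : Matrix (Cube n) (Cube n) ℝ :=
  fun i j => ∏ t, M t (i t) (j t)

lemma tens_mul {n : ℕ} (M M' : Fin n → Matrix Bool Bool ℝ) :
    tens M * tens M' = tens fun t => M t * M' t := by
  ext i j
  simp only [Matrix.mul_apply, tens]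
  rw [Finset.prod_univ_sum, Fintype.piFinset_univ]
  exact Finset.sum_congr rfl fun l _ => Finset.prod_mul_distrib.symm

lemma tens_one {n : ℕ} : tens (fun _ : Fin n => (1 : Matrix Bool Bool ℝ)) = 1 := by
  ext i j
  simp only [tens, Matrix.one_apply]
  split_ifs with h
  · subst h; simp
  · obtain ⟨t, ht⟩ := Function.ne_iff.mp h
    exact Finset.prod_eq_zero (Finset.mem_univ t) (by simp [ht])

lemma tens_transpose {n : ℕ} (M : Fin n → Matrix Bool Bool ℝ) :
    (tens M)ᵀ = tens fun t => (M t)ᵀ := rfl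

lemma card_cube (n : ℕ) : (Fintype.card (Cube n) : ℝ) = 2 ^ n := by simp

theorem had_sq (n : ℕ) (i j : Cube n) : had n i j ^ 2 = 1 / (Fintype.card (Cube n) : ℝ) := by
  rw [had, ← Finset.prod_pow, card_cube]
  simp only [div_pow, sgn_sq, Real.sq_sqrt (show (0 : ℝ) ≤ 2 by norm_num)]
  simp

theorem had_orth (n : ℕ) : (had n)ᵀ * had n = 1 := by
  set h : Matrix Bool Bool ℝ := fun a b => sgn (a && b) / Real.sqrt 2 with hh
  have h1 : had n = tens fun _ => h := rfl
  have hs2 : Real.sqrt 2 * Real.sqrt 2 = 2 := Real.mul_self_sqrt (by norm_num)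
  have h2 : hᵀ * h = 1 := by
    ext a b
    cases a <;> cases b <;> simp [Matrix.mul_apply, hh] <;> field_simp <;> nlinarith
  rw [h1, tens_transpose, tens_mul]
  simp only [h2]
  exact tens_one

lemma sqrt_two_pow (n : ℕ) : Real.sqrt (2 ^ n) = Real.sqrt 2 ^ n := by
  rw [Real.sqrt_eq_iff_mul_self_eq (by positivity) (by positivity), ← mul_pow,
    Real.mul_self_sqrt (by norm_num)]

lemma had_apply (n : ℕ) (i j : Cube n) :
    had n i j = (∏ t, sgn (i t && j t)) / Real.sqrt (2 ^ n) := by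
  rw [had, Finset.prod_div_distrib, sqrt_two_pow]
  simp

lemma blk_sgn_sq {G : Type} {k : ℕ} (x : Fin (k + 1) × G → Bool) (κ : ℕ) (i : G) :
    blk (fun v => sgn (x v)) κ i ^ 2 = 1 := by
  unfold blk
  split_ifs
  · exact sgn_sq _
  · norm_num

lemma sum_sq_mulVec {G : Type} [Fintype G] [DecidableEq G] {H : Matrix G G ℝ} (hH : Hᵀ * H = 1)
    (v : G → ℝ) : ∑ i, (H.mulVec v) i ^ 2 = ∑ i, v i ^ 2 := by
  have h1 : ∀ u : G → ℝ, ∑ i, u i ^ 2 = u ⬝ᵥ u := fun u => by simp [dotProduct, sq]
  rw [h1, h1, dotProduct_mulVec, ← mulVec_transpose, mulVec_mulVec, hH, one_mulVec]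

lemma fw_sq_sum {n k : ℕ} (x : Fin (k + 1) × Cube n → Bool) :
    ∀ κ, ∑ a, fw (had n) (blk fun v => sgn (x v)) κ a ^ 2 = 2 ^ n
  | 0 => by simp [fw]
  | κ + 1 => by
    rw [fw, sum_sq_mulVec (had_orth n), ← fw_sq_sum x κ]
    exact Finset.sum_congr rfl fun a _ => by rw [mul_pow, blk_sgn_sq, one_mul]

theorem amp_sq_sum {n k : ℕ} (x : Fin (k + 1) × Cube n → Bool) : ∑ a, amp x a ^ 2 = 1 := by
  simp only [amp, div_pow, Real.sq_sqrt (show (0 : ℝ) ≤ 2 ^ n by positivity)]
  rw [← Finset.sum_div, fw_sq_sum]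
  exact div_self (by positivity)

lemma fw_congr {G : Type} [Fintype G] (H : Matrix G G ℝ) {z z' : ℕ → G → ℝ} :
    ∀ κ, (∀ s, s < κ → z s = z' s) → fw H z κ = fw H z' κ
  | 0, _ => rfl
  | κ + 1, h => by
    rw [fw, fw, fw_congr H κ (fun s hs => h s (by omega)), h κ (by omega)]

lemma exists_sgn_prod {T : Type} (s : Finset T) (f : T → Bool) :
    ∃ b, sgn b = ∏ t ∈ s, sgn (f t) := by
  classical
  induction s using Finset.induction_on with
  | empty => exact ⟨false, by simp⟩
  | insert a s ha ih =>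
    obtain ⟨b, hb⟩ := ih
    exact ⟨xor (f a) b, by rw [Finset.prod_insert ha, sgn_xor, hb]⟩

/-- Multiplying the last block by the character of `a` moves the amplitude of `0` to `a`. -/
theorem amp_shift (n k : ℕ) (a : Cube n) : ∃ m : Cube n → Bool,
    ∀ x : Fin (k + 1) × Cube n → Bool,
      amp (fun v => xor (x v) (if v.1 = Fin.last k then m v.2 else false)) a =
        forr (had n) (fun v => sgn (x v)) := by
  choose m hm using fun i : Cube n => exists_sgn_prod Finset.univ (fun t => a t && i t)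
  refine ⟨m, fun x => ?_⟩
  have h1 : fw (had n) (blk fun v : Fin (k + 1) × Cube n =>
      sgn (xor (x v) (if v.1 = Fin.last k then m v.2 else false))) k =
      fw (had n) (blk fun v => sgn (x v)) k := by
    refine fw_congr _ k fun s hs => ?_
    funext i
    have hs' : s < k + 1 := by omega
    have : (⟨s, hs'⟩ : Fin (k + 1)) ≠ Fin.last k := by
      intro h
      have := congrArg Fin.val h
      simp at this
      omega
    simp [blk, hs', this]
  have hp : (0 : ℝ) < Real.sqrt (2 ^ n) := Real.sqrt_pos.mpr (by positivity)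
  have hsq : Real.sqrt (2 ^ n) * Real.sqrt (2 ^ n) = 2 ^ n := Real.mul_self_sqrt (by positivity)
  rw [amp, forr, fw, h1, card_cube, mulVec, dotProduct, Finset.sum_div, Finset.sum_div]
  refine Finset.sum_congr rfl fun i _ => ?_
  have h2 : blk (fun v : Fin (k + 1) × Cube n =>
      sgn (xor (x v) (if v.1 = Fin.last k then m v.2 else false))) k i =
      blk (fun v => sgn (x v)) k i * sgn (m i) := by
    have : (⟨k, Nat.lt_succ_self k⟩ : Fin (k + 1)) = Fin.last k := rfl
    simp [blk, this, sgn_xor]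
  rw [h2, had_apply, ← hm i]
  have h3 := sgn_mul_self (m i)
  generalize Real.sqrt (2 ^ n) = s at *
  rw [← hsq]
  field_simp
  rw [sgn_sq, one_mul]

end Crest.Agent.R350
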