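import Crest.Agent.R350.DTBasic

/-! # Row 350: closure properties of `Impl` -/

set_option autoImplicit false

namespace Crest.Agent.R350

open Matrix

section phase
variable {ι E : Type} [DecidableEq E]

lemma phase_transpose (idx : E → Option ι) (x : ι → Bool) : (phase idx x)ᵀ = phase idx x := by
  simp [phase]

lemma phase_mul_self [Fintype E] (idx : E → Option ι) (x : ι → Bool) :
    phase idx x * phase idx x = 1 := by
  rw [phase, diagonal_mul_diagonal, ← diagonal_one]
  congr 1
  funext e
  cases idx e with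
  | none => simp
  | some i => simp [sgn_mul_self]

lemma phase_none (x : ι → Bool) : phase (fun _ : E => (none : Option ι)) x = 1 := by
  simp [phase]

end phase

namespace Impl

variable {ι ι' E E' C : Type} [Fintype E] [DecidableEq E] [Fintype E'] [DecidableEq E']

lemma congr {q : ℕ} {U W : (ι → Bool) → Matrix E E ℝ} (h : Impl q U) (hUW : ∀ x, U x = W x) :
    Impl q W := by
  have : U = W := funext hUW
  exact this ▸ h

lemma orth : ∀ {q : ℕ} {U : (ι → Bool) → Matrix E E ℝ}, Impl q U → ∀ x, (U x)ᵀ * U x = 1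
  | 0, U, ⟨A, hA, h⟩, x => by rw [h x, hA]
  | q + 1, U, ⟨A, idx, W, hA, hW, h⟩, x => by
    have ih := orth hW x
    rw [h x, transpose_mul, transpose_mul, phase_transpose]
    calc (W x)ᵀ * (phase idx x * Aᵀ) * (A * phase idx x * W x)
        = (W x)ᵀ * (phase idx x * (Aᵀ * A) * phase idx x) * W x := by
          simp only [Matrix.mul_assoc]
      _ = 1 := by rw [hA, Matrix.mul_one, phase_mul_self, Matrix.mul_one, ih]

lemma const (A : Matrix E E ℝ) (hA : Aᵀ * A = 1) : Impl 0 (fun _ : ι → Bool => A) :=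
  ⟨A, hA, fun _ => rfl⟩

lemma orth_mul {A B : Matrix E E ℝ} (hA : Aᵀ * A = 1) (hB : Bᵀ * B = 1) :
    (A * B)ᵀ * (A * B) = 1 := by
  rw [transpose_mul]
  calc Bᵀ * Aᵀ * (A * B) = Bᵀ * (Aᵀ * A) * B := by simp only [Matrix.mul_assoc]
    _ = 1 := by rw [hA, Matrix.mul_one, hB]

lemma const_mul (A : Matrix E E ℝ) (hA : Aᵀ * A = 1) :
    ∀ {q : ℕ} {U : (ι → Bool) → Matrix E E ℝ}, Impl q U → Impl q (fun x => A * U x)
  | 0, _, ⟨B, hB, h⟩ => ⟨A * B, orth_mul hA hB, fun x => by simp only [h x]⟩
  | _ + 1, _, ⟨B, idx, W, hB, hW, h⟩ =>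
    ⟨A * B, idx, W, orth_mul hA hB, hW, fun x => by simp only [h x, Matrix.mul_assoc]⟩

lemma mul {q : ℕ} {W : (ι → Bool) → Matrix E E ℝ} (hW : Impl q W) :
    ∀ {p : ℕ} {U : (ι → Bool) → Matrix E E ℝ}, Impl p U → Impl (q + p) (fun x => U x * W x)
  | 0, _, ⟨A, hA, h⟩ => (const_mul A hA hW).congr (fun x => by simp only [h x])
  | _ + 1, _, ⟨A, idx, W', hA, hW', h⟩ =>
    ⟨A, idx, fun x => W' x * W x, hA, mul hW hW', fun x => by
      simp only [h x, Matrix.mul_assoc]⟩

lemma query (idx : E → Option ι) : Impl 1 (phase idx) :=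
  ⟨1, idx, fun _ => 1, by simp, const 1 (by simp), fun x => by simp⟩

lemma succ {q : ℕ} {U : (ι → Bool) → Matrix E E ℝ} (h : Impl q U) : Impl (q + 1) U :=
  ⟨1, fun _ => none, U, by simp, h, fun x => by simp [phase_none]⟩

lemma mono {p q : ℕ} {U : (ι → Bool) → Matrix E E ℝ} (h : Impl p U) (hpq : p ≤ q) :
    Impl q U := by
  induction hpq with
  | refl => exact h
  | step _ ih => exact ih.succ

lemma transpose : ∀ {q : ℕ} {U : (ι → Bool) → Matrix E E ℝ}, Impl q U →
    Impl q (fun x => (U x)ᵀ)
  | 0, _, ⟨A, hA, h⟩ => ⟨Aᵀ, by rw [transpose_transpose]; exact mul_eq_one_comm.mp hA,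
      fun x => by simp only [h x]⟩
  | q + 1, _, ⟨A, idx, W, hA, hW, h⟩ => by
    have h1 : Impl 0 (fun _ : ι → Bool => Aᵀ) :=
      const Aᵀ (by rw [transpose_transpose]; exact mul_eq_one_comm.mp hA)
    have h2 := (h1.mul (query idx)).mul (transpose hW)
    refine (h2.mono (by omega)).congr (fun x => ?_)
    rw [h x, transpose_mul, transpose_mul, phase_transpose]

lemma block [Fintype C] [DecidableEq C] :
    ∀ {q : ℕ} {U : C → (ι → Bool) → Matrix E E ℝ}, (∀ c, Impl q (U c)) →
      Impl q (fun x => blockDiagonal fun c => U c x)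
  | 0, U, h => by
    choose A hA h' using h
    refine ⟨blockDiagonal A, ?_, fun x => ?_⟩
    · rw [blockDiagonal_transpose, ← blockDiagonal_mul]
      simp only [hA]
      exact blockDiagonal_one
    · beta_reduce
      congr 1; funext c; exact h' c x
  | q + 1, U, h => by
    choose A idx W hA hW h' using h
    refine ⟨blockDiagonal A, fun e => idx e.2 e.1, fun x => blockDiagonal fun c => W c x, ?_,
      block hW, fun x => ?_⟩
    · rw [blockDiagonal_transpose, ← blockDiagonal_mul]
      simp only [hA]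
      exact blockDiagonal_one
    · have : phase (fun e : E × C => idx e.2 e.1) x = blockDiagonal fun c => phase (idx c) x := by
        simp only [phase]
        rw [blockDiagonal_diagonal]
      beta_reduce
      rw [this, ← blockDiagonal_mul, ← blockDiagonal_mul]
      congr 1; funext c; exact h' c x

lemma submatrix (e : E' ≃ E) : ∀ {q : ℕ} {U : (ι → Bool) → Matrix E E ℝ}, Impl q U →
    Impl q (fun x => (U x).submatrix e e)
  | 0, _, ⟨A, hA, h⟩ => ⟨A.submatrix e e, by
      rw [transpose_submatrix, submatrix_mul_equiv, hA, submatrix_one_equiv],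
      fun x => by simp only [h x]⟩
  | _ + 1, _, ⟨A, idx, W, hA, hW, h⟩ => by
    refine ⟨A.submatrix e e, fun e' => idx (e e'), fun x => (W x).submatrix e e, ?_,
      submatrix e hW, fun x => ?_⟩
    · rw [transpose_submatrix, submatrix_mul_equiv, hA, submatrix_one_equiv]
    · have : phase (fun e' => idx (e e')) x = (phase idx x).submatrix e e := by
        simp only [phase]
        rw [submatrix_diagonal_equiv]
        rfl
      beta_reduce
      rw [this, submatrix_mul_equiv, submatrix_mul_equiv, h x]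

lemma comap (j : ι → ι') : ∀ {q : ℕ} {U : (ι → Bool) → Matrix E E ℝ}, Impl q U →
    Impl q (fun y : ι' → Bool => U (fun i => y (j i)))
  | 0, _, ⟨A, hA, h⟩ => ⟨A, hA, fun _ => h _⟩
  | _ + 1, _, ⟨A, idx, W, hA, hW, h⟩ => by
    refine ⟨A, fun e => (idx e).map j, fun y => W (fun i => y (j i)), hA, comap j hW, fun y => ?_⟩
    have : phase (fun e => (idx e).map j) y = phase idx (fun i => y (j i)) := by
      simp only [phase]
      congr 1
      funext e
      cases idx e <;> simp
    beta_reduce
    rw [this, h]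

end Impl

/-- A real orthogonal matrix with a prescribed column. -/
lemma exists_orth_col {D : Type} [Fintype D] [DecidableEq D] (v : D → ℝ) (d₀ : D)
    (hv : ∑ d, v d ^ 2 = 1) (h0 : 0 ≤ v d₀) :
    ∃ A : Matrix D D ℝ, Aᵀ * A = 1 ∧ ∀ d, A d d₀ = v d := by
  set u : D → ℝ := fun d => (if d = d₀ then 1 else 0) + v d with hu
  have hc : (0 : ℝ) < 1 + v d₀ := by linarith
  have huu : ∑ d, u d * u d = 2 * (1 + v d₀) := by
    have : ∀ d, u d * u d = (if d = d₀ then 1 + 2 * v d else 0) + v d ^ 2 := by
      intro d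
      simp only [hu]
      split_ifs <;> ring
    simp only [this, Finset.sum_add_distrib, hv, Finset.sum_ite_eq', Finset.mem_univ, if_true]
    ring
  refine ⟨fun i j => u i * u j / (1 + v d₀) - if i = j then 1 else 0, ?_, fun d => ?_⟩
  · ext i j
    simp only [Matrix.mul_apply, transpose_apply, Matrix.one_apply]
    have : ∀ d, (u d * u i / (1 + v d₀) - if d = i then 1 else 0) *
        (u d * u j / (1 + v d₀) - if d = j then 1 else 0) =
        (u i * u j / (1 + v d₀) ^ 2) * (u d * u d)
          - (if d = j then u d * u i / (1 + v d₀) else 0)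
          - (if d = i then u d * u j / (1 + v d₀) else 0)
          + (if d = i then (if d = j then 1 else 0) else 0) := by
      intro d
      split_ifs <;> field_simp <;> ring
    simp only [this, Finset.sum_add_distrib, Finset.sum_sub_distrib, ← Finset.mul_sum, huu,
      Finset.sum_ite_eq', Finset.mem_univ, if_true]
    field_simp
    ring
  · simp only [hu, if_true]
    field_simp
    ring

end Crest.Agent.R350
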