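import Mathlib

/-! # Row 350: the uniform measure on a cube of angles, integration by parts, independence -/

set_option autoImplicit false

open MeasureTheory Real Set

namespace Crest.Agent.R350

/-- uniform probability on `[-π/2, π/2]` -/
noncomputable def kyNu : Measure ℝ :=
  (ENNReal.ofReal π)⁻¹ • (volume : Measure ℝ).restrict (Icc (-(π / 2)) (π / 2))

instance : IsProbabilityMeasure kyNu := ⟨by
  have h : π / 2 - -(π / 2) = π := by ring
  simp only [kyNu, Measure.smul_apply, Measure.restrict_apply MeasurableSet.univ, univ_inter,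
    Real.volume_Icc, h, smul_eq_mul]
  exact ENNReal.inv_mul_cancel (by simpa using pi_pos) ENNReal.ofReal_ne_top⟩

lemma ky_integral_nu (h : ℝ → ℝ) :
    ∫ s, h s ∂kyNu = (∫ s in (-(π / 2))..(π / 2), h s) / π := by
  have hle : -(π / 2) ≤ π / 2 := by linarith [pi_pos]
  rw [kyNu, integral_smul_measure, intervalIntegral.integral_of_le hle, integral_Icc_eq_integral_Ioc]
  simp only [ENNReal.toReal_inv, ENNReal.toReal_ofReal pi_pos.le, smul_eq_mul]
  ring

lemma ky_ae_nu : ∀ᵐ s ∂kyNu, s ∈ Icc (-(π / 2)) (π / 2) := by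
  unfold kyNu
  exact Measure.ae_smul_measure (ae_restrict_mem measurableSet_Icc) _

variable {J : Type} [Fintype J] [DecidableEq J]

/-- product measure -/
noncomputable def kyMu (J : Type) [Fintype J] : Measure (J → ℝ) := Measure.pi fun _ => kyNu

instance : IsProbabilityMeasure (kyMu J) := by unfold kyMu; infer_instance

/-- expectation -/
noncomputable def kyE (g : (J → ℝ) → ℝ) : ℝ := ∫ U, g U ∂kyMu J

omit [DecidableEq J] in
lemma ky_integrable {g : (J → ℝ) → ℝ} (hg : Continuous g) : Integrable g (kyMu J) := by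
  have hK : IsCompact (Set.pi univ fun _ : J => Icc (-(π / 2)) (π / 2)) :=
    isCompact_univ_pi fun _ => isCompact_Icc
  have hae : ∀ᵐ U ∂kyMu J, U ∈ Set.pi univ fun _ : J => Icc (-(π / 2)) (π / 2) := by
    have : ∀ j : J, ∀ᵐ U ∂kyMu J, U j ∈ Icc (-(π / 2)) (π / 2) := fun j =>
      (Measure.tendsto_eval_ae_ae (μ := fun _ : J => kyNu) (i := j)).eventually ky_ae_nu
    filter_upwards [ae_all_iff.2 this] with U hU j _ using hU j
  have h := hg.continuousOn.integrableOn_compact (μ := kyMu J) hK
  rwa [IntegrableOn, Measure.restrict_eq_self_of_ae_mem hae] at h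

omit [DecidableEq J] in
lemma ky_mp (p : J → Prop) [DecidablePred p] :
    MeasurePreserving (fun W : (J → ℝ) × (J → ℝ) => fun j => if p j then W.2 j else W.1 j)
      ((kyMu J).prod (kyMu J)) (kyMu J) := by
  have hm : Measurable (fun W : (J → ℝ) × (J → ℝ) => fun j => if p j then W.2 j else W.1 j) := by
    refine measurable_pi_lambda _ fun j => ?_
    split_ifs
    · exact (measurable_pi_apply j).comp measurable_snd
    · exact (measurable_pi_apply j).comp measurable_fst
  refine ⟨hm, ?_⟩
  symm
  refine Measure.pi_eq fun s hs => ?_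
  rw [Measure.map_apply hm (MeasurableSet.univ_pi hs)]
  have : (fun W : (J → ℝ) × (J → ℝ) => fun j => if p j then W.2 j else W.1 j) ⁻¹' (Set.pi univ s)
      = (Set.pi univ fun j => if p j then univ else s j) ×ˢ
        (Set.pi univ fun j => if p j then s j else univ) := by
    ext W
    simp only [mem_preimage, mem_pi, mem_univ, forall_true_left, mem_prod]
    constructor
    · intro h
      constructor <;> intro j <;> have := h j <;> split_ifs at this ⊢ <;> simp [this]
    · rintro ⟨h1, h2⟩ j
      have a := h1 j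
      have b := h2 j
      split_ifs at a b ⊢ <;> assumption
  rw [this, Measure.prod_prod]
  simp only [kyMu, Measure.pi_pi]
  rw [← Finset.prod_mul_distrib]
  refine Finset.prod_congr rfl fun j _ => ?_
  split_ifs <;> simp

omit [DecidableEq J] in
lemma ky_fact (p : J → Prop) [DecidablePred p] {X Y : (J → ℝ) → ℝ} (hX : Continuous X)
    (hY : Continuous Y) (h1 : ∀ U U', (∀ j, p j → U j = U' j) → X U = X U')
    (h2 : ∀ U U', (∀ j, ¬ p j → U j = U' j) → Y U = Y U') :
    kyE (fun U => X U * Y U) = kyE X * kyE Y := by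
  have hmp := ky_mp p
  have e1 : kyE (fun U => X U * Y U) = ∫ W : (J → ℝ) × (J → ℝ), Y W.1 * X W.2
      ∂((kyMu J).prod (kyMu J)) := by
    unfold kyE
    have hc : Continuous fun U => X U * Y U := hX.mul hY
    conv_lhs => rw [← hmp.map_eq, integral_map hmp.measurable.aemeasurable
      hc.aestronglyMeasurable]
    refine integral_congr_ae (Filter.Eventually.of_forall fun W => ?_)
    simp only
    rw [mul_comm, h1 _ W.2 (fun j hj => by simp [hj]), h2 _ W.1 (fun j hj => by simp [hj])]
  rw [e1, integral_prod_mul, mul_comm]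
  rfl

lemma ky_resample (j : J) {g : (J → ℝ) → ℝ} (hg : Continuous g) :
    kyE g = kyE (fun U => ∫ s, g (Function.update U j s) ∂kyNu) := by
  have hmp := ky_mp (J := J) (fun i => i = j)
  have hint := hmp.integrable_comp_of_integrable (ky_integrable hg)
  unfold kyE
  conv_lhs => rw [← hmp.map_eq, integral_map hmp.measurable.aemeasurable hg.aestronglyMeasurable]
  refine (integral_prod _ hint).trans ?_
  refine integral_congr_ae (Filter.Eventually.of_forall fun U => ?_)
  simp only [Function.comp]
  have he := measurePreserving_eval (μ := fun _ : J => kyNu) j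
  have hc : Continuous fun s => g (Function.update U j s) :=
    hg.comp (continuous_const.update j continuous_id)
  rw [← he.map_eq, integral_map he.measurable.aemeasurable hc.aestronglyMeasurable]
  refine integral_congr_ae (Filter.Eventually.of_forall fun U' => ?_)
  simp only
  congr 1
  ext i
  by_cases h : i = j
  · subst h; simp
  · simp [h]

lemma ky_ibp (j : J) {K K' : (J → ℝ) → ℝ} (hK' : Continuous K')
    (h : ∀ U s, HasDerivAt (fun s => K (Function.update U j s)) (K' (Function.update U j s)) s) :
    kyE K' = kyE (fun U => (K (Function.update U j (π / 2)) -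
      K (Function.update U j (-(π / 2)))) / π) := by
  rw [ky_resample j hK']
  congr 1
  ext U
  rw [ky_integral_nu, intervalIntegral.integral_eq_sub_of_hasDerivAt (fun s _ => h U s)]
  exact (hK'.comp (continuous_const.update j continuous_id)).intervalIntegrable _ _

omit [DecidableEq J] in
lemma kyE_add {f g : (J → ℝ) → ℝ} (hf : Continuous f) (hg : Continuous g) :
    kyE (fun U => f U + g U) = kyE f + kyE g :=
  integral_add (ky_integrable hf) (ky_integrable hg)

omit [DecidableEq J] in
lemma kyE_sub {f g : (J → ℝ) → ℝ} (hf : Continuous f) (hg : Continuous g) :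
    kyE (fun U => f U - g U) = kyE f - kyE g :=
  integral_sub (ky_integrable hf) (ky_integrable hg)

omit [DecidableEq J] in
lemma kyE_const_mul (c : ℝ) (f : (J → ℝ) → ℝ) : kyE (fun U => c * f U) = c * kyE f :=
  integral_const_mul c f

omit [DecidableEq J] in
lemma kyE_const (c : ℝ) : kyE (fun _ : J → ℝ => c) = c := by simp [kyE]

omit [DecidableEq J] in
lemma kyE_sum {C : Type} (s : Finset C) {f : C → (J → ℝ) → ℝ} (hf : ∀ c, Continuous (f c)) :
    kyE (fun U => ∑ c ∈ s, f c U) = ∑ c ∈ s, kyE (f c) :=
  integral_finsetSum s fun c _ => ky_integrable (hf c)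

omit [DecidableEq J] in
lemma kyE_mono {f g : (J → ℝ) → ℝ} (hf : Continuous f) (hg : Continuous g) (h : ∀ U, f U ≤ g U) :
    kyE f ≤ kyE g :=
  integral_mono (ky_integrable hf) (ky_integrable hg) h

omit [DecidableEq J] in
lemma kyE_nonneg {f : (J → ℝ) → ℝ} (h : ∀ U, 0 ≤ f U) : 0 ≤ kyE f := integral_nonneg h

omit [DecidableEq J] in
lemma kyE_pow_le {g : (J → ℝ) → ℝ} (hg : Continuous g) (q : ℕ) (M : ℝ)
    (h : ∀ U, g U ^ (2 * q) ≤ M) : kyE g ^ (2 * q) ≤ M := by
  have hconv : ConvexOn ℝ univ (fun x : ℝ => x ^ (2 * q)) := Even.convexOn_pow (by simp)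
  have h1 := hconv.map_integral_le (μ := kyMu J) (f := g) (continuous_pow _).continuousOn
    isClosed_univ (Filter.Eventually.of_forall fun _ => mem_univ _) (ky_integrable hg)
    (ky_integrable (hg.pow (2 * q)))
  refine h1.trans ?_
  have := kyE_mono (hg.pow (2 * q)) continuous_const h
  rwa [kyE_const] at this

lemma ky_stein (j : J) {F F' : (J → ℝ) → ℝ} (hF : Continuous F) (hF' : Continuous F')
    (h : ∀ U s, HasDerivAt (fun s => F (Function.update U j s)) (F' (Function.update U j s)) s) :
    kyE (fun U => sin (U j) * F U) = kyE (fun U => cos (U j) * F' U) := by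
  have c1 : Continuous fun U : J → ℝ => cos (U j) * F' U := by fun_prop
  have c2 : Continuous fun U : J → ℝ => sin (U j) * F U := by fun_prop
  have := ky_ibp j (K := fun U => cos (U j) * F U)
    (K' := fun U => cos (U j) * F' U - sin (U j) * F U) (c1.sub c2) (by
      intro U s
      simp only [Function.update_self]
      have := (hasDerivAt_cos s).mul (h U s)
      refine this.congr_deriv ?_
      ring)
  rw [kyE_sub c1 c2] at this
  simp only [Function.update_self, cos_neg, cos_pi_div_two, zero_mul, sub_self, zero_div,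
    kyE_const] at this
  linarith

lemma ky_sq (j : J) : kyE (fun U : J → ℝ => U j * U j) = π ^ 2 / 12 := by
  have := ky_ibp j (K := fun U => U j ^ 3 / 3) (K' := fun U => U j * U j) (by fun_prop) (by
    intro U s
    simp only [Function.update_self]
    refine ((hasDerivAt_pow 3 s).div_const 3).congr_deriv ?_
    norm_num; ring)
  rw [this]
  simp only [Function.update_self, kyE_const]
  field_simp
  ring

lemma ky_cross {j j' : J} (hj : j ≠ j') : kyE (fun U : J → ℝ => U j * U j') = 0 := by
  have := ky_ibp j (K := fun U => U j ^ 2 / 2 * U j') (K' := fun U => U j * U j') (by fun_prop) (by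
    intro U s
    simp only [Function.update_self, Function.update_of_ne hj.symm]
    refine (((hasDerivAt_pow 2 s).div_const 2).mul_const (U j')).congr_deriv ?_
    norm_num)
  rw [this]
  simp [Function.update_of_ne hj.symm, kyE_const]

lemma ky_lin_sq (c : J → ℝ) :
    kyE (fun U : J → ℝ => (∑ j, c j * U j) ^ 2) = (∑ j, c j ^ 2) * (π ^ 2 / 12) := by
  have e : (fun U : J → ℝ => (∑ j, c j * U j) ^ 2) =
      fun U => ∑ j, ∑ j', c j * c j' * (U j * U j') := by
    ext U
    rw [sq, Finset.sum_mul_sum]
    refine Finset.sum_congr rfl fun j _ => Finset.sum_congr rfl fun j' _ => by ring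
  rw [e, kyE_sum _ (fun j => by fun_prop), Finset.sum_mul]
  refine Finset.sum_congr rfl fun j _ => ?_
  rw [kyE_sum _ (fun j => by fun_prop), Finset.sum_eq_single j]
  · rw [kyE_const_mul, ky_sq]; ring
  · intro j' _ hj'
    rw [kyE_const_mul, ky_cross hj'.symm, mul_zero]
  · simp

/-- the basic correlation estimate -/
lemma ky_cos_cos (c : J → ℝ) (hc : ∑ j, c j ^ 2 = 1) (j : J) :
    1 / 6 ≤ kyE (fun U : J → ℝ => cos (U j) * cos (∑ j, c j * U j)) := by
  have h1 : kyE (fun U : J → ℝ => 1 - (1 / 2) * (U j * U j) - (1 / 2) * (∑ j, c j * U j) ^ 2) ≤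
      kyE (fun U : J → ℝ => cos (U j) * cos (∑ j, c j * U j)) := by
    refine kyE_mono (by fun_prop) (by fun_prop) fun U => ?_
    have a := one_sub_sq_div_two_le_cos (x := U j)
    have b := one_sub_sq_div_two_le_cos (x := ∑ j, c j * U j)
    have a' := cos_le_one (U j)
    have b' := cos_le_one (∑ j, c j * U j)
    nlinarith [mul_nonneg (sub_nonneg.2 a') (sub_nonneg.2 b')]
  rw [kyE_sub (by fun_prop) (by fun_prop), kyE_sub (by fun_prop) (by fun_prop), kyE_const,
    kyE_const_mul, kyE_const_mul, ky_sq, ky_lin_sq, hc] at h1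
  have hpi : π ^ 2 < 10 := by nlinarith [pi_lt_d2, pi_pos]
  linarith

end Crest.Agent.R350
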