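import Crest.Agent.R350.DTBasic

/-! # Row 350: calculus of the multilinear extension -/

set_option autoImplicit false

namespace Crest.Agent.R350

variable {V : Type} [Fintype V] [DecidableEq V]

lemma ky_pd_continuous {X : Type} [TopologicalSpace X] (f : (V → Bool) → ℝ) (S : Finset V)
    {μ : X → V → ℝ} (h : ∀ v, Continuous fun x => μ x v) : Continuous fun x => pd f S (μ x) := by
  unfold pd
  refine continuous_finsetSum _ fun x _ => continuous_const.mul ?_
  refine continuous_finsetProd _ fun v _ => ?_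
  split_ifs
  · exact continuous_const
  · have := h v
    fun_prop

lemma ky_pd_deriv (f : (V → Bool) → ℝ) (S : Finset V) (μ : ℝ → V → ℝ) (μ' : V → ℝ) (s : ℝ)
    (h : ∀ v, v ∉ S → HasDerivAt (fun s => μ s v) (μ' v) s) :
    HasDerivAt (fun s => pd f S (μ s))
      (∑ v, if v ∈ S then 0 else μ' v * pd f (insert v S) (μ s)) s := by
  unfold pd
  have h1 : ∀ x : V → Bool, HasDerivAt
      (fun s => f x * ∏ v, (if v ∈ S then sgn (x v) / 2 else (1 + μ s v * sgn (x v)) / 2))
      (f x * ∑ v, (∏ w ∈ Finset.univ.erase v,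
        (if w ∈ S then sgn (x w) / 2 else (1 + μ s w * sgn (x w)) / 2)) •
          (if v ∈ S then 0 else μ' v * sgn (x v) / 2)) s := by
    intro x
    refine HasDerivAt.const_mul _ ?_
    refine HasDerivAt.fun_finsetProd (u := Finset.univ)
      (f := fun v s => if v ∈ S then sgn (x v) / 2 else (1 + μ s v * sgn (x v)) / 2)
      (f' := fun v => if v ∈ S then 0 else μ' v * sgn (x v) / 2) fun v _ => ?_
    by_cases hv : v ∈ S
    · simp only [hv, if_true]; exact hasDerivAt_const _ _
    · simp only [hv, if_false]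
      exact (((h v hv).mul_const _).const_add 1).div_const 2
  refine (HasDerivAt.fun_sum fun x _ => h1 x).congr_deriv ?_
  simp only [Finset.mul_sum]
  rw [Finset.sum_comm]
  refine Finset.sum_congr rfl fun v _ => ?_
  by_cases hv : v ∈ S
  · simp [hv]
  · simp only [hv, if_false]
    refine Finset.sum_congr rfl fun x _ => ?_
    rw [← Finset.mul_prod_erase Finset.univ _ (Finset.mem_univ v)]
    simp only [Finset.mem_insert_self, if_true, smul_eq_mul]
    have : ∏ w ∈ Finset.univ.erase v,
        (if w ∈ insert v S then sgn (x w) / 2 else (1 + μ s w * sgn (x w)) / 2) =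
        ∏ w ∈ Finset.univ.erase v,
        (if w ∈ S then sgn (x w) / 2 else (1 + μ s w * sgn (x w)) / 2) := by
      refine Finset.prod_congr rfl fun w hw => ?_
      simp [Finset.mem_insert, Finset.ne_of_mem_erase hw]
    rw [this]
    ring

/-- product weight -/
noncomputable def kyWt (μ : V → ℝ) (x : V → Bool) : ℝ := ∏ v, (1 + μ v * sgn (x v)) / 2

lemma ky_pd_empty (f : (V → Bool) → ℝ) (μ : V → ℝ) : pd f ∅ μ = ∑ x, kyWt μ x * f x := by
  simp [pd, kyWt, mul_comm]

lemma kyWt_nonneg {μ : V → ℝ} (h : ∀ v, |μ v| ≤ 1 / 2) (x : V → Bool) : 0 ≤ kyWt μ x := by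
  refine Finset.prod_nonneg fun v _ => ?_
  have := abs_le.1 (h v)
  cases x v <;> simp <;> linarith

lemma kyWt_sum (μ : V → ℝ) : ∑ x, kyWt μ x = 1 := by
  unfold kyWt
  rw [← Fintype.prod_sum (fun v (b : Bool) => (1 + μ v * sgn b) / 2)]
  refine Finset.prod_eq_one fun v _ => ?_
  simp; ring

lemma kyWt_continuous {X : Type} [TopologicalSpace X] {μ : X → V → ℝ}
    (h : ∀ v, Continuous fun y => μ y v) (x : V → Bool) : Continuous fun y => kyWt (μ y) x := by
  unfold kyWt
  refine continuous_finsetProd _ fun v _ => ?_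
  have := h v
  fun_prop

lemma kyWt_mul_sgn (μ : V → ℝ) (v : V) (g : (V → Bool) → ℝ)
    (hg : ∀ x b, g (Function.update x v b) = g x) :
    ∑ x, kyWt μ x * (sgn (x v) * g x) = μ v * ∑ x, kyWt μ x * g x := by
  let R : (V → Bool) → ℝ := fun x => (∏ w ∈ Finset.univ.erase v, (1 + μ w * sgn (x w)) / 2) * g x
  have hR : ∀ x b, R (Function.update x v b) = R x := by
    intro x b
    simp only [R, hg]
    congr 1
    refine Finset.prod_congr rfl fun w hw => ?_
    rw [Function.update_of_ne (Finset.ne_of_mem_erase hw)]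
  have hW : ∀ x, kyWt μ x * g x = (1 + μ v * sgn (x v)) / 2 * R x := by
    intro x
    simp only [kyWt, R]
    rw [← Finset.mul_prod_erase Finset.univ _ (Finset.mem_univ v)]
    ring
  have h0 : ∑ x, sgn (x v) * R x = 0 := by
    refine Finset.sum_involution (fun x _ => Function.update x v (!x v)) ?_ ?_ ?_ ?_
    · intro x _
      rw [hR, Function.update_self]
      cases x v <;> simp
    · intro x _ _ h
      have := congrFun h v
      simp at this
    · intro x _; exact Finset.mem_univ _
    · intro x _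
      simp
  have e1 : ∀ x, kyWt μ x * (sgn (x v) * g x) = (1 / 2) * (sgn (x v) * R x) + (μ v / 2) * R x := by
    intro x
    have := sgn_mul_self (x v)
    rw [mul_left_comm, hW]
    linear_combination (μ v / 2 * R x) * this
  have e2 : ∀ x, kyWt μ x * g x = (μ v / 2) * (sgn (x v) * R x) + (1 / 2) * R x := by
    intro x
    rw [hW]; ring
  simp only [e1, e2, Finset.sum_add_distrib, ← Finset.mul_sum, h0]
  ring

lemma ky_fw_congr {G : Type} [Fintype G] (H : Matrix G G ℝ) (z z' : ℕ → G → ℝ) (κ : ℕ)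
    (h : ∀ κ' < κ, z κ' = z' κ') : fw H z κ = fw H z' κ := by
  induction κ with
  | zero => rfl
  | succ κ ih =>
    simp only [fw]
    rw [ih fun κ' hκ' => h κ' (by omega), h κ (by omega)]

lemma ky_fw_succ {G : Type} [Fintype G] (H : Matrix G G ℝ) (z : ℕ → G → ℝ) (κ : ℕ) (j : G) :
    fw H z (κ + 1) j = ∑ i, H j i * (z κ i * fw H z κ i) := rfl

lemma ky_blk_fw {G : Type} [Fintype G] [DecidableEq G] {k : ℕ} (H : Matrix G G ℝ)
    (μ : Fin (k + 1) × G → ℝ) (κ : ℕ) (i : G)
    (ih : ∑ x, kyWt μ x * fw H (blk fun v => sgn (x v)) κ i = fw H (blk μ) κ i) :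
    ∑ x, kyWt μ x * (blk (fun v => sgn (x v)) κ i * fw H (blk fun v => sgn (x v)) κ i) =
      blk μ κ i * fw H (blk μ) κ i := by
  by_cases h : κ < k + 1
  · simp only [blk, h, dif_pos]
    rw [kyWt_mul_sgn μ (⟨κ, h⟩, i) (fun x => fw H (blk fun v => sgn (x v)) κ i), ih]
    intro x b
    refine congrFun (ky_fw_congr H _ _ κ fun κ' hκ' => ?_) i
    ext j
    simp only [blk]
    split_ifs with h'
    · rw [Function.update_of_ne]
      intro e
      have := congrArg (fun v : Fin (k + 1) × G => (v.1 : ℕ)) e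
      simp at this
      omega
    · rfl
  · simp only [blk, h, dif_neg, not_false_eq_true, one_mul]
    exact ih

lemma ky_fw_mean {G : Type} [Fintype G] [DecidableEq G] {k : ℕ} (H : Matrix G G ℝ)
    (μ : Fin (k + 1) × G → ℝ) (κ : ℕ) (i : G) :
    ∑ x, kyWt μ x * fw H (blk fun v => sgn (x v)) κ i = fw H (blk μ) κ i := by
  induction κ generalizing i with
  | zero => simp [fw, kyWt_sum]
  | succ κ ih =>
    simp only [ky_fw_succ, Finset.mul_sum]
    rw [Finset.sum_comm]
    refine Finset.sum_congr rfl fun j _ => ?_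
    rw [← ky_blk_fw H μ κ j (ih j), Finset.mul_sum]
    refine Finset.sum_congr rfl fun x _ => by ring

lemma ky_forr_mean {G : Type} [Fintype G] [DecidableEq G] {k : ℕ} (H : Matrix G G ℝ)
    (μ : Fin (k + 1) × G → ℝ) :
    ∑ x, kyWt μ x * forr H (fun v => sgn (x v)) = forr H μ := by
  simp only [forr, ← mul_div_assoc, ← Finset.sum_div, Finset.mul_sum]
  rw [Finset.sum_comm]
  congr 1
  exact Finset.sum_congr rfl fun j _ => ky_blk_fw H μ k j (ky_fw_mean H μ k j)

end Crest.Agent.R350
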