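import Crest.Agent.R350.Growth
import Crest.Agent.R350.KeyAuxMeas
import Crest.Agent.R350.KeyAuxPd

/-! # Row 350: a forrelated distribution that shallow decision trees cannot detect -/

set_option autoImplicit false

namespace Crest.Agent.R350

open Real

section
variable {G : Type} [Fintype G] [DecidableEq G] {k : ℕ}

/-- the factor of the mean that comes from the block itself -/
noncomputable def kyb (U : Option (Fin (k + 1) × G) → ℝ) (v : Fin (k + 1) × G) : ℝ :=
  if (v.1 : ℕ) = 0 then 1 else sin (U (some v))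

/-- coefficients of the linear form `kyW` -/
noncomputable def kyc (H : Matrix G G ℝ) (v : Fin (k + 1) × G) : Option (Fin (k + 1) × G) → ℝ
  | none => 0
  | some w => if (w.1 : ℕ) = v.1 + 1 then H w.2 v.2 else 0

/-- the transform of the next block of angles -/
noncomputable def kyW (H : Matrix G G ℝ) (U : Option (Fin (k + 1) × G) → ℝ)
    (v : Fin (k + 1) × G) : ℝ := ∑ w, kyc H v w * U w

/-- the means -/
noncomputable def kyz (H : Matrix G G ℝ) (t : ℝ) (U : Option (Fin (k + 1) × G) → ℝ)
    (v : Fin (k + 1) × G) : ℝ :=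
  (if (v.1 : ℕ) = k then t / 2 else sin (kyW H U v) / 2) * kyb U v

/-- the interpolation parameter -/
noncomputable def kyt (U : Option (Fin (k + 1) × G) → ℝ) : ℝ := (1 + sin (U none)) / 2

omit [Fintype G] [DecidableEq G] in
lemma kyb_continuous (v : Fin (k + 1) × G) : Continuous fun U => kyb U v := by
  unfold kyb; split_ifs <;> fun_prop

omit [DecidableEq G] in
lemma kyW_continuous (H : Matrix G G ℝ) (v : Fin (k + 1) × G) : Continuous fun U => kyW H U v := by
  unfold kyW; fun_prop

omit [Fintype G] [DecidableEq G] in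
lemma kyt_continuous : Continuous (kyt (G := G) (k := k)) := by
  unfold kyt; fun_prop

omit [DecidableEq G] in
lemma kyz_continuous (H : Matrix G G ℝ) {t : (Option (Fin (k + 1) × G) → ℝ) → ℝ}
    (ht : Continuous t) (v : Fin (k + 1) × G) : Continuous fun U => kyz H (t U) U v := by
  unfold kyz
  have := kyW_continuous H v
  refine Continuous.mul ?_ (kyb_continuous v)
  split_ifs <;> fun_prop

omit [Fintype G] [DecidableEq G] in
lemma kyb_abs (U : Option (Fin (k + 1) × G) → ℝ) (v : Fin (k + 1) × G) : |kyb U v| ≤ 1 := by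
  unfold kyb; split_ifs
  · simp
  · exact abs_sin_le_one _

omit [DecidableEq G] in
lemma kyz_abs (H : Matrix G G ℝ) {t : ℝ} (h0 : 0 ≤ t) (h1 : t ≤ 1)
    (U : Option (Fin (k + 1) × G) → ℝ) (v : Fin (k + 1) × G) : |kyz H t U v| ≤ 1 / 2 := by
  unfold kyz
  rw [abs_mul]
  have a : |(if (v.1 : ℕ) = k then t / 2 else sin (kyW H U v) / 2)| ≤ 1 / 2 := by
    split_ifs
    · rw [abs_of_nonneg (by linarith)]; linarith
    · rw [abs_div, abs_two]; linarith [abs_sin_le_one (kyW H U v)]
  calc _ ≤ 1 / 2 * 1 := mul_le_mul a (kyb_abs U v) (abs_nonneg _) (by norm_num)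
    _ = 1 / 2 := by norm_num

omit [Fintype G] [DecidableEq G] in
lemma kyt_mem (U : Option (Fin (k + 1) × G) → ℝ) : 0 ≤ kyt U ∧ kyt U ≤ 1 := by
  unfold kyt
  constructor <;> linarith [neg_one_le_sin (U none), sin_le_one (U none)]

lemma kyW_update (H : Matrix G G ℝ) (U : Option (Fin (k + 1) × G) → ℝ)
    (w : Option (Fin (k + 1) × G)) (s : ℝ) (v : Fin (k + 1) × G) :
    kyW H (Function.update U w s) v = kyW H U v + kyc H v w * (s - U w) := by
  unfold kyW
  have : ∀ w', kyc H v w' * Function.update U w s w' =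
      kyc H v w' * U w' + if w' = w then kyc H v w * (s - U w) else 0 := by
    intro w'
    by_cases h : w' = w
    · subst h; simp; ring
    · simp [h]
  simp only [this, Finset.sum_add_distrib, Finset.sum_ite_eq', Finset.mem_univ, if_true]

lemma kyW_deriv (H : Matrix G G ℝ) (U : Option (Fin (k + 1) × G) → ℝ)
    (w : Option (Fin (k + 1) × G)) (s : ℝ) (v : Fin (k + 1) × G) :
    HasDerivAt (fun s => kyW H (Function.update U w s) v) (kyc H v w) s := by
  simp only [kyW_update]
  simpa using (((hasDerivAt_id s).sub_const (U w)).const_mul (kyc H v w)).const_add (kyW H U v)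

omit [Fintype G] in
lemma kyb_update (U : Option (Fin (k + 1) × G) → ℝ) (w : Option (Fin (k + 1) × G)) (s : ℝ)
    (v : Fin (k + 1) × G) (h : some v ≠ w) : kyb (Function.update U w s) v = kyb U v := by
  simp [kyb, Function.update_of_ne h]

lemma kyz_update_none (H : Matrix G G ℝ) (t : ℝ) (U : Option (Fin (k + 1) × G) → ℝ) (s : ℝ) :
    kyz H t (Function.update U none s) = kyz H t U := by
  ext v
  simp [kyz, kyW_update, kyc, kyb_update]

omit [DecidableEq G] in
lemma ky_sum_block (m : Fin (k + 1)) (F : Fin (k + 1) × G → ℝ) :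
    ∑ v : Fin (k + 1) × G, (if (v.1 : ℕ) = m then F v else 0) = ∑ i, F (m, i) := by
  rw [Fintype.sum_prod_type, Finset.sum_eq_single m]
  · simp
  · intro b _ hb
    have : (b : ℕ) ≠ m := fun h => hb (Fin.ext h)
    simp [this]
  · simp

/-- The representation of the advantage after `r` steps of the chain. -/
def KyChain (H : Matrix G G ℝ) (f : (Fin (k + 1) × G → Bool) → ℝ) (D : ℝ) (m r : ℕ) : Prop :=
  ∃ (C : Type) (_ : Fintype C) (s : C → Finset (Fin (k + 1) × G)) (l : C → Fin (k + 1) × G)
    (β : C → (Option (Fin (k + 1) × G) → ℝ) → ℝ),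
    Function.Injective s ∧ Fintype.card C = Fintype.card G ^ (r + 1) ∧
    (∀ c, (s c).card = r + 1) ∧ (∀ c, ∀ v ∈ s c, m ≤ (v.1 : ℕ)) ∧
    (∀ c, ((l c).1 : ℕ) = m ∧ l c ∈ s c) ∧ (∀ c, Continuous (β c)) ∧
    (∀ c U, β c U ^ 2 ≤ (1 / (Fintype.card G : ℝ)) ^ r) ∧
    (∀ c U (w : Fin (k + 1) × G) x, (w.1 : ℕ) ≤ m → β c (Function.update U (some w) x) = β c U) ∧
    D = ∑ c, kyE (fun U => β c U * kyb U (l c) * pd f (s c) (kyz H (kyt U) U))

lemma ky_chain_base (H : Matrix G G ℝ) (f : (Fin (k + 1) × G → Bool) → ℝ) :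
    KyChain H f (kyE (fun U => pd f ∅ (kyz H 1 U)) - kyE (fun U => pd f ∅ (kyz H 0 U))) k 0 := by
  have hz := kyz_continuous H (kyt_continuous (G := G) (k := k))
  have hc : ∀ i : G, Continuous fun U : Option (Fin (k + 1) × G) → ℝ =>
      π * cos (U none) / 4 * kyb U (Fin.last k, i) *
        pd f {(Fin.last k, i)} (kyz H (kyt U) U) := fun i =>
    (Continuous.mul (by fun_prop) (kyb_continuous _)).mul (ky_pd_continuous f _ hz)
  refine ⟨G, inferInstance, fun i => {(Fin.last k, i)}, fun i => (Fin.last k, i),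
    fun _ U => π * cos (U none) / 4, ?_, by simp, by simp, by simp, by simp, fun _ => by fun_prop,
    ?_, ?_, ?_⟩
  · intro i j h
    simpa using h
  · intro _ U
    have h1 : cos (U none) ^ 2 ≤ 1 := cos_sq_le_one _
    have h2 : π ^ 2 ≤ 16 := by nlinarith [pi_lt_four, pi_pos]
    have : (π * cos (U none) / 4) ^ 2 = π ^ 2 * cos (U none) ^ 2 / 16 := by ring
    rw [this, pow_zero]
    nlinarith [sq_nonneg π]
  · intro _ U w x _
    simp
  · rw [← kyE_sum _ hc]
    have := ky_ibp none (K := fun U => π * pd f ∅ (kyz H (kyt U) U))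
      (K' := fun U => ∑ i : G, π * cos (U none) / 4 * kyb U (Fin.last k, i) *
        pd f {(Fin.last k, i)} (kyz H (kyt U) U)) (continuous_finsetSum _ fun i _ => hc i) (by
      intro U x
      have h1 := ky_pd_deriv f ∅
        (fun x => kyz H (kyt (Function.update U none x)) (Function.update U none x))
        (fun v => if (v.1 : ℕ) = k then cos x / 4 * kyb U v else 0) x (by
          intro v _
          simp only [kyz_update_none, kyt, Function.update_self]
          unfold kyz
          split_ifs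
          · refine (((((hasDerivAt_sin x).const_add 1).div_const 2).div_const 2).mul_const
              _).congr_deriv ?_
            ring
          · exact hasDerivAt_const _ _)
      refine (h1.const_mul π).congr_deriv ?_
      simp only [Finset.notMem_empty, if_false, ite_mul, zero_mul, Function.update_self]
      have := ky_sum_block (Fin.last k) (fun v => cos x / 4 * kyb U v * pd f (insert v ∅)
        (kyz H (kyt (Function.update U none x)) (Function.update U none x)))
      simp only [Fin.val_last] at this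
      rw [this, Finset.mul_sum]
      refine Finset.sum_congr rfl fun i _ => ?_
      rw [kyb_update _ _ _ _ (by simp)]
      simp only [Finset.insert_empty]
      ring)
    rw [this, ← kyE_sub (ky_pd_continuous f _ (kyz_continuous H continuous_const))
      (ky_pd_continuous f _ (kyz_continuous H continuous_const))]
    congr 1
    ext U
    simp only [kyz_update_none, kyt, Function.update_self, sin_neg, sin_pi_div_two]
    have := pi_pos
    norm_num
    field_simp

lemma ky_chain_step (H : Matrix G G ℝ) (hH : ∀ i j, H i j ^ 2 = 1 / (Fintype.card G : ℝ))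
    (f : (Fin (k + 1) × G → Bool) → ℝ) (D : ℝ) (m r : ℕ) (hm : m + 1 ≤ k)
    (h : KyChain H f D (m + 1) r) : KyChain H f D m (r + 1) := by
  obtain ⟨C, _, s, l, β, h1, h2, h3, h4, h5, h6, h7, h8, h9⟩ := h
  have hz := kyz_continuous H (kyt_continuous (G := G) (k := k))
  let κ : Fin (k + 1) := ⟨m, by omega⟩
  have hnot : ∀ c i, (κ, i) ∉ s c := fun c i hi => by
    have := h4 c _ hi
    simp [κ] at this
  let β' : C × G → (Option (Fin (k + 1) × G) → ℝ) → ℝ := fun p U =>
    β p.1 U * cos (U (some (l p.1))) * H (l p.1).2 p.2 * (cos (kyW H U (κ, p.2)) / 2)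
  have hβ' : ∀ p, Continuous (β' p) := fun p => by
    have a := h6 p.1
    have b := kyW_continuous H (κ, p.2)
    simp only [β']
    fun_prop
  refine ⟨C × G, inferInstance, fun p => insert (κ, p.2) (s p.1), fun p => (κ, p.2), β',
    ?_, ?_, ?_, ?_, ?_, hβ', ?_, ?_, ?_⟩
  · rintro ⟨c, i⟩ ⟨c', i'⟩ hh
    simp only at hh
    have e1 : (κ, i) ∈ insert (κ, i') (s c') := hh ▸ Finset.mem_insert_self _ _
    have e2 : i = i' := by
      rcases Finset.mem_insert.1 e1 with e | e
      · simpa using e
      · exact absurd e (hnot _ _)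
    subst e2
    have e3 : s c = s c' := by
      rw [← Finset.erase_insert (hnot c i), hh, Finset.erase_insert (hnot c' i)]
    rw [h1 e3]
  · rw [Fintype.card_prod, h2]; ring
  · intro p
    rw [Finset.card_insert_of_notMem (hnot _ _), h3]
  · intro p v hv
    rcases Finset.mem_insert.1 hv with e | e
    · rw [e]
    · have := h4 _ _ e; omega
  · intro p
    exact ⟨rfl, Finset.mem_insert_self _ _⟩
  · intro p U
    have a := h7 p.1 U
    have b := cos_sq_le_one (U (some (l p.1)))
    have c := cos_sq_le_one (kyW H U (κ, p.2))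
    have hN : (0 : ℝ) ≤ 1 / (Fintype.card G : ℝ) := by positivity
    have e : β' p U ^ 2 = β p.1 U ^ 2 * cos (U (some (l p.1))) ^ 2 * H (l p.1).2 p.2 ^ 2 *
        (cos (kyW H U (κ, p.2)) ^ 2 / 4) := by simp only [β']; ring
    have c' : cos (kyW H U (κ, p.2)) ^ 2 / 4 ≤ 1 := by linarith
    rw [e, hH, pow_succ (1 / (Fintype.card G : ℝ)) r]
    calc _ ≤ (1 / (Fintype.card G : ℝ)) ^ r * 1 * (1 / (Fintype.card G : ℝ)) * 1 := by
          gcongr
      _ = _ := by ring
  · intro p U w x hw
    have hl := (h5 p.1).1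
    have hne : some (l p.1) ≠ some w := by
      intro e
      have : ((l p.1).1 : ℕ) = w.1 := by rw [Option.some.inj e]
      omega
    have hc0 : kyc H (κ, p.2) (some w) = 0 := by
      have : (w.1 : ℕ) ≠ m + 1 := by omega
      simp [kyc, κ, this]
    simp only [β']
    rw [h8 _ _ _ _ (by omega), Function.update_of_ne hne, kyW_update, hc0]
    simp
  · rw [h9, Fintype.sum_prod_type]
    refine Finset.sum_congr rfl fun c _ => ?_
    have hl := (h5 c).1
    have hcont : ∀ i : G, Continuous fun U => β' (c, i) U * kyb U (κ, i) *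
        pd f (insert (κ, i) (s c)) (kyz H (kyt U) U) := fun i =>
      ((hβ' _).mul (kyb_continuous _)).mul (ky_pd_continuous f _ hz)
    rw [← kyE_sum _ hcont]
    have hF' : Continuous fun U => β c U * ∑ i : G, H (l c).2 i * (cos (kyW H U (κ, i)) / 2) *
        kyb U (κ, i) * pd f (insert (κ, i) (s c)) (kyz H (kyt U) U) := by
      refine (h6 c).mul (continuous_finsetSum _ fun i _ => ?_)
      have b := kyW_continuous H (κ, i)
      exact (Continuous.mul (by fun_prop) (kyb_continuous _)).mul (ky_pd_continuous f _ hz)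
    have := ky_stein (some (l c)) (F := fun U => β c U * pd f (s c) (kyz H (kyt U) U))
      ((h6 c).mul (ky_pd_continuous f _ hz)) hF' (by
      intro U x
      have ht : ∀ y, kyt (Function.update U (some (l c)) y) = kyt U := fun y => by simp [kyt]
      have d1 := ky_pd_deriv f (s c)
        (fun x => kyz H (kyt (Function.update U (some (l c)) x)) (Function.update U (some (l c)) x))
        (fun v => if (v.1 : ℕ) = m then H (l c).2 v.2 *
          (cos (kyW H (Function.update U (some (l c)) x) v) / 2) * kyb U v else 0) x (by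
          intro v hv
          have hne : some v ≠ some (l c) := fun e => hv (Option.some.inj e ▸ (h5 c).2)
          simp only [ht]
          unfold kyz
          simp only [kyb_update _ _ _ _ hne]
          by_cases hk : (v.1 : ℕ) = k
          · have : (v.1 : ℕ) ≠ m := by omega
            simp only [hk, if_true]
            rw [if_neg (by omega)]
            exact hasDerivAt_const _ _
          · simp only [hk, if_false]
            refine (((kyW_deriv H U (some (l c)) x v).sin.div_const 2).mul_const _).congr_deriv ?_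
            simp only [kyc, hl, Nat.add_right_cancel_iff]
            by_cases hvm : (v.1 : ℕ) = m
            · simp only [hvm, if_true]; ring
            · have : m ≠ (v.1 : ℕ) := fun e => hvm e.symm
              simp [hvm, this])
      simp only [h8 c U (l c) _ hl.le]
      refine (d1.const_mul (β c U)).congr_deriv ?_
      congr 1
      have := ky_sum_block κ (fun v => H (l c).2 v.2 *
          (cos (kyW H (Function.update U (some (l c)) x) v) / 2) *
          kyb (Function.update U (some (l c)) x) v * pd f (insert v (s c))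
          (kyz H (kyt (Function.update U (some (l c)) x)) (Function.update U (some (l c)) x)))
      rw [← this]
      refine Finset.sum_congr rfl fun v _ => ?_
      by_cases hvm : (v.1 : ℕ) = m
      · have hv : v ∉ s c := fun hv => by have := h4 c v hv; omega
        have hne : some v ≠ some (l c) := fun e => hv (Option.some.inj e ▸ (h5 c).2)
        simp [hvm, hv, κ, kyb_update _ _ _ _ hne]
      · simp [hvm, κ])
    have e1 : (fun U => β c U * kyb U (l c) * pd f (s c) (kyz H (kyt U) U)) =
        fun U => sin (U (some (l c))) * (β c U * pd f (s c) (kyz H (kyt U) U)) := by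
      ext U
      simp only [kyb, hl]
      simp
      ring
    rw [e1, this]
    congr 1
    ext U
    simp only [β', Finset.mul_sum]
    exact Finset.sum_congr rfl fun i _ => by ring

lemma ky_chain (H : Matrix G G ℝ) (hH : ∀ i j, H i j ^ 2 = 1 / (Fintype.card G : ℝ))
    (f : (Fin (k + 1) × G → Bool) → ℝ) (r : ℕ) : ∀ m, m + r = k →
    KyChain H f (kyE (fun U => pd f ∅ (kyz H 1 U)) - kyE (fun U => pd f ∅ (kyz H 0 U))) m r := by
  induction r with
  | zero => intro m hm; obtain rfl : m = k := by omega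
            exact ky_chain_base H f
  | succ r ih => intro m hm; exact ky_chain_step H hH f _ m r (by omega) (ih (m + 1) (by omega))

omit [DecidableEq G] in
lemma ky_fw_continuous (H : Matrix G G ℝ) (κ : ℕ) (i : G) :
    Continuous fun U : Option (Fin (k + 1) × G) → ℝ => fw H (blk (kyz H 1 U)) κ i := by
  induction κ generalizing i with
  | zero => exact continuous_const
  | succ κ ih =>
    simp only [ky_fw_succ]
    refine continuous_finsetSum _ fun j _ => continuous_const.mul (Continuous.mul ?_ (ih j))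
    unfold blk
    split_ifs
    · exact kyz_continuous H continuous_const _
    · exact continuous_const

omit [DecidableEq G] in
lemma kyW_congr (H : Matrix G G ℝ) (U U' : Option (Fin (k + 1) × G) → ℝ) (v : Fin (k + 1) × G)
    (h : ∀ w : Fin (k + 1) × G, (w.1 : ℕ) = v.1 + 1 → U (some w) = U' (some w)) :
    kyW H U v = kyW H U' v := by
  unfold kyW
  refine Finset.sum_congr rfl fun w _ => ?_
  rcases w with _ | w
  · simp [kyc]
  · simp only [kyc]
    split_ifs with hw
    · rw [h w hw]
    · simp

lemma ky_corr (H : Matrix G G ℝ) (hH : ∀ i j, H i j ^ 2 = 1 / (Fintype.card G : ℝ)) [Nonempty G]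
    (v w : Fin (k + 1) × G) (hw : (w.1 : ℕ) = v.1 + 1) :
    1 / (Fintype.card G : ℝ) * (1 / 12) ≤
      kyE (fun U => H w.2 v.2 * (sin (U (some w)) * (sin (kyW H U v) / 2))) := by
  have hW := kyW_continuous H v
  have h1 := ky_stein (some w) (F := fun U => sin (kyW H U v) / 2)
    (F' := fun U => H w.2 v.2 / 2 * cos (kyW H U v)) (by fun_prop) (by fun_prop) (by
      intro U x
      refine ((kyW_deriv H U (some w) x v).sin.div_const 2).congr_deriv ?_
      simp only [kyc, hw, if_true]
      ring)
  have hc : ∑ j, kyc H v j ^ 2 = 1 := by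
    rw [Fintype.sum_option]
    have := ky_sum_block w.1 (fun u => H u.2 v.2 ^ 2)
    simp only [kyc, ← hw, ite_pow]
    simp only [ne_eq, OfNat.ofNat_ne_zero, not_false_eq_true, zero_pow, zero_add]
    rw [this]
    simp only [hH, Finset.sum_const, Finset.card_univ, nsmul_eq_mul]
    have : (Fintype.card G : ℝ) ≠ 0 := by exact_mod_cast Fintype.card_ne_zero
    field_simp
  have h2 := ky_cos_cos (kyc H v) hc (some w)
  have e : (fun U : Option (Fin (k + 1) × G) → ℝ =>
      cos (U (some w)) * (H w.2 v.2 / 2 * cos (kyW H U v))) =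
      fun U => H w.2 v.2 / 2 * (cos (U (some w)) * cos (∑ j, kyc H v j * U j)) := by
    ext U; simp only [kyW]; ring
  rw [kyE_const_mul, h1, e, kyE_const_mul, ← hH w.2 v.2]
  nlinarith [sq_nonneg (H w.2 v.2)]

lemma ky_n_lower (H : Matrix G G ℝ) (hH : ∀ i j, H i j ^ 2 = 1 / (Fintype.card G : ℝ))
    [Nonempty G] (κ : ℕ) : ∀ (h : κ < k + 1) (i : G),
    (1 / 12 : ℝ) ^ κ ≤ kyE (fun U => kyb U (⟨κ, h⟩, i) * fw H (blk (kyz H 1 U)) κ i) := by
  induction κ with
  | zero => intro h i; simp [kyb, fw, kyE_const]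
  | succ κ ih =>
    intro h j
    have h' : κ < k + 1 := by omega
    have hκ : κ ≠ k := by omega
    have e : (fun U : Option (Fin (k + 1) × G) → ℝ =>
        kyb U (⟨κ + 1, h⟩, j) * fw H (blk (kyz H 1 U)) (κ + 1) j) =
        fun U => ∑ i, (H j i * (sin (U (some (⟨κ + 1, h⟩, j))) * (sin (kyW H U (⟨κ, h'⟩, i)) / 2)))
          * (kyb U (⟨κ, h'⟩, i) * fw H (blk (kyz H 1 U)) κ i) := by
      ext U
      rw [ky_fw_succ, Finset.mul_sum]
      refine Finset.sum_congr rfl fun i _ => ?_
      simp only [blk, h', dif_pos, kyz, hκ, if_false]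
      simp only [kyb, Nat.add_eq_zero_iff, one_ne_zero, and_false, if_false]
      ring
    have hX : ∀ i, Continuous fun U : Option (Fin (k + 1) × G) → ℝ =>
        H j i * (sin (U (some (⟨κ + 1, h⟩, j))) * (sin (kyW H U (⟨κ, h'⟩, i)) / 2)) := fun i => by
      have := kyW_continuous H (⟨κ, h'⟩, i)
      fun_prop
    have hY : ∀ i, Continuous fun U : Option (Fin (k + 1) × G) → ℝ =>
        kyb U (⟨κ, h'⟩, i) * fw H (blk (kyz H 1 U)) κ i := fun i =>
      (kyb_continuous _).mul (ky_fw_continuous H κ i)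
    rw [e, kyE_sum _ fun i => (hX i).fun_mul (hY i)]
    have hN : (Fintype.card G : ℝ) ≠ 0 := by exact_mod_cast Fintype.card_ne_zero
    have e2 : (1 / 12 : ℝ) ^ (κ + 1) =
        ∑ _i : G, 1 / (Fintype.card G : ℝ) * (1 / 12) * (1 / 12) ^ κ := by
      simp only [Finset.sum_const, Finset.card_univ, nsmul_eq_mul]
      field_simp
      ring
    rw [e2]
    refine Finset.sum_le_sum fun i _ => ?_
    classical
    rw [ky_fact (fun w : Option (Fin (k + 1) × G) => ∃ u, w = some u ∧ (u.1 : ℕ) = κ + 1)
      (hX i) (hY i)]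
    · have a := ky_corr H hH (⟨κ, h'⟩, i) (⟨κ + 1, h⟩, j) rfl
      exact mul_le_mul a (ih h' i) (by positivity) (le_trans (by positivity) a)
    · intro U U' hU
      rw [hU (some (⟨κ + 1, h⟩, j)) ⟨_, rfl, rfl⟩,
        kyW_congr H U U' _ fun w hw => hU _ ⟨w, rfl, hw⟩]
    · intro U U' hU
      have hU' : ∀ w : Fin (k + 1) × G, (w.1 : ℕ) ≤ κ → U (some w) = U' (some w) := by
        intro w hw
        refine hU _ ?_
        rintro ⟨u, hu, hu'⟩
        rw [← Option.some.inj hu] at hu'
        omega
      have hb : ∀ w : Fin (k + 1) × G, (w.1 : ℕ) ≤ κ → kyb U w = kyb U' w := by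
        intro w hw
        simp only [kyb, hU' w hw]
      rw [hb _ le_rfl, ky_fw_congr H (blk (kyz H 1 U)) (blk (kyz H 1 U')) κ]
      intro κ' hκ'
      ext a
      have h'' : κ' < k + 1 := by omega
      simp only [blk, h'', dif_pos, kyz]
      rw [hb _ (by simp; omega), kyW_congr H U U' _ fun w hw => hU' w (by simp at hw; omega)]

lemma ky_forr_lower (H : Matrix G G ℝ) (hH : ∀ i j, H i j ^ 2 = 1 / (Fintype.card G : ℝ))
    [Nonempty G] :
    1 / 2 * (1 / 12 : ℝ) ^ k ≤ kyE (fun U : Option (Fin (k + 1) × G) → ℝ => forr H (kyz H 1 U)) := by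
  have hN : (0 : ℝ) < Fintype.card G := by exact_mod_cast Fintype.card_pos
  have e : (fun U : Option (Fin (k + 1) × G) → ℝ => forr H (kyz H 1 U)) =
      fun U => 1 / (2 * Fintype.card G) *
        ∑ i, kyb U (⟨k, k.lt_succ_self⟩, i) * fw H (blk (kyz H 1 U)) k i := by
    ext U
    simp only [forr, Finset.sum_div, Finset.mul_sum]
    refine Finset.sum_congr rfl fun i _ => ?_
    simp only [blk, k.lt_succ_self, dif_pos, kyz, if_true]
    field_simp
  rw [e, kyE_const_mul, kyE_sum _ fun i => (kyb_continuous _).fun_mul (ky_fw_continuous H k i)]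
  have := Finset.sum_le_sum fun i (_ : i ∈ Finset.univ) => ky_n_lower H hH k k.lt_succ_self i
  simp only [Finset.sum_const, Finset.card_univ, nsmul_eq_mul] at this
  calc 1 / 2 * (1 / 12 : ℝ) ^ k = 1 / (2 * Fintype.card G) * (Fintype.card G * (1 / 12) ^ k) := by
        field_simp
    _ ≤ _ := by gcongr

lemma ky_mean (H : Matrix G G ℝ) (t : ℝ) (f : (Fin (k + 1) × G → Bool) → ℝ) :
    ∑ x, kyE (fun U => kyWt (kyz H t U) x) * f x = kyE (fun U => ∑ x, kyWt (kyz H t U) x * f x) := by
  rw [kyE_sum _ fun x => (kyWt_continuous (kyz_continuous H continuous_const) x).fun_mul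
    continuous_const]
  refine Finset.sum_congr rfl fun x _ => ?_
  rw [mul_comm, ← kyE_const_mul]
  simp only [mul_comm]

end

theorem key (k q : ℕ) (hq : 1 ≤ q) : ∃ K : ℝ, 1 ≤ K ∧
    ∀ (G : Type) [Fintype G] [DecidableEq G] [Nonempty G] (H : Matrix G G ℝ),
      (∀ i j, H i j ^ 2 = 1 / (Fintype.card G : ℝ)) →
      ∃ P₁ P₀ : (Fin (k + 1) × G → Bool) → ℝ,
        (∀ x, 0 ≤ P₁ x) ∧ ∑ x, P₁ x = 1 ∧ (∀ x, 0 ≤ P₀ x) ∧ ∑ x, P₀ x = 1 ∧
        (∀ (m : G → Bool) (x : Fin (k + 1) × G → Bool),
          P₀ (fun v => xor (x v) (if v.1 = Fin.last k then m v.2 else false)) = P₀ x) ∧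
        (1 / 2 * (1 / 12) ^ k ≤ ∑ x, P₁ x * forr H (fun v => sgn (x v))) ∧
        ∀ d : ℕ, 1 ≤ d → ∀ f : (Fin (k + 1) × G → Bool) → ℝ, DT d f → (∀ x, |f x| ≤ 1) →
          (∑ x, P₁ x * f x - ∑ x, P₀ x * f x) ^ (2 * q) ≤
            3 * (K * (d : ℝ) ^ q) ^ (k + 1) * (Fintype.card G : ℝ) ^ (k + 1) *
              (1 / (Fintype.card G : ℝ)) ^ (k * q) := by
  obtain ⟨K, hK, hgr⟩ := growth_family q hq
  refine ⟨K, hK, fun G _ _ _ H hH => ?_⟩
  have hsum : ∀ t : ℝ, ∑ x, kyE (fun U : Option (Fin (k + 1) × G) → ℝ =>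
      kyWt (kyz H t U) x) = 1 := by
    intro t
    have := ky_mean (k := k) H t (fun _ => 1)
    simpa [kyWt_sum, kyE_const] using this
  refine ⟨fun x => kyE (fun U => kyWt (kyz H 1 U) x), fun x => kyE (fun U => kyWt (kyz H 0 U) x),
    fun x => kyE_nonneg fun U => kyWt_nonneg (kyz_abs H zero_le_one le_rfl U) x, hsum 1,
    fun x => kyE_nonneg fun U => kyWt_nonneg (kyz_abs H le_rfl zero_le_one U) x, hsum 0,
    ?_, ?_, ?_⟩
  · intro m x
    simp only
    congr 1
    ext U
    refine Finset.prod_congr rfl fun v _ => ?_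
    by_cases hv : v.1 = Fin.last k
    · simp [kyz, hv]
    · simp [hv]
  · rw [ky_mean]
    simp only [ky_forr_mean]
    exact ky_forr_lower H hH
  · intro d hd f hf hf1
    rw [ky_mean, ky_mean]
    simp only [← ky_pd_empty]
    obtain ⟨C, _, s, l, β, h1, h2, h3, -, h5, h6, h7, -, h9⟩ := ky_chain H hH f k 0 (by simp)
    have hz := kyz_continuous H (kyt_continuous (G := G) (k := k))
    rw [h9, ← kyE_sum _ fun c =>
      ((h6 c).fun_mul (kyb_continuous _)).fun_mul (ky_pd_continuous f _ hz)]
    refine kyE_pow_le (continuous_finsetSum _ fun c _ =>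
      ((h6 c).fun_mul (kyb_continuous _)).fun_mul (ky_pd_continuous f _ hz)) q _ fun U => ?_
    have := hgr _ d hd f hf hf1 (kyz H (kyt U) U) (kyz_abs H (kyt_mem U).1 (kyt_mem U).2 U) C s
      (k + 1) (fun c => β c U) _ h1 h3 (fun c => h7 c U)
    rw [h2, ← pow_mul] at this
    simp only [kyb, (h5 _).1, if_true, mul_one]
    exact_mod_cast this

end Crest.Agent.R350
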