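import Crest.Agent.R350.DTBasic

/-! # Row 350: the randomized lower bound for `FF` -/

set_option autoImplicit false

namespace Crest.Agent.R350

open Crest.MathPhysics.Query

section Aux

variable {n : ℕ} {V Pf : Type} {N : ℕ}

/-- The address of the cell that a position belongs to (none for instance bits). -/
def lowCell (p : Idx n V Pf) : Option (Cube n) :=
  match p.2 with
  | .inl _ => none
  | .inr q => some q.1

/-- Evaluation of a tree on an input indexed by positions. -/
def lowEv (e : Idx n V Pf ≃ Fin N) (T : DTree N) (X : Idx n V Pf → Bool) : Bool :=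
  T.eval (fun i => X (e.symm i))

/-- Number of reads in the block of candidate `b`. -/
def lowCnt (e : Idx n V Pf ≃ Fin N) (b : Cube n) (X : Idx n V Pf → Bool) : DTree N → ℕ
  | .answer _ => 0
  | .read i t₀ t₁ => (if (e.symm i).1 = b then 1 else 0) +
      (if X (e.symm i) = true then lowCnt e b X t₁ else lowCnt e b X t₀)

/-- One of the first `d` reads in the block of `b` lies in the cell `(b, a)`. -/
def lowHit (e : Idx n V Pf ≃ Fin N) (b a : Cube n) (X : Idx n V Pf → Bool) :
    DTree N → ℕ → Bool
  | .answer _, _ => false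
  | .read i t₀ t₁, d =>
      if (e.symm i).1 = b then
        (if d = 0 then false else if lowCell (e.symm i) = some a then true else
          if X (e.symm i) = true then lowHit e b a X t₁ (d - 1) else lowHit e b a X t₀ (d - 1))
      else if X (e.symm i) = true then lowHit e b a X t₁ d else lowHit e b a X t₀ d

lemma low_L1 (e : Idx n V Pf ≃ Fin N) (b a : Cube n) (X X' : Idx n V Pf → Bool)
    (h : ∀ p : Idx n V Pf, ¬ (p.1 = b ∧ lowCell p = some a) → X p = X' p) (T : DTree N) :
    ∀ d, lowEv e T X ≠ lowEv e T X' → d < lowCnt e b X T ∨ lowHit e b a X T d = true := by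
  induction T with
  | answer c => intro d hne; simp [lowEv, DTree.eval] at hne
  | read i t₀ t₁ ih₀ ih₁ =>
    intro d hne
    by_cases hb : (e.symm i).1 = b
    · by_cases hd : d = 0
      · left; simp [lowCnt, hb, hd]
      · by_cases hc : lowCell (e.symm i) = some a
        · right; simp [lowHit, hb, hd, hc]
        · have hx : X (e.symm i) = X' (e.symm i) := h _ (fun hh => hc hh.2)
          by_cases hX : X (e.symm i) = true
          · have hX' : X' (e.symm i) = true := hx ▸ hX
            have hne' : lowEv e t₁ X ≠ lowEv e t₁ X' := by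
              simpa [lowEv, DTree.eval, hX, hX'] using hne
            rcases ih₁ (d - 1) hne' with h1 | h1
            · left; simp only [lowCnt, hb, hX, if_true]; omega
            · right; simp [lowHit, hb, hd, hc, hX, h1]
          · have hX' : ¬ X' (e.symm i) = true := hx ▸ hX
            have hne' : lowEv e t₀ X ≠ lowEv e t₀ X' := by
              simpa [lowEv, DTree.eval, hX, hX'] using hne
            rcases ih₀ (d - 1) hne' with h1 | h1
            · left; simp only [lowCnt, hb, hX, if_true]; simp; omega
            · right; simp [lowHit, hb, hd, hc, hX, h1]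
    · have hx : X (e.symm i) = X' (e.symm i) := h _ (fun hh => hb hh.1)
      by_cases hX : X (e.symm i) = true
      · have hX' : X' (e.symm i) = true := hx ▸ hX
        have hne' : lowEv e t₁ X ≠ lowEv e t₁ X' := by
          simpa [lowEv, DTree.eval, hX, hX'] using hne
        rcases ih₁ d hne' with h1 | h1
        · left; simp [lowCnt, hb, hX, h1]
        · right; simp [lowHit, hb, hX, h1]
      · have hX' : ¬ X' (e.symm i) = true := hx ▸ hX
        have hne' : lowEv e t₀ X ≠ lowEv e t₀ X' := by
          simpa [lowEv, DTree.eval, hX, hX'] using hne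
        rcases ih₀ d hne' with h1 | h1
        · left; simp [lowCnt, hb, hX, h1]
        · right; simp [lowHit, hb, hX, h1]

lemma low_L2 (e : Idx n V Pf ≃ Fin N) (b a : Cube n) (X X' : Idx n V Pf → Bool)
    (h : ∀ p : Idx n V Pf, ¬ (p.1 = b ∧ lowCell p = some a) → X p = X' p) (T : DTree N) :
    ∀ d, lowHit e b a X T d = lowHit e b a X' T d := by
  induction T with
  | answer c => intro d; simp [lowHit]
  | read i t₀ t₁ ih₀ ih₁ =>
    intro d
    by_cases hb : (e.symm i).1 = b
    · by_cases hc : lowCell (e.symm i) = some a
      · simp [lowHit, hb, hc]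
      · have hx : X (e.symm i) = X' (e.symm i) := h _ (fun hh => hc hh.2)
        simp only [lowHit, hb, hc, if_true, if_false, hx, ih₀, ih₁]
    · have hx : X (e.symm i) = X' (e.symm i) := h _ (fun hh => hb hh.1)
      simp only [lowHit, hb, if_false, hx, ih₀, ih₁]

lemma low_L3 (e : Idx n V Pf ≃ Fin N) (X : Idx n V Pf → Bool) (T : DTree N) :
    ∑ b, lowCnt e b X T ≤ T.depth := by
  induction T with
  | answer c => simp [lowCnt, DTree.depth]
  | read i t₀ t₁ ih₀ ih₁ =>
    simp only [lowCnt, DTree.depth, Finset.sum_add_distrib]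
    have h1 : ∑ b : Cube n, (if (e.symm i).1 = b then 1 else 0) = 1 := by simp
    rw [h1]
    by_cases hX : X (e.symm i) = true
    · simp only [hX, if_true]
      have := le_max_right t₀.depth t₁.depth
      omega
    · simp only [hX]
      have := le_max_left t₀.depth t₁.depth
      simp only [Bool.false_eq_true, if_false]
      omega

lemma low_L4 (e : Idx n V Pf ≃ Fin N) (b : Cube n) (X : Idx n V Pf → Bool) (T : DTree N) :
    ∀ d, ∑ a, (if lowHit e b a X T d = true then 1 else 0 : ℕ) ≤ d := by
  induction T with
  | answer c => intro d; simp [lowHit]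
  | read i t₀ t₁ ih₀ ih₁ =>
    intro d
    by_cases hb : (e.symm i).1 = b
    · by_cases hd : d = 0
      · simp [lowHit, hb, hd]
      · have h1 : ∑ a : Cube n, (if lowCell (e.symm i) = some a then 1 else 0 : ℕ) ≤ 1 := by
          cases hc : lowCell (e.symm i) with
          | none => simp
          | some a₀ => simp
        by_cases hX : X (e.symm i) = true
        · have h2 := ih₁ (d - 1)
          calc ∑ a, (if lowHit e b a X (.read i t₀ t₁) d = true then 1 else 0 : ℕ)
              ≤ ∑ a, ((if lowCell (e.symm i) = some a then 1 else 0 : ℕ) +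
                (if lowHit e b a X t₁ (d - 1) = true then 1 else 0 : ℕ)) := by
                refine Finset.sum_le_sum (fun a _ => ?_)
                by_cases hc : lowCell (e.symm i) = some a
                · simp [lowHit, hb, hd, hc]
                · simp [lowHit, hb, hd, hc, hX]
            _ ≤ d := by rw [Finset.sum_add_distrib]; omega
        · have h2 := ih₀ (d - 1)
          calc ∑ a, (if lowHit e b a X (.read i t₀ t₁) d = true then 1 else 0 : ℕ)
              ≤ ∑ a, ((if lowCell (e.symm i) = some a then 1 else 0 : ℕ) +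
                (if lowHit e b a X t₀ (d - 1) = true then 1 else 0 : ℕ)) := by
                refine Finset.sum_le_sum (fun a _ => ?_)
                by_cases hc : lowCell (e.symm i) = some a
                · simp [lowHit, hb, hd, hc]
                · simp [lowHit, hb, hd, hc, hX]
            _ ≤ d := by rw [Finset.sum_add_distrib]; omega
    · by_cases hX : X (e.symm i) = true
      · simpa [lowHit, hb, hX] using ih₁ d
      · simpa [lowHit, hb, hX] using ih₀ d

/-- The background `Z` with the block of `b` replaced by the instance `x` and empty cells. -/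
def lowOv (Z : Idx n V Pf → Bool) (b : Cube n) (x : V → Bool) : Idx n V Pf → Bool :=
  fun p => if p.1 = b then (match p.2 with
    | .inl v => x v
    | .inr _ => false) else Z p

lemma low_L5 (e : Idx n V Pf ≃ Fin N) (b a : Cube n) (Z : Idx n V Pf → Bool) (T : DTree N) :
    ∀ d, DT d (fun x : V → Bool => lowHit e b a (lowOv Z b x) T d) := by
  induction T with
  | answer c => intro d; exact DT.const d false
  | read i t₀ t₁ ih₀ ih₁ =>
    intro d
    by_cases hb : (e.symm i).1 = b
    · by_cases hd : d = 0
      · refine (DT.const d false).congr (fun x => ?_)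
        simp [lowHit, hb, hd]
      · by_cases hc : lowCell (e.symm i) = some a
        · refine (DT.const d true).congr (fun x => ?_)
          simp [lowHit, hb, hd, hc]
        · obtain ⟨d', rfl⟩ : ∃ d', d = d' + 1 := ⟨d - 1, by omega⟩
          cases hp : (e.symm i).2 with
          | inl v =>
            refine (DT.read d' v _ _ (ih₀ d') (ih₁ d')).congr (fun x => ?_)
            have : lowOv Z b x (e.symm i) = x v := by simp [lowOv, hb, hp]
            simp [lowHit, hb, hc, this]
          | inr q =>
            refine (ih₀ d').succ.congr (fun x => ?_)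
            have : lowOv Z b x (e.symm i) = false := by simp [lowOv, hb, hp]
            simp [lowHit, hb, hc, this]
    · by_cases hZ : Z (e.symm i) = true
      · refine (ih₁ d).congr (fun x => ?_)
        have : lowOv Z b x (e.symm i) = true := by simp [lowOv, hb, hZ]
        simp [lowHit, hb, this]
      · refine (ih₀ d).congr (fun x => ?_)
        have : lowOv Z b x (e.symm i) = false := by simpa [lowOv, hb] using hZ
        simp [lowHit, hb, this]

/-- The negative input. -/
def lowX0 (m : Cube n → V → Bool) (ω : Cube n → Cube n × (V → Bool)) : Idx n V Pf → Bool :=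
  fun p => match p.2 with
    | .inl v => xor ((ω p.1).2 v) (m (ω p.1).1 v)
    | .inr (a, .inl true) => decide (a = (ω p.1).1)
    | .inr (_, .inl false) => false
    | .inr (_, .inr _) => false

/-- The positive input. -/
def lowX1 (m : Cube n → V → Bool) (ω : Cube n → Cube n × (V → Bool)) (b : Cube n)
    (π : Pf → Bool) : Idx n V Pf → Bool :=
  fun p => if p.1 = b ∧ lowCell p = some (ω b).1 then (match p.2 with
    | .inl _ => false
    | .inr (_, .inl c) => !c
    | .inr (_, .inr (.inl (u', s))) => (ω u').1 s
    | .inr (_, .inr (.inr β)) => π β) else lowX0 m ω p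

lemma low_FF0 (acc : (V → Bool) → Cube n → (Pf → Bool) → Prop) (m : Cube n → V → Bool)
    (ω : Cube n → Cube n × (V → Bool)) : FF acc (lowX0 (Pf := Pf) m ω) = false := by
  unfold FF
  rw [decide_eq_false_iff_not]
  rintro ⟨b, a, h, -⟩
  have := ((h a).2).2 rfl
  simp [live, lowX0] at this

lemma low_FF1 (acc : (V → Bool) → Cube n → (Pf → Bool) → Prop) (m : Cube n → V → Bool)
    (ω : Cube n → Cube n × (V → Bool)) (b : Cube n) (π : Pf → Bool)
    (hπ : acc (fun v => xor ((ω b).2 v) (m (ω b).1 v)) (ω b).1 π) :
    FF acc (lowX1 m ω b π) = true := by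
  unfold FF
  simp only [decide_eq_true_eq]
  refine ⟨b, (ω b).1, fun a' => ?_, fun u hu => ?_, ?_⟩
  · by_cases ha : a' = (ω b).1
    · simp [dead, live, lowX1, lowCell, ha]
    · simp [dead, live, lowX1, lowX0, lowCell, ha]
  · have : ptr (lowX1 m ω b π) b (ω b).1 u = (ω u).1 := by
      funext s; simp [ptr, lowX1, lowCell]
    rw [this]
    simp [dead, lowX1, lowX0, hu]
  · have h1 : inst (lowX1 m ω b π) b = fun v => xor ((ω b).2 v) (m (ω b).1 v) := by
      funext v; simp [inst, lowX1, lowX0, lowCell]
    have h2 : prf (lowX1 m ω b π) b (ω b).1 = π := by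
      funext β; simp [prf, lowX1, lowCell]
    rw [h1, h2]; exact hπ

lemma low_resample {G S : Type} [Fintype G] [DecidableEq G] [Fintype S] (π : S → ℝ)
    (hπ : ∑ s, π s = 1) (b : G) (h : (G → S) → ℝ) :
    ∑ ω : G → S, (∏ u, π (ω u)) * h ω =
      ∑ ω : G → S, (∏ u, π (ω u)) * ∑ s, π s * h (Function.update ω b s) := by
  classical
  let φ : (G → S) × S → (G → S) × S := fun q => (Function.update q.1 b q.2, q.1 b)
  have hφ : Function.Involutive φ := by
    rintro ⟨ω, s⟩
    simp [φ]
  have hw : ∀ (ω : G → S) (s : S),
      (∏ u, π (Function.update ω b s u)) * π (ω b) = (∏ u, π (ω u)) * π s := by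
    intro ω s
    rw [← Finset.mul_prod_erase Finset.univ (fun u => π (Function.update ω b s u))
      (Finset.mem_univ b), ← Finset.mul_prod_erase Finset.univ (fun u => π (ω u))
      (Finset.mem_univ b)]
    have : ∏ u ∈ Finset.univ.erase b, π (Function.update ω b s u) =
        ∏ u ∈ Finset.univ.erase b, π (ω u) := by
      refine Finset.prod_congr rfl (fun u hu => ?_)
      rw [Function.update_of_ne (Finset.ne_of_mem_erase hu)]
    rw [this, Function.update_self]
    ring
  have key := Equiv.sum_comp hφ.toPerm
    (fun q : (G → S) × S => (∏ u, π (q.1 u)) * π q.2 * h q.1)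
  rw [Fintype.sum_prod_type, Fintype.sum_prod_type] at key
  calc ∑ ω : G → S, (∏ u, π (ω u)) * h ω
      = ∑ ω : G → S, ∑ s, (∏ u, π (ω u)) * π s * h ω := by
        refine Finset.sum_congr rfl (fun ω _ => ?_)
        have : ∑ s, (∏ u, π (ω u)) * π s * h ω = (∏ u, π (ω u)) * h ω * ∑ s, π s := by
          rw [Finset.mul_sum]; exact Finset.sum_congr rfl (fun s _ => by ring)
        rw [this, hπ, mul_one]
    _ = _ := by
        rw [← key]
        refine Finset.sum_congr rfl (fun ω _ => ?_)
        rw [Finset.mul_sum]
        refine Finset.sum_congr rfl (fun s _ => ?_)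
        show (∏ u, π (Function.update ω b s u)) * π (ω b) * h (Function.update ω b s) = _
        rw [hw]; ring

end Aux

theorem lower {n : ℕ} {V Pf : Type} [Fintype V] [DecidableEq V]
    (acc : (V → Bool) → Cube n → (Pf → Bool) → Prop)
    (P₁ P₀ : (V → Bool) → ℝ) (m : Cube n → V → Bool) (good : (V → Bool) → Prop)
    [DecidablePred good] (γ adv : ℝ) (d : ℕ)
    (hP₁ : ∀ x, 0 ≤ P₁ x) (hP₀ : ∀ x, 0 ≤ P₀ x) (hP₀s : ∑ x, P₀ x = 1)
    (hinv : ∀ a x, P₀ (fun v => xor (x v) (m a v)) = P₀ x)
    (hγ : 0 < γ) (hgood : γ ≤ ∑ x, if good x then P₁ x else 0)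
    (hacc : ∀ a y, good y → ∃ π, acc (fun v => xor (y v) (m a v)) a π)
    (hadv : ∀ f : (V → Bool) → ℝ, DT d f → (∀ x, |f x| ≤ 1) →
      ∑ x, P₁ x * f x - ∑ x, P₀ x * f x ≤ adv)
    (hsmall : adv + (d : ℝ) / 2 ^ n ≤ γ / 6)
    {N : ℕ} (e : Idx n V Pf ≃ Fin N) (r : ℕ)
    (hr : RandomizedComputes (fun y : Fin N → Bool => FF acc (fun i => y (e i))) r) :
    (2 : ℝ) ^ n * d ≤ 6 * r := by
  classical
  obtain ⟨s, p, T, hp0, hp1, hdep, hcorr⟩ := hr
  set Zs : ℝ := ∑ x, if good x then P₁ x else 0 with hZs
  have hZ : 0 < Zs := lt_of_lt_of_le hγ hgood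
  set N0 : ℝ := (2 : ℝ) ^ n with hN0
  have hN0pos : 0 < N0 := by positivity
  have hcard : (Fintype.card (Cube n) : ℝ) = N0 := by simp [hN0]
  let π : Cube n × (V → Bool) → ℝ := fun q => (if good q.2 then P₁ q.2 else 0) / (Zs * N0)
  have hπ0 : ∀ q, 0 ≤ π q := by
    intro q
    have : 0 ≤ (if good q.2 then P₁ q.2 else 0) := by
      split_ifs
      · exact hP₁ _
      · exact le_rfl
    exact div_nonneg this (by positivity)
  have hπ1 : ∑ q, π q = 1 := by
    rw [Fintype.sum_prod_type]
    have : ∀ a : Cube n, ∑ y, π (a, y) = 1 / N0 := by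
      intro a
      simp only [π]
      rw [← Finset.sum_div, ← hZs]
      field_simp
    simp only [this, Finset.sum_const, Finset.card_univ, nsmul_eq_mul, hcard]
    field_simp
  let wt : (Cube n → Cube n × (V → Bool)) → ℝ := fun ω => ∏ u, π (ω u)
  have hwt0 : ∀ ω, 0 ≤ wt ω := fun ω => Finset.prod_nonneg (fun u _ => hπ0 _)
  have hwt1 : ∑ ω, wt ω = 1 := by
    have := Finset.prod_univ_sum (fun _ : Cube n => (Finset.univ : Finset (Cube n × (V → Bool))))
      (fun _ q => π q)
    simp only [Fintype.piFinset_univ, hπ1, Finset.prod_const_one] at this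
    exact this.symm
  -- the hit term
  have hhit : ∀ (t : DTree N) (b : Cube n),
      ∑ ω, wt ω * (if lowHit e b (ω b).1 (lowX0 m ω) t d = true then (1 : ℝ) else 0) ≤ 1 / 6 := by
    intro t b
    have hres := low_resample π hπ1 b
      (fun ω => if lowHit e b (ω b).1 (lowX0 (Pf := Pf) m ω) t d = true then (1 : ℝ) else 0)
    simp only [wt]
    rw [hres]
    have hpt : ∀ ω : Cube n → Cube n × (V → Bool),
        ∑ q, π q * (if lowHit e b ((Function.update ω b q) b).1
          (lowX0 (Pf := Pf) m (Function.update ω b q)) t d = true then (1 : ℝ) else 0) ≤ 1 / 6 := by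
      intro ω
      let g : Cube n → (V → Bool) → ℝ := fun a x =>
        if lowHit e b a (lowOv (lowX0 (Pf := Pf) m ω) b x) t d = true then 1 else 0
      have hg0 : ∀ a x, 0 ≤ g a x := by
        intro a x; simp only [g]; split_ifs <;> norm_num
      have hrw : ∀ q : Cube n × (V → Bool),
          (if lowHit e b ((Function.update ω b q) b).1
            (lowX0 (Pf := Pf) m (Function.update ω b q)) t d = true then (1 : ℝ) else 0) =
          g q.1 (fun v => xor (q.2 v) (m q.1 v)) := by
        intro q
        simp only [g, Function.update_self]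
        rw [low_L2 e b q.1 (lowX0 (Pf := Pf) m (Function.update ω b q))
          (lowOv (lowX0 (Pf := Pf) m ω) b (fun v => xor (q.2 v) (m q.1 v))) ?_ t d]
        rintro ⟨u, c⟩ hp
        by_cases hu : u = b
        · subst hu
          rcases c with v | ⟨a', c⟩
          · simp [lowX0, lowOv]
          · have ha : a' ≠ q.1 := by
              intro h; exact hp ⟨rfl, by simp [lowCell, h]⟩
            rcases c with c | c
            · cases c <;> simp [lowX0, lowOv, ha]
            · simp [lowX0, lowOv]
        · rcases c with v | ⟨a', c⟩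
          · simp [lowX0, lowOv, hu]
          · rcases c with c | c
            · cases c <;> simp [lowX0, lowOv, hu]
            · simp [lowX0, lowOv, hu]
      simp only [hrw]
      rw [Fintype.sum_prod_type]
      have ha : ∀ a : Cube n, ∑ y, π (a, y) * g a (fun v => xor (y v) (m a v)) ≤
          (adv + ∑ y, P₀ y * g a y) / (Zs * N0) := by
        intro a
        have hdt : DT d (fun y : V → Bool => g a (fun v => xor (y v) (m a v))) := by
          have := (low_L5 e b a (lowX0 (Pf := Pf) m ω) t d).map
            (fun c : Bool => if c = true then (1 : ℝ) else 0)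
          exact this.flip (m a)
        have h1 := hadv _ hdt (by
          intro x; simp only [g]; split_ifs <;> norm_num)
        have hinvol : Function.Involutive (fun y : V → Bool => fun v => xor (y v) (m a v)) := by
          intro y; funext v; simp
        have h2 : ∑ y, P₀ y * g a (fun v => xor (y v) (m a v)) = ∑ y, P₀ y * g a y := by
          rw [← Equiv.sum_comp hinvol.toPerm (fun y => P₀ y * g a y)]
          refine Finset.sum_congr rfl (fun y _ => ?_)
          show _ = P₀ (fun v => xor (y v) (m a v)) * g a (fun v => xor (y v) (m a v))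
          rw [hinv]
        have h3 : ∑ y, π (a, y) * g a (fun v => xor (y v) (m a v)) ≤
            (∑ y, P₁ y * g a (fun v => xor (y v) (m a v))) / (Zs * N0) := by
          rw [Finset.sum_div]
          refine Finset.sum_le_sum (fun y _ => ?_)
          simp only [π]
          rw [div_mul_eq_mul_div]
          refine div_le_div_of_nonneg_right ?_ (by positivity)
          refine mul_le_mul_of_nonneg_right ?_ (hg0 _ _)
          split_ifs
          · exact le_rfl
          · exact hP₁ _
        refine h3.trans (div_le_div_of_nonneg_right ?_ (by positivity))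
        linarith
      refine (Finset.sum_le_sum (fun a _ => ha a)).trans ?_
      rw [← Finset.sum_div, Finset.sum_add_distrib, Finset.sum_comm]
      have h4 : ∑ y, ∑ a, P₀ y * g a y ≤ d := by
        calc ∑ y, ∑ a, P₀ y * g a y ≤ ∑ y, P₀ y * d := by
              refine Finset.sum_le_sum (fun y _ => ?_)
              rw [← Finset.mul_sum]
              refine mul_le_mul_of_nonneg_left ?_ (hP₀ y)
              have := low_L4 e b (lowOv (lowX0 (Pf := Pf) m ω) b y) t d
              have h5 : ∑ a, g a y = ((∑ a, (if lowHit e b a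
                  (lowOv (lowX0 (Pf := Pf) m ω) b y) t d = true then 1 else 0 : ℕ) : ℕ) : ℝ) := by
                push_cast; rfl
              rw [h5]; exact_mod_cast this
          _ = d := by rw [← Finset.sum_mul, hP₀s, one_mul]
      simp only [Finset.sum_const, Finset.card_univ, nsmul_eq_mul, hcard]
      rw [div_le_iff₀ (by positivity)]
      have h6 : N0 * adv + d ≤ N0 * (γ / 6) := by
        have := mul_le_mul_of_nonneg_left hsmall hN0pos.le
        rw [mul_add, mul_div_cancel₀ _ hN0pos.ne'] at this
        exact this
      have h7 : N0 * (γ / 6) ≤ 1 / 6 * (Zs * N0) := by nlinarith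
      linarith
    calc ∑ ω : Cube n → Cube n × (V → Bool), (∏ u, π (ω u)) * ∑ q, π q *
          (if lowHit e b ((Function.update ω b q) b).1
            (lowX0 (Pf := Pf) m (Function.update ω b q)) t d = true then (1 : ℝ) else 0)
        ≤ ∑ ω, wt ω * (1 / 6) :=
          Finset.sum_le_sum (fun ω _ => mul_le_mul_of_nonneg_left (hpt ω) (hwt0 ω))
      _ = 1 / 6 := by rw [← Finset.sum_mul, hwt1, one_mul]
  -- the count term
  have hcnt : ∀ (j : Fin s) (X : Idx n V Pf → Bool),
      ∑ b, (if d < lowCnt e b X (T j) then (1 : ℝ) else 0) ≤ r / (d + 1) := by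
    intro j X
    rw [le_div_iff₀ (by positivity), Finset.sum_mul]
    have h1 := (low_L3 e X (T j)).trans (hdep j)
    calc ∑ b, (if d < lowCnt e b X (T j) then (1 : ℝ) else 0) * (d + 1)
        ≤ ∑ b, (lowCnt e b X (T j) : ℝ) := by
          refine Finset.sum_le_sum (fun b _ => ?_)
          split_ifs with h
          · rw [one_mul]; exact_mod_cast h
          · simp
      _ ≤ r := by exact_mod_cast h1
  -- the basic inequality
  have hbasic : ∀ (ω : Cube n → Cube n × (V → Bool)) (b : Cube n),
      wt ω * (1 / 3) ≤ wt ω * ∑ j, p j * ((if d < lowCnt e b (lowX0 m ω) (T j) then (1 : ℝ) else 0)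
        + (if lowHit e b (ω b).1 (lowX0 m ω) (T j) d = true then (1 : ℝ) else 0)) := by
    intro ω b
    by_cases hgb : good (ω b).2
    · refine mul_le_mul_of_nonneg_left ?_ (hwt0 ω)
      obtain ⟨πb, hπb⟩ := hacc (ω b).1 (ω b).2 hgb
      have h0 := hcorr (fun i => lowX0 (Pf := Pf) m ω (e.symm i))
      have h1 := hcorr (fun i => lowX1 m ω b πb (e.symm i))
      simp only [Equiv.symm_apply_apply] at h0 h1
      have e0 : FF acc (fun i => lowX0 (Pf := Pf) m ω i) = false := low_FF0 acc m ω
      have e1 : FF acc (fun i => lowX1 m ω b πb i) = true := low_FF1 acc m ω b πb hπb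
      rw [e0] at h0
      rw [e1] at h1
      have hsum : ∑ j, ((if (T j).eval (fun i => lowX0 (Pf := Pf) m ω (e.symm i)) = false
          then p j else 0) + (if (T j).eval (fun i => lowX1 m ω b πb (e.symm i)) = true
          then p j else 0)) ≤ ∑ j, (p j + p j *
            ((if d < lowCnt e b (lowX0 m ω) (T j) then (1 : ℝ) else 0)
            + (if lowHit e b (ω b).1 (lowX0 m ω) (T j) d = true then (1 : ℝ) else 0))) := by
        refine Finset.sum_le_sum (fun j _ => ?_)
        have hj := hp0 j
        by_cases hne : lowEv e (T j) (lowX0 (Pf := Pf) m ω) = lowEv e (T j) (lowX1 m ω b πb)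
        · simp only [lowEv] at hne
          rw [hne]
          have : 0 ≤ p j * ((if d < lowCnt e b (lowX0 m ω) (T j) then (1 : ℝ) else 0)
            + (if lowHit e b (ω b).1 (lowX0 m ω) (T j) d = true then (1 : ℝ) else 0)) := by
            refine mul_nonneg hj (add_nonneg ?_ ?_) <;> split_ifs <;> norm_num
          cases (T j).eval (fun i => lowX1 m ω b πb (e.symm i)) <;> simp <;> simpa using this
        · have hL := low_L1 e b (ω b).1 (lowX0 (Pf := Pf) m ω) (lowX1 m ω b πb) (by
            intro q hq; simp only [lowX1]; rw [if_neg hq]) (T j) d hne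
          have h2 : (1 : ℝ) ≤ (if d < lowCnt e b (lowX0 m ω) (T j) then (1 : ℝ) else 0)
            + (if lowHit e b (ω b).1 (lowX0 m ω) (T j) d = true then (1 : ℝ) else 0) := by
            rcases hL with h | h
            · rw [if_pos h]; split_ifs <;> norm_num
            · rw [if_pos h]; split_ifs <;> norm_num
          have h3 := mul_le_mul_of_nonneg_left h2 hj
          have h4 : (if (T j).eval (fun i => lowX0 (Pf := Pf) m ω (e.symm i)) = false
            then p j else 0) ≤ p j := by split_ifs <;> linarith
          have h5 : (if (T j).eval (fun i => lowX1 m ω b πb (e.symm i)) = true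
            then p j else 0) ≤ p j := by split_ifs <;> linarith
          linarith
      rw [Finset.sum_add_distrib, Finset.sum_add_distrib, hp1] at hsum
      linarith
    · have : wt ω = 0 := by
        refine Finset.prod_eq_zero (Finset.mem_univ b) ?_
        simp [π, hgb]
      simp [this]
  have htot : N0 * (1 / 3) ≤ r / (d + 1) + N0 * (1 / 6) := by
    calc N0 * (1 / 3) = ∑ b : Cube n, ∑ ω, wt ω * (1 / 3) := by
          simp only [← Finset.sum_mul, hwt1, Finset.sum_const, Finset.card_univ, nsmul_eq_mul,
            hcard, one_mul]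
      _ ≤ ∑ b : Cube n, ∑ ω, wt ω * ∑ j, p j *
          ((if d < lowCnt e b (lowX0 m ω) (T j) then (1 : ℝ) else 0)
          + (if lowHit e b (ω b).1 (lowX0 m ω) (T j) d = true then (1 : ℝ) else 0)) :=
          Finset.sum_le_sum (fun b _ => Finset.sum_le_sum (fun ω _ => hbasic ω b))
      _ = ∑ j, p j * ((∑ ω, wt ω * ∑ b : Cube n,
            (if d < lowCnt e b (lowX0 m ω) (T j) then (1 : ℝ) else 0)) +
          ∑ b : Cube n, ∑ ω, wt ω *
            (if lowHit e b (ω b).1 (lowX0 m ω) (T j) d = true then (1 : ℝ) else 0)) := by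
          simp only [Finset.mul_sum, mul_add, Finset.sum_add_distrib]
          congr 1
          · rw [Finset.sum_comm]
            conv_rhs => rw [Finset.sum_comm]
            refine Finset.sum_congr rfl (fun ω _ => ?_)
            rw [Finset.sum_comm]
            refine Finset.sum_congr rfl (fun j _ => Finset.sum_congr rfl (fun b _ => by ring))
          · conv_rhs => rw [Finset.sum_comm]
            refine Finset.sum_congr rfl (fun b _ => ?_)
            rw [Finset.sum_comm]
            refine Finset.sum_congr rfl (fun j _ => Finset.sum_congr rfl (fun ω _ => by ring))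
      _ ≤ ∑ j, p j * (r / (d + 1) + N0 * (1 / 6)) := by
          refine Finset.sum_le_sum (fun j _ => mul_le_mul_of_nonneg_left (add_le_add ?_ ?_) (hp0 j))
          · calc _ ≤ ∑ ω, wt ω * ((r : ℝ) / (d + 1)) :=
                  Finset.sum_le_sum (fun ω _ => mul_le_mul_of_nonneg_left (hcnt j _) (hwt0 ω))
              _ = _ := by rw [← Finset.sum_mul, hwt1, one_mul]
          · calc _ ≤ ∑ _b : Cube n, (1 / 6 : ℝ) := Finset.sum_le_sum (fun b _ => hhit (T j) b)
              _ = _ := by simp only [Finset.sum_const, Finset.card_univ, nsmul_eq_mul, hcard]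
      _ = _ := by rw [← Finset.sum_mul, hp1, one_mul]
  have h8 : N0 / 6 ≤ r / (d + 1) := by linarith
  rw [div_le_div_iff₀ (by norm_num) (by positivity)] at h8
  nlinarith

end Crest.Agent.R350
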