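import Crest.Agent.R350.QS
import Crest.Agent.R350.Had

/-! # Row 350: forrelation sampling -/

set_option autoImplicit false

namespace Crest.Agent.R350

open Matrix

theorem sampler (n k : ℕ) :
    QS (k + 1) (fun (x : Fin (k + 1) × Cube n → Bool) (g : Cube n → ℝ) =>
      ∑ a, amp x a ^ 2 * g a) := by
  have key : ∀ κ : ℕ, ∃ U : (Fin (k + 1) × Cube n → Bool) → Matrix (Cube n) (Cube n) ℝ,
      Impl κ U ∧ ∀ x a, U x a (fun _ => false) =
        fw (had n) (blk fun v => sgn (x v)) κ a / Real.sqrt (2 ^ n) := by
    intro κ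
    induction κ with
    | zero =>
      refine ⟨fun _ => had n, Impl.const _ (had_orth n), fun x a => ?_⟩
      simp [had_apply, fw]
    | succ κ ih =>
      obtain ⟨U, hU, h⟩ := ih
      refine ⟨fun x => had n *
        phase (fun i => if h : κ < k + 1 then some (⟨κ, h⟩, i) else none) x * U x,
        ⟨had n, _, U, had_orth n, hU, fun x => rfl⟩, fun x a => ?_⟩
      simp only [fw, mulVec, dotProduct, Finset.sum_div]
      rw [Matrix.mul_apply]
      refine Finset.sum_congr rfl fun i _ => ?_
      rw [phase, mul_diagonal, h, blk]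
      split_ifs <;> simp <;> ring
  obtain ⟨U, hU, h⟩ := key (k + 1)
  refine (QS.of_impl hU (fun _ => false)).congr fun x g => ?_
  simp only [h, amp]

end Crest.Agent.R350
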