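import Crest.Agent.R350.Tournament

/-! # Row 350: the quantum algorithm for `FF` -/

set_option autoImplicit false

namespace Crest.Agent.R350

lemma upper_num (T : ℕ) :
    (1 - 1 / (8 * ((T : ℝ) + 1))) ^ (32 * (T + 1) ^ 2) * 9 ^ T ≤ 1 / 3 := by
  have hT : (0 : ℝ) < (T : ℝ) + 1 := by positivity
  have h0 : 0 ≤ 1 - 1 / (8 * ((T : ℝ) + 1)) := by
    have : 1 / (8 * ((T : ℝ) + 1)) ≤ 1 := by
      rw [div_le_one (by positivity)]
      have : (0 : ℝ) ≤ T := Nat.cast_nonneg T
      linarith
    linarith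
  have h1 : 1 - 1 / (8 * ((T : ℝ) + 1)) ≤ Real.exp (-(1 / (8 * ((T : ℝ) + 1)))) := by
    have := Real.add_one_le_exp (-(1 / (8 * ((T : ℝ) + 1))))
    linarith
  have h2 : (1 - 1 / (8 * ((T : ℝ) + 1))) ^ (32 * (T + 1) ^ 2) ≤ Real.exp (-4) ^ (T + 1) := by
    refine (pow_le_pow_left₀ h0 h1 _).trans (le_of_eq ?_)
    rw [← Real.exp_nat_mul, ← Real.exp_nat_mul]
    congr 1
    push_cast
    field_simp
    ring
  have h3 : Real.exp (-4) ≤ 1 / 9 := by
    have h4 : (3 : ℝ) ≤ Real.exp 2 := by
      have := Real.add_one_le_exp 2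
      linarith
    have h5 : Real.exp 4 = Real.exp 2 * Real.exp 2 := by rw [← Real.exp_add]; norm_num
    rw [Real.exp_neg, ← one_div]
    exact one_div_le_one_div_of_le (by norm_num) (by rw [h5]; nlinarith)
  have h6 : Real.exp (-4) ^ (T + 1) ≤ (1 / 9) ^ (T + 1) :=
    pow_le_pow_left₀ (Real.exp_pos _).le h3 _
  calc (1 - 1 / (8 * ((T : ℝ) + 1))) ^ (32 * (T + 1) ^ 2) * 9 ^ T
      ≤ (1 / 9) ^ (T + 1) * 9 ^ T := mul_le_mul_of_nonneg_right (h2.trans h6) (by positivity)
    _ = 1 / 9 := by rw [pow_succ, mul_right_comm, ← mul_pow]; norm_num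
    _ ≤ 1 / 3 := by norm_num

lemma upper_num' (T : ℕ) :
    (1 - 1 / (4 * ((T : ℝ) + 1))) ^ (32 * (T + 1) ^ 2) ≤ 1 / 3 := by
  have hT0 : (0 : ℝ) ≤ T := Nat.cast_nonneg T
  have h0 : 0 ≤ 1 - 1 / (4 * ((T : ℝ) + 1)) := by
    have : 1 / (4 * ((T : ℝ) + 1)) ≤ 1 := by
      rw [div_le_one (by positivity)]
      linarith
    linarith
  have h1 : 1 - 1 / (4 * ((T : ℝ) + 1)) ≤ 1 - 1 / (8 * ((T : ℝ) + 1)) := by
    have : 1 / (8 * ((T : ℝ) + 1)) ≤ 1 / (4 * ((T : ℝ) + 1)) :=
      one_div_le_one_div_of_le (by positivity) (by linarith)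
    linarith
  refine le_trans ?_ (upper_num T)
  refine (pow_le_pow_left₀ h0 h1 _).trans (le_mul_of_one_le_right (pow_nonneg (h0.trans h1) _) ?_)
  exact one_le_pow₀ (by norm_num)

section
variable {n : ℕ} {V Pf : Type}

lemma DT_beats (u a v : Cube n) :
    DT (n + 1) (fun X : Idx n V Pf → Bool => dead X v (ptr X u a v)) :=
  (DT.bits n (fun s => ((u, .inr (a, .inr (.inl (v, s)))) : Idx n V Pf))).bind
    (g := fun (p : Cube n) X => dead X v p) (fun _ => DT.bit _)

end

theorem upper {n : ℕ} {V Pf Chk : Type} [Fintype Chk]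
    (ok : Chk → Cube n → (V ⊕ Pf → Bool) → Bool) (w : (V → Bool) → Cube n → ℝ)
    (q₀ r T : ℕ) (θ₂ : ℝ)
    (hw : QS q₀ (fun x (g : Cube n → ℝ) => ∑ a, w x a * g a))
    (hw0 : ∀ x a, 0 ≤ w x a) (hw1 : ∀ x, ∑ a, w x a = 1)
    (hok : ∀ c a, DT r (ok c a))
    (hsound : ∀ x a π, (∀ c, ok c a (Sum.elim x π) = true) → θ₂ ≤ w x a)
    (hT : (2 : ℝ) ^ n ≤ 9 ^ T * θ₂) (hT' : 2 ^ n + Fintype.card Chk ≤ 9 ^ T) :
    ∃ L : (Idx n V Pf → Bool) → (Bool → ℝ) → ℝ,
      QS (32 * (T + 1) ^ 2 * 3 ^ T * (q₀ + r + 100 * (T + 1) ^ 2 * (n + 1))) L ∧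
      ∀ X, 2 / 3 ≤ L X (fun b =>
        if b = FF (fun x a π => ∀ c, ok c a (Sum.elim x π) = true) X then 1 else 0) := by
  classical
  set R := 32 * (T + 1) ^ 2 with hR
  set acc : (V → Bool) → Cube n → (Pf → Bool) → Prop :=
    fun x a π => ∀ c, ok c a (Sum.elim x π) = true with hacc
  have hcard : (Fintype.card (Cube n) : ℝ) = 2 ^ n := by simp
  -- the base sampler
  set wt : (Idx n V Pf → Bool) → Cube n × Cube n → ℝ :=
    fun X p => 1 / (2 : ℝ) ^ n * w (inst X p.1) p.2 with hwt
  have hsamp : QS q₀ (fun X (g : Cube n × Cube n → ℝ) => ∑ p, wt X p * g p) := by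
    have := (QS.uniform (ι := Idx n V Pf) (Cube n)).bind (r := q₀)
      (K := fun u X (g : Cube n × Cube n → ℝ) => ∑ a, w (inst X u) a * g (u, a))
      (fun u => ((hw.comap (fun v => ((u, .inl v) : Idx n V Pf))).map (fun a => (u, a))))
    refine (this.mono (by omega)).congr fun X g => ?_
    rw [Fintype.sum_prod_type, hcard]
    refine Finset.sum_congr rfl fun u _ => ?_
    rw [Finset.mul_sum]
    exact Finset.sum_congr rfl fun a _ => by simp only [hwt]; ring
  have hwt0 : ∀ X p, 0 ≤ wt X p := fun X p => mul_nonneg (by positivity) (hw0 _ _)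
  have hwt1 : ∀ X, ∑ p, wt X p = 1 := by
    intro X
    rw [Fintype.sum_prod_type]
    simp only [hwt, ← Finset.mul_sum, hw1, Finset.sum_const, Finset.card_univ, nsmul_eq_mul,
      hcard]
    field_simp
  -- the tournament
  obtain ⟨L₁, hL₁, hL₁'⟩ := QS.tournament (r₁ := 1) (r₂ := (n + 1) + (n + 1)) wt hsamp hwt0 hwt1
    (fun p X => live X p.1 p.2)
    (fun p p' X => decide (p.1 ≠ p'.1) && (dead X p'.1 (ptr X p.1 p.2 p'.1) &&
      !dead X p.1 (ptr X p'.1 p'.2 p.1)))
    (fun p => DT.bit _)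
    (fun p p' => (DT_beats p.1 p.2 p'.1).map₂ (DT_beats p'.1 p'.2 p.1)
      (fun a b => decide (p.1 ≠ p'.1) && (a && !b)))
    (fun X p p' h1 h2 => by
      simp only [Bool.and_eq_true, Bool.not_eq_true'] at h1 h2
      rw [h1.2.1] at h2
      exact absurd h2.2.2 (by simp)) T R
  -- the verification
  have hver : ∀ p : Cube n × Cube n, ∃ L : (Idx n V Pf → Bool) → (Bool → ℝ) → ℝ,
      QS (R * (3 ^ T * (r + (n + 3)))) L ∧
      (∀ X, Valid acc X p.1 p.2 → ∀ g, L X g = g true) ∧
      (∀ X, ¬ Valid acc X p.1 p.2 → L X (fun b => if b = true then 1 else 0) ≤ 1 / 3) := by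
    rintro ⟨b, a⟩
    set bad : Cube n ⊕ Chk → (Idx n V Pf → Bool) → Bool := fun c X => match c with
      | .inl u => !(decide (dead X b u = false ∧ (live X b u = true ↔ u = a) ∧
          (u ≠ b → dead X u (ptr X b a u) = true)))
      | .inr c => !(ok c a (Sum.elim (inst X b) (prf X b a))) with hbad
    have hiff : ∀ X, (∀ c, bad c X = false) ↔ Valid acc X b a := by
      intro X
      simp only [Sum.forall, hbad, Bool.not_eq_eq_eq_not, Bool.not_false, decide_eq_true_eq,
        Valid, hacc]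
      constructor
      · rintro ⟨h1, h2⟩
        exact ⟨fun u => ⟨(h1 u).1, (h1 u).2.1⟩, fun u => (h1 u).2.2, h2⟩
      · rintro ⟨h1, h2, h3⟩
        exact ⟨fun u => ⟨(h1 u).1, (h1 u).2, h2 u⟩, h3⟩
    obtain ⟨L, hL, hL1, hL2⟩ := QS.verify (r := r + (n + 3)) bad (fun c => by
      cases c with
      | inl u =>
        have h1 : DT 1 (fun X : Idx n V Pf → Bool => dead X b u) := DT.bit _
        have h2 : DT 1 (fun X : Idx n V Pf → Bool => live X b u) := DT.bit _
        exact (((h1.pair h2).map₂ (DT_beats b a u) (fun x y =>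
          !(decide (x.1 = false ∧ (x.2 = true ↔ u = a) ∧ (u ≠ b → y = true))))).mono
          (by omega)).congr fun X => rfl
      | inr c =>
        have h1 := ((hok c a).comap (W := Idx n V Pf)
          (Sum.elim (fun v => (b, .inl v)) (fun β => (b, .inr (a, .inr (.inr β)))))).map
          (fun y => !y)
        refine (h1.mono (by omega)).congr fun X => ?_
        simp only [hbad]
        congr 2
        funext v
        cases v <;> rfl) T (by simpa using hT') R
    refine ⟨L, hL, fun X hX => hL1 X ((hiff X).2 hX), fun X hX => ?_⟩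
    refine (hL2 X ?_).trans (upper_num' T)
    by_contra hcon
    push Not at hcon
    exact hX ((hiff X).1 fun c => by simpa using hcon c)
  choose L₂ hL₂ hL₂v hL₂n using hver
  have hfin := hL₁.bind (r := R * (3 ^ T * (r + (n + 3))))
    (K := fun o X (g : Bool → ℝ) => o.elim (g false) (fun p => L₂ p X g))
    (fun o => by
      cases o with
      | none => simpa using (QS.pure (ι := Idx n V Pf) false).mono (Nat.zero_le _)
      | some p => simpa using hL₂ p)
  refine ⟨_, hfin.mono ?_, fun X => ?_⟩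
  · have h1 : 1 ≤ (T + 1) ^ 2 := Nat.one_le_pow _ _ (by omega)
    have h2 : q₀ + (1 + R * (n + 1 + (n + 1))) + (r + (n + 3)) ≤
        q₀ + r + 100 * (T + 1) ^ 2 * (n + 1) := by
      rw [hR]; nlinarith
    calc R * (3 ^ T * (q₀ + (1 + R * (n + 1 + (n + 1))))) + R * (3 ^ T * (r + (n + 3)))
        = R * 3 ^ T * (q₀ + (1 + R * (n + 1 + (n + 1))) + (r + (n + 3))) := by ring
      _ ≤ _ := Nat.mul_le_mul_left _ h2
  · have hE := hL₁.isExp X
    by_cases hX : ∃ b a, Valid acc X b a
    · obtain ⟨b, a, hv⟩ := hX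
      have hF : FF acc X = true := by
        simp only [FF, decide_eq_true_eq]
        exact ⟨b, a, hv⟩
      have h1 := hL₁' X (b, a) (((hv.1 a).2).2 rfl)
        (fun p hp hne => by
          have hpb : p.1 ≠ b := by
            intro h
            apply hne
            have hp' : live X b p.2 = true := h ▸ hp
            exact Prod.ext h (((hv.1 p.2).2).1 hp')
          simp only [Bool.and_eq_true, decide_eq_true_eq, Bool.not_eq_true']
          exact ⟨Ne.symm hpb, hv.2.1 _ hpb, (hv.1 _).1⟩)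
        (by
          have h2 := hsound _ _ _ hv.2.2
          have h3 : (0 : ℝ) < 2 ^ n := by positivity
          simp only [hwt]
          calc (1 : ℝ) = 1 / 2 ^ n * 2 ^ n := by field_simp
            _ ≤ 1 / 2 ^ n * (9 ^ T * w (inst X b) a) := by
                refine mul_le_mul_of_nonneg_left (hT.trans ?_) (by positivity)
                exact mul_le_mul_of_nonneg_left h2 (by positivity)
            _ = _ := by ring)
      have h4 := h1.trans (upper_num T)
      have h5 := hE.sub (fun _ => 1) (fun o => if o = some (b, a) then 0 else 1)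
      rw [hE.const] at h5
      refine le_trans (by linarith) (hE.mono (g := fun o =>
        1 - if o = some (b, a) then 0 else 1) fun o => ?_)
      split_ifs with ho
      · subst ho
        simp [hL₂v (b, a) X hv, hF]
      · cases o with
        | none => simp [hF]
        | some p =>
          simp only [sub_self, Option.elim_some]
          exact ((hL₂ p).isExp X).const_le fun b => by split_ifs <;> norm_num
    · have hF : FF acc X = false := by
        simp only [FF, decide_eq_false_iff_not]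
        exact hX
      refine hE.const_le fun o => ?_
      cases o with
      | none => simp only [Option.elim_none, hF, if_true]; norm_num
      | some p =>
        simp only [Option.elim_some, hF]
        have h1 := hL₂n p X (fun hv => hX ⟨_, _, hv⟩)
        have hE₂ := (hL₂ p).isExp X
        have h2 := hE₂.sub (fun _ => 1) (fun b => if b = true then 1 else 0)
        rw [hE₂.const] at h2
        refine le_trans (by linarith) (hE₂.mono (g := fun b =>
          1 - if b = true then 1 else 0) fun b => ?_)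
        cases b <;> simp

end Crest.Agent.R350
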