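import Crest.Agent.R350.Key
import Crest.Agent.R350.Lower
import Crest.Agent.R350.FFT
import Crest.Agent.R350.Upper
import Crest.Agent.R350.Convert
import Crest.Agent.R350.Sampler

/-! # Row 350: assembly -/

set_option autoImplicit false

namespace Crest.Agent.R350

open Crest.MathPhysics.Query

lemma main_eventually (A ε : ℝ) (hε : 0 < ε) :
    ∃ j₀ : ℕ, ∀ j : ℕ, j₀ ≤ j → A ≤ ε * 2 ^ j := by
  obtain ⟨j₀, hj₀⟩ := pow_unbounded_of_one_lt (A / ε) (by norm_num : (1 : ℝ) < 2)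
  refine ⟨j₀, fun j hj => ?_⟩
  have h1 : (2 : ℝ) ^ j₀ ≤ 2 ^ j := pow_le_pow_right₀ (by norm_num) hj
  have h2 : A / ε ≤ 2 ^ j := by linarith
  rw [div_le_iff₀ hε] at h2
  linarith

lemma main_pow (K M : ℝ) (hM : 0 < M) (i k κ : ℕ)
    (h : κ * (k * κ) = i * κ * κ + κ * κ + κ * κ) :
    3 * (K * (M ^ i) ^ κ) ^ κ * (M ^ κ) ^ κ * (1 / M ^ κ) ^ (k * κ) =
      3 * K ^ κ / M ^ (κ * κ) := by
  rw [one_div_pow, ← pow_mul M κ (k * κ), h, pow_add M, pow_add M, mul_pow, ← pow_mul M i κ,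
    ← pow_mul M (i * κ) κ, ← pow_mul M κ κ]
  field_simp

lemma main_count (k n c₁ : ℕ) (hc : 1 ≤ c₁) :
    (32 * (Nat.clog 9 (c₁ * (n + 1) * 2 ^ n) + 1) ^ 2 * 3 ^ (Nat.clog 9 (c₁ * (n + 1) * 2 ^ n)) *
      (k + 1 + (4 * ((k + 1) * n + 2) + 1) +
        100 * (Nat.clog 9 (c₁ * (n + 1) * 2 ^ n) + 1) ^ 2 * (n + 1))) ^ 2 ≤
      ((32 * (c₁ + 1) ^ 2 * (5 * (k + 1) + 9 + 100 * (c₁ + 1) ^ 2)) ^ 2 * (9 * c₁)) *
        2 ^ n * (n + 1) ^ 12 := by
  set A := c₁ * (n + 1) * 2 ^ n with hA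
  set T := Nat.clog 9 A with hT
  have hApos : 0 < A := by positivity
  have h9 : 9 ^ T ≤ 9 * A := by
    rcases Nat.eq_zero_or_pos T with h0 | h0
    · rw [h0]; omega
    · have h1 : 1 < A := by
        by_contra hh
        have : A ≤ 1 := by omega
        have := Nat.clog_of_right_le_one this 9
        omega
      have h2 := Nat.pow_pred_clog_lt_self (b := 9) (by norm_num) h1
      have h3 : 9 ^ T = 9 * 9 ^ (T - 1) := by
        rw [← pow_succ']; congr 1; omega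
      rw [h3]
      exact Nat.mul_le_mul_left _ h2.le
  have hTle : T ≤ c₁ + n := by
    apply Nat.clog_le_of_le_pow
    have e1 : c₁ ≤ 9 ^ c₁ := (Nat.lt_pow_self (by norm_num)).le
    have e2 : n + 1 ≤ 2 ^ n := Nat.lt_two_pow_self
    have e3 : (n + 1) * 2 ^ n ≤ 9 ^ n := by
      calc (n + 1) * 2 ^ n ≤ 2 ^ n * 2 ^ n := Nat.mul_le_mul_right _ e2
        _ = 4 ^ n := by rw [← mul_pow]; norm_num
        _ ≤ 9 ^ n := Nat.pow_le_pow_left (by norm_num) _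
    calc A = c₁ * ((n + 1) * 2 ^ n) := by rw [hA]; ring
      _ ≤ 9 ^ c₁ * 9 ^ n := Nat.mul_le_mul e1 e3
      _ = 9 ^ (c₁ + n) := by rw [pow_add]
  have hT1 : T + 1 ≤ (c₁ + 1) * (n + 1) := by nlinarith
  have hT2 : (T + 1) ^ 2 ≤ (c₁ + 1) ^ 2 * (n + 1) ^ 2 := by
    rw [← mul_pow]; exact Nat.pow_le_pow_left hT1 2
  have hn1 : n + 1 ≤ (n + 1) ^ 3 := Nat.le_self_pow (by norm_num) _
  have hin : k + 1 + (4 * ((k + 1) * n + 2) + 1) + 100 * (T + 1) ^ 2 * (n + 1) ≤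
      (5 * (k + 1) + 9 + 100 * (c₁ + 1) ^ 2) * (n + 1) ^ 3 := by
    have a1 : k + 1 + (4 * ((k + 1) * n + 2) + 1) ≤ (5 * (k + 1) + 9) * (n + 1) := by nlinarith
    have a2 : (5 * (k + 1) + 9) * (n + 1) ≤ (5 * (k + 1) + 9) * (n + 1) ^ 3 :=
      Nat.mul_le_mul_left _ hn1
    have a3 : 100 * (T + 1) ^ 2 * (n + 1) ≤ 100 * ((c₁ + 1) ^ 2 * (n + 1) ^ 2) * (n + 1) :=
      Nat.mul_le_mul_right _ (Nat.mul_le_mul_left _ hT2)
    calc _ ≤ (5 * (k + 1) + 9) * (n + 1) ^ 3 + 100 * ((c₁ + 1) ^ 2 * (n + 1) ^ 2) * (n + 1) :=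
          add_le_add (a1.trans a2) a3
      _ = _ := by ring
  have hq : 32 * (T + 1) ^ 2 * 3 ^ T *
      (k + 1 + (4 * ((k + 1) * n + 2) + 1) + 100 * (T + 1) ^ 2 * (n + 1)) ≤
      32 * ((c₁ + 1) ^ 2 * (n + 1) ^ 2) * 3 ^ T *
        ((5 * (k + 1) + 9 + 100 * (c₁ + 1) ^ 2) * (n + 1) ^ 3) :=
    Nat.mul_le_mul (Nat.mul_le_mul_right _ (Nat.mul_le_mul_left _ hT2)) hin
  have h39 : (3 ^ T) ^ 2 = 9 ^ T := by rw [← pow_mul, mul_comm, pow_mul]; norm_num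
  have hn2 : (n + 1) ^ 11 ≤ (n + 1) ^ 12 := Nat.pow_le_pow_right (by omega) (by norm_num)
  calc _ ≤ (32 * ((c₁ + 1) ^ 2 * (n + 1) ^ 2) * 3 ^ T *
        ((5 * (k + 1) + 9 + 100 * (c₁ + 1) ^ 2) * (n + 1) ^ 3)) ^ 2 := Nat.pow_le_pow_left hq 2
    _ = (32 * (c₁ + 1) ^ 2 * (5 * (k + 1) + 9 + 100 * (c₁ + 1) ^ 2)) ^ 2 * (n + 1) ^ 10 *
          (3 ^ T) ^ 2 := by ring
    _ ≤ (32 * (c₁ + 1) ^ 2 * (5 * (k + 1) + 9 + 100 * (c₁ + 1) ^ 2)) ^ 2 * (n + 1) ^ 10 *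
          (9 * A) := by rw [h39]; exact Nat.mul_le_mul_left _ h9
    _ = ((32 * (c₁ + 1) ^ 2 * (5 * (k + 1) + 9 + 100 * (c₁ + 1) ^ 2)) ^ 2 * (9 * c₁)) *
        2 ^ n * (n + 1) ^ 11 := by rw [hA]; ring
    _ ≤ _ := Nat.mul_le_mul_left _ hn2

/-- The separation at the sizes `N = (2 ^ j) ^ κ`. -/
theorem main_sep (κ : ℕ) (hκ : 3 ≤ κ) : ∃ C j₀ : ℕ, ∀ j : ℕ, j₀ ≤ j →
    ∃ (N : ℕ) (F : (Fin N → Bool) → Bool),
      (∃ q : ℕ, q ^ 2 ≤ C * 2 ^ (κ * j) * (κ * j + 1) ^ 12 ∧ QuantumComputes F q) ∧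
      ∀ r : ℕ, RandomizedComputes F r → 2 ^ ((2 * κ - 3) * j) ≤ 6 * r := by
  classical
  obtain ⟨i, rfl⟩ : ∃ i, κ = i + 3 := ⟨κ - 3, by omega⟩
  set k := i + 2 with hk
  have hκk : i + 3 = k + 1 := by omega
  set θ : ℝ := 1 / 4 * (1 / 12) ^ k with hθ
  have hθpos : 0 < θ := by positivity
  obtain ⟨K, hK, hkey⟩ := key k (k + 1) (by omega)
  obtain ⟨c₀, hc₀⟩ := exists_nat_ge (1 / θ ^ 2)
  set c₁ := c₀ + k + 2 with hc₁
  obtain ⟨j₁, hj₁⟩ := main_eventually (3 * K ^ (k + 1)) ((θ / 12) ^ (2 * (k + 1))) (by positivity)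
  obtain ⟨j₂, hj₂⟩ := main_eventually 1 (θ / 12) (by positivity)
  refine ⟨(32 * (c₁ + 1) ^ 2 * (5 * (k + 1) + 9 + 100 * (c₁ + 1) ^ 2)) ^ 2 * (9 * c₁),
    max j₁ j₂, fun j hj => ?_⟩
  have hj1 := hj₁ j (le_trans (le_max_left _ _) hj)
  have hj2 := hj₂ j (le_trans (le_max_right _ _) hj)
  rw [hκk]
  set n := (k + 1) * j with hn
  obtain ⟨Pf, instPf, ok, hok, hsound, hcompl⟩ := fft_proof n k (θ ^ 2)
  obtain ⟨P₁, P₀, hP₁, hP₁s, hP₀, hP₀s, hinv, hforr, hadv⟩ :=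
    hkey (Cube n) (had n) (had_sq n)
  choose mm hmm using amp_shift n k
  let acc : (Fin (k + 1) × Cube n → Bool) → Cube n → (Pf → Bool) → Prop :=
    fun x a π => ∀ c, ok c a (Sum.elim x π) = true
  let e := Fintype.equivFin (Idx n (Fin (k + 1) × Cube n) Pf)
  have hcard : (Fintype.card (Cube n) : ℝ) = 2 ^ n := by simp
  refine ⟨_, fun y => FF acc (fun i => y (e i)), ?_, ?_⟩
  · -- the quantum algorithm
    set A := c₁ * (n + 1) * 2 ^ n with hA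
    have hAT : A ≤ 9 ^ Nat.clog 9 A := Nat.le_pow_clog (by norm_num) _
    obtain ⟨L, hL, hL'⟩ := upper (Pf := Pf) ok (fun x a => amp x a ^ 2) (k + 1)
      (4 * ((k + 1) * n + 2) + 1) (Nat.clog 9 A) (θ ^ 2) (sampler n k)
      (fun x a => sq_nonneg _) amp_sq_sum hok hsound (by
        have h1 : (A : ℝ) ≤ 9 ^ Nat.clog 9 A := by exact_mod_cast hAT
        have h2 : (c₀ : ℝ) * 2 ^ n ≤ A := by
          have : c₀ * 2 ^ n ≤ A := by
            rw [hA]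
            exact Nat.mul_le_mul_right _ (by nlinarith)
          exact_mod_cast this
        have h3 : 1 ≤ (c₀ : ℝ) * θ ^ 2 := by
          rw [div_le_iff₀ (by positivity)] at hc₀; exact hc₀
        have h4 : (0 : ℝ) < 2 ^ n := by positivity
        calc (2 : ℝ) ^ n ≤ (c₀ : ℝ) * θ ^ 2 * 2 ^ n := le_mul_of_one_le_left h4.le h3
          _ = (c₀ : ℝ) * 2 ^ n * θ ^ 2 := by ring
          _ ≤ _ := mul_le_mul_of_nonneg_right (h2.trans h1) (by positivity))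
      (by
        refine le_trans ?_ hAT
        simp only [Fintype.card_prod, Fintype.card_fin, Fintype.card_pi, Fintype.card_bool,
          Finset.prod_const, Finset.card_univ]
        rw [hA]
        have : 1 + (k + 1) * (n + 1) ≤ c₁ * (n + 1) := by nlinarith
        calc 2 ^ n + (k + 1) * ((n + 1) * 2 ^ n) = (1 + (k + 1) * (n + 1)) * 2 ^ n := by ring
          _ ≤ _ := Nat.mul_le_mul_right _ this)
    have : Nonempty (Idx n (Fin (k + 1) × Cube n) Pf) :=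
      ⟨(fun _ => false, .inl (0, fun _ => false))⟩
    exact ⟨_, main_count k n c₁ (by omega), hL.toQuantum e (FF acc) hL'⟩
  · -- the randomized lower bound
    intro r hr
    have hM : (0 : ℝ) < 2 ^ j := by positivity
    have hM1 : (1 : ℝ) ≤ 2 ^ j := one_le_pow₀ (by norm_num)
    have hN : (2 : ℝ) ^ n = (2 ^ j) ^ (k + 1) := by rw [hn, ← pow_mul, mul_comm]
    have hforr1 : ∀ x : Fin (k + 1) × Cube n → Bool, forr (had n) (fun v => sgn (x v)) ≤ 1 := by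
      intro x
      rw [← hmm (fun _ => false) x]
      set x' : Fin (k + 1) × Cube n → Bool := fun v =>
        xor (x v) (if v.1 = Fin.last k then mm (fun _ => false) v.2 else false)
      have h1 : amp x' (fun _ => false) ^ 2 ≤ 1 := by
        rw [← amp_sq_sum x']
        exact Finset.single_le_sum (f := fun a => amp x' a ^ 2) (fun a _ => sq_nonneg _)
          (Finset.mem_univ _)
      nlinarith
    have hlow := lower acc P₁ P₀ (fun a v => if v.1 = Fin.last k then mm a v.2 else false)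
      (fun y => θ ≤ forr (had n) (fun v => sgn (y v))) θ (θ / 12) ((2 ^ j) ^ i)
      hP₁ hP₀ hP₀s (fun a x => hinv (mm a) x) hθpos (by
        have h1 : ∑ x, P₁ x * forr (had n) (fun v => sgn (x v)) ≤
            ∑ x, ((if θ ≤ forr (had n) (fun v => sgn (x v)) then P₁ x else 0) + P₁ x * θ) := by
          refine Finset.sum_le_sum (fun x _ => ?_)
          have := hP₁ x
          have := hforr1 x
          split_ifs with h
          · nlinarith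
          · push Not at h; nlinarith
        rw [Finset.sum_add_distrib, ← Finset.sum_mul, hP₁s] at h1
        linarith)
      (fun a y hy => by
        apply hcompl
        rw [hmm a y]
        exact pow_le_pow_left₀ hθpos.le hy 2)
      (fun f hf hf1 => by
        have h1 := hadv ((2 ^ j) ^ i) (Nat.one_le_pow _ _ (by positivity)) f hf hf1
        rw [hcard, hN] at h1
        push_cast at h1
        have h2 : 3 * (K * (((2 : ℝ) ^ j) ^ i) ^ (k + 1)) ^ (k + 1) * ((2 ^ j) ^ (k + 1)) ^ (k + 1) *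
            (1 / (2 ^ j) ^ (k + 1)) ^ (k * (k + 1)) =
            3 * K ^ (k + 1) / (2 ^ j) ^ ((k + 1) * (k + 1)) := by
          exact main_pow K _ hM i k (k + 1) (by rw [hk]; ring)
        rw [h2] at h1
        have h3 : 3 * K ^ (k + 1) / ((2 : ℝ) ^ j) ^ ((k + 1) * (k + 1)) ≤
            (θ / 12) ^ (2 * (k + 1)) := by
          rw [div_le_iff₀ (by positivity)]
          refine hj1.trans (mul_le_mul_of_nonneg_left ?_ (by positivity))
          exact le_self_pow₀ hM1 (by positivity)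
        exact le_of_pow_le_pow_left₀ (by positivity) (by positivity) (h1.trans h3))
      (by
        rw [hN]
        push_cast
        have h1 : ((2 : ℝ) ^ j) ^ i / (2 ^ j) ^ (k + 1) ≤ θ / 12 := by
          rw [div_le_iff₀ (by positivity), hk]
          have h2 : ((2 : ℝ) ^ j) ^ (i + 2 + 1) = (2 ^ j) ^ i * (2 ^ j) ^ 2 * 2 ^ j := by ring
          have h3 : (1 : ℝ) ≤ (2 ^ j) ^ 2 := one_le_pow₀ hM1
          have h4 : (0 : ℝ) < (2 ^ j) ^ i := by positivity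
          rw [h2]
          calc ((2 : ℝ) ^ j) ^ i = (2 ^ j) ^ i * 1 * 1 := by ring
            _ ≤ (2 ^ j) ^ i * (2 ^ j) ^ 2 * (θ / 12 * 2 ^ j) := by gcongr
            _ = _ := by ring
        linarith)
      e r hr
    have h5 : (2 * (k + 1) - 3) * j = n + j * i := by
      rw [hn, hk]
      have : 2 * (i + 2 + 1) - 3 = 2 * i + 3 := by omega
      rw [this]; ring
    rw [h5, pow_add, pow_mul 2 j i]
    exact_mod_cast hlow

/-- The statement from `main_sep`: pure asymptotics. -/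
theorem final_of_main_sep
    (h : ∀ κ : ℕ, 3 ≤ κ → ∃ C j₀ : ℕ, ∀ j : ℕ, j₀ ≤ j →
      ∃ (N : ℕ) (F : (Fin N → Bool) → Bool),
        (∃ q : ℕ, q ^ 2 ≤ C * 2 ^ (κ * j) * (κ * j + 1) ^ 12 ∧ QuantumComputes F q) ∧
        ∀ r : ℕ, RandomizedComputes F r → 2 ^ ((2 * κ - 3) * j) ≤ 6 * r)
    (k : ℕ) (hk : 2 ≤ k) :
    ∃ (c C b : ℝ), 0 < c ∧ 0 < C ∧ 0 < b ∧ ∃ m₀ : ℕ, ∀ m : ℕ, m₀ ≤ m → (∃ j : ℕ, m = 4 ^ j) →
      ∃ (n : ℕ) (F : (Fin n → Bool) → Bool),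
        (∃ q : ℕ, (q : ℝ) ≤ C * Real.sqrt m * Real.log m ^ b ∧ QuantumComputes F q) ∧
        (∀ r : ℕ, RandomizedComputes F r →
          c * (m : ℝ) ^ (2 - 1 / (k : ℝ)) / Real.log m ^ 2 ≤ r) := by
  obtain ⟨C, j₀, hC⟩ := h (3 * k) (by omega)
  refine ⟨1 / (6 * 2 ^ (2 * (3 * k) - 3)), (C + 1) * 3 ^ 6, 6, by positivity, by positivity,
    by norm_num, 4 ^ (3 * k * (j₀ + 1)), ?_⟩
  rintro m hm ⟨J, rfl⟩
  have hJ : 3 * k * (j₀ + 1) ≤ J := (Nat.pow_le_pow_iff_right (by norm_num)).1 hm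
  have hkpos : 0 < 3 * k := by omega
  set j := 2 * J / (3 * k) with hj
  have hj0 : j₀ ≤ j := by
    rw [hj, Nat.le_div_iff_mul_le hkpos]
    nlinarith
  have hj1 : 3 * k * j ≤ 2 * J := Nat.mul_div_le _ _
  have hj2 : 2 * J < 3 * k * (j + 1) := Nat.lt_mul_div_succ _ hkpos
  have hJ1 : 1 ≤ J := by nlinarith
  obtain ⟨N, F, ⟨q, hq, hqc⟩, hr⟩ := hC j hj0
  have hlog : Real.log ((4 ^ J : ℕ) : ℝ) = J * Real.log 4 := by
    push_cast; rw [Real.log_pow]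
  have hlog4 : 1 ≤ Real.log 4 := by
    have : Real.log 4 = 2 * Real.log 2 := by
      rw [show (4 : ℝ) = 2 ^ 2 by norm_num, Real.log_pow]; norm_num
    rw [this]; linarith [Real.log_two_gt_d9]
  have hJR : (1 : ℝ) ≤ J := by exact_mod_cast hJ1
  have hL1 : (J : ℝ) ≤ Real.log ((4 ^ J : ℕ) : ℝ) := by rw [hlog]; nlinarith
  set L := Real.log ((4 ^ J : ℕ) : ℝ) with hL
  have hmpos : (0 : ℝ) < ((4 ^ J : ℕ) : ℝ) := by positivity
  refine ⟨N, F, ⟨q, ?_, hqc⟩, fun r hrr => ?_⟩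
  · have e6 : L ^ (6 : ℝ) = L ^ (6 : ℕ) := by
      rw [← Real.rpow_natCast]; norm_num
    rw [e6]
    have h1 : 2 ^ (3 * k * j) ≤ 4 ^ J := by
      calc 2 ^ (3 * k * j) ≤ 2 ^ (2 * J) := Nat.pow_le_pow_right (by norm_num) hj1
        _ = 4 ^ J := by rw [pow_mul]; norm_num
    have h2 : ((3 * k * j + 1 : ℕ) : ℝ) ≤ 3 * L := by
      have : ((3 * k * j + 1 : ℕ) : ℝ) ≤ ((2 * J + 1 : ℕ) : ℝ) := by exact_mod_cast (by omega)
      push_cast at this ⊢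
      linarith
    have h3 : (q : ℝ) ^ 2 ≤ C * ((4 ^ J : ℕ) : ℝ) * (3 * L) ^ 12 := by
      have a1 : ((q ^ 2 : ℕ) : ℝ) ≤ ((C * 2 ^ (3 * k * j) * (3 * k * j + 1) ^ 12 : ℕ) : ℝ) := by
        exact_mod_cast hq
      have a2 : ((2 ^ (3 * k * j) : ℕ) : ℝ) ≤ ((4 ^ J : ℕ) : ℝ) := by exact_mod_cast h1
      rw [Nat.cast_mul, Nat.cast_mul, Nat.cast_pow, Nat.cast_pow (3 * k * j + 1)] at a1
      refine a1.trans ?_
      gcongr
    have hs : Real.sqrt ((4 ^ J : ℕ) : ℝ) ^ 2 = ((4 ^ J : ℕ) : ℝ) := Real.sq_sqrt hmpos.le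
    have hL0 : 0 ≤ L := by linarith
    refine le_of_pow_le_pow_left₀ (two_ne_zero) (by positivity) (h3.trans ?_)
    have h4 : (C : ℝ) ≤ (C + 1) ^ 2 := by
      have hC0 : (0 : ℝ) ≤ C := Nat.cast_nonneg C
      have : ((C : ℝ) + 1) ^ 2 = C + (C * C + C + 1) := by ring
      rw [this]
      exact le_add_of_nonneg_right (by positivity)
    calc (C : ℝ) * ((4 ^ J : ℕ) : ℝ) * (3 * L) ^ 12
        ≤ (C + 1) ^ 2 * ((4 ^ J : ℕ) : ℝ) * (3 * L) ^ 12 := by gcongr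
      _ = ((C + 1) * 3 ^ 6) ^ 2 * Real.sqrt ((4 ^ J : ℕ) : ℝ) ^ 2 * (L ^ 6) ^ 2 := by
          rw [hs]; ring
      _ = _ := by ring
  · have h1 := hr r hrr
    have h1' : (2 : ℝ) ^ ((2 * (3 * k) - 3) * j) ≤ 6 * r := by exact_mod_cast h1
    have hkR : (2 : ℝ) ≤ k := by exact_mod_cast hk
    have h2 : (((4 ^ J : ℕ) : ℝ)) ^ (2 - 1 / (k : ℝ)) ≤ 2 ^ ((2 * (3 * k) - 3) * (j + 1)) := by
      have a1 : ((4 ^ J : ℕ) : ℝ) = (2 : ℝ) ^ ((2 * J : ℕ) : ℝ) := by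
        rw [Real.rpow_natCast, pow_mul]; push_cast; norm_num
      rw [a1, ← Real.rpow_mul (by norm_num), ← Real.rpow_natCast]
      refine Real.rpow_le_rpow_of_exponent_le (by norm_num) ?_
      have a2 : ((2 * J : ℕ) : ℝ) ≤ 3 * k * (j + 1) := by exact_mod_cast hj2.le
      have a3 : (((2 * (3 * k) - 3) * (j + 1) : ℕ) : ℝ) = (6 * k - 3) * (j + 1) := by
        rw [Nat.cast_mul, Nat.cast_sub (by omega)]; push_cast; ring
      have a4 : 0 ≤ 2 - 1 / (k : ℝ) := by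
        have : 1 / (k : ℝ) ≤ 1 := by rw [div_le_one (by linarith)]; linarith
        linarith
      rw [a3]
      calc ((2 * J : ℕ) : ℝ) * (2 - 1 / (k : ℝ)) ≤ 3 * k * (j + 1) * (2 - 1 / (k : ℝ)) :=
            mul_le_mul_of_nonneg_right a2 a4
        _ = (6 * k - 3) * (j + 1) := by field_simp; ring
    have h3 : (1 : ℝ) ≤ L ^ 2 := one_le_pow₀ (by linarith)
    have h4 : 1 / (6 * 2 ^ (2 * (3 * k) - 3)) * (((4 ^ J : ℕ) : ℝ)) ^ (2 - 1 / (k : ℝ)) ≤ r := by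
      rw [mul_add, mul_one, pow_add] at h2
      rw [one_div, inv_mul_le_iff₀ (by positivity)]
      refine h2.trans ?_
      calc (2 : ℝ) ^ ((2 * (3 * k) - 3) * j) * 2 ^ (2 * (3 * k) - 3)
          ≤ 6 * r * 2 ^ (2 * (3 * k) - 3) := by gcongr
        _ = _ := by ring
    exact (div_le_self (by positivity) h3).trans h4

end Crest.Agent.R350
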