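import Crest.Agent.R350.Impl

/-! # Row 350: closure properties of `QS` -/

set_option autoImplicit false

namespace Crest.Agent.R350

open Matrix

/-- A finitely supported expectation functional. -/
def IsExp {A : Type} (ℓ : (A → ℝ) → ℝ) : Prop :=
  ∃ (E : Type) (_ : Fintype E) (wt : E → ℝ) (out : E → A),
    (∀ e, 0 ≤ wt e) ∧ ∑ e, wt e = 1 ∧ ∀ g, ℓ g = ∑ e, wt e * g (out e)

namespace IsExp

variable {A : Type} {ℓ : (A → ℝ) → ℝ}

lemma mono (h : IsExp ℓ) {g g' : A → ℝ} (hg : ∀ a, g a ≤ g' a) : ℓ g ≤ ℓ g' := by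
  obtain ⟨E, _, wt, out, h0, -, h⟩ := h
  rw [h, h]
  exact Finset.sum_le_sum fun e _ => mul_le_mul_of_nonneg_left (hg _) (h0 e)

lemma const (h : IsExp ℓ) (c : ℝ) : ℓ (fun _ => c) = c := by
  obtain ⟨E, _, wt, out, -, h1, h⟩ := h
  rw [h, ← Finset.sum_mul, h1, one_mul]

lemma add (h : IsExp ℓ) (g g' : A → ℝ) : ℓ (fun a => g a + g' a) = ℓ g + ℓ g' := by
  obtain ⟨E, _, wt, out, -, -, h⟩ := h
  simp only [h, mul_add, Finset.sum_add_distrib]

lemma sub (h : IsExp ℓ) (g g' : A → ℝ) : ℓ (fun a => g a - g' a) = ℓ g - ℓ g' := by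
  obtain ⟨E, _, wt, out, -, -, h⟩ := h
  simp only [h, mul_sub, Finset.sum_sub_distrib]

lemma smul (h : IsExp ℓ) (c : ℝ) (g : A → ℝ) : ℓ (fun a => c * g a) = c * ℓ g := by
  obtain ⟨E, _, wt, out, -, -, h⟩ := h
  simp only [h, Finset.mul_sum]
  exact Finset.sum_congr rfl fun e _ => by ring

lemma le_const (h : IsExp ℓ) {g : A → ℝ} {c : ℝ} (hg : ∀ a, g a ≤ c) : ℓ g ≤ c :=
  (h.mono hg).trans (h.const c).le

lemma const_le (h : IsExp ℓ) {g : A → ℝ} {c : ℝ} (hg : ∀ a, c ≤ g a) : c ≤ ℓ g :=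
  (h.const c).ge.trans (h.mono hg)

end IsExp

lemma sum_col_sq {E : Type} [Fintype E] [DecidableEq E] {U : Matrix E E ℝ} (hU : Uᵀ * U = 1)
    (e₀ : E) : ∑ e, U e e₀ ^ 2 = 1 := by
  have := congrFun (congrFun hU e₀) e₀
  simp only [Matrix.mul_apply, transpose_apply, Matrix.one_apply_eq] at this
  rw [← this]
  exact Finset.sum_congr rfl fun e _ => by ring

namespace QS

variable {ι ι' A B : Type}

theorem of_impl {E : Type} [Fintype E] [DecidableEq E] {q : ℕ}
    {U : (ι → Bool) → Matrix E E ℝ} (hU : Impl q U) (e₀ : E) :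
    QS q (fun x (g : E → ℝ) => ∑ e, (U x e e₀) ^ 2 * g e) :=
  ⟨E, inferInstance, inferInstance, e₀, U, id, hU, fun _ _ => rfl⟩

theorem congr {q : ℕ} {L L' : (ι → Bool) → (A → ℝ) → ℝ} (h : QS q L)
    (hL : ∀ x g, L x g = L' x g) : QS q L' := by
  have : L = L' := funext fun x => funext fun g => hL x g
  exact this ▸ h

theorem isExp {q : ℕ} {L : (ι → Bool) → (A → ℝ) → ℝ} (h : QS q L) (x : ι → Bool) :
    IsExp (L x) := by
  obtain ⟨E, _, _, e₀, U, out, hU, h⟩ := h
  exact ⟨E, inferInstance, fun e => U x e e₀ ^ 2, out, fun e => sq_nonneg _,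
    sum_col_sq (hU.orth x) e₀, h x⟩

theorem mono {p q : ℕ} {L : (ι → Bool) → (A → ℝ) → ℝ} (h : QS p L) (hpq : p ≤ q) : QS q L := by
  obtain ⟨E, _, _, e₀, U, out, hU, h⟩ := h
  exact ⟨E, _, _, e₀, U, out, hU.mono hpq, h⟩

theorem map {q : ℕ} {L : (ι → Bool) → (A → ℝ) → ℝ} (h : QS q L) (φ : A → B) :
    QS q (fun x (g : B → ℝ) => L x (fun a => g (φ a))) := by
  obtain ⟨E, _, _, e₀, U, out, hU, h⟩ := h
  exact ⟨E, _, _, e₀, U, fun e => φ (out e), hU, fun x g => h x _⟩

theorem comap {q : ℕ} {L : (ι → Bool) → (A → ℝ) → ℝ} (h : QS q L) (j : ι → ι') :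
    QS q (fun (y : ι' → Bool) (g : A → ℝ) => L (fun i => y (j i)) g) := by
  obtain ⟨E, _, _, e₀, U, out, hU, h⟩ := h
  exact ⟨E, _, _, e₀, _, out, hU.comap j, fun x g => h _ _⟩

theorem pure (a : A) : QS 0 (fun (_ : ι → Bool) (g : A → ℝ) => g a) :=
  ⟨Unit, inferInstance, inferInstance, (), fun _ => 1, fun _ => a, Impl.const 1 (by simp),
    fun x g => by simp⟩

/-- A fixed distribution costs no query. -/
theorem dist [Fintype A] (p : A → ℝ) (h0 : ∀ a, 0 ≤ p a) (h1 : ∑ a, p a = 1) :
    QS 0 (fun (_ : ι → Bool) (g : A → ℝ) => ∑ a, p a * g a) := by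
  classical
  have : Nonempty A := by
    by_contra hA
    rw [not_nonempty_iff] at hA
    simp at h1
  obtain ⟨a₀⟩ := this
  obtain ⟨M, hM, hcol⟩ := exists_orth_col (fun a => Real.sqrt (p a)) a₀
    (by simp only [Real.sq_sqrt (h0 _)]; exact h1) (Real.sqrt_nonneg _)
  refine (of_impl (Impl.const M hM) a₀).congr fun x g => ?_
  simp only [hcol, Real.sq_sqrt (h0 _)]

theorem uniform (A : Type) [Fintype A] [Nonempty A] :
    QS 0 (fun (_ : ι → Bool) (g : A → ℝ) => ∑ a, (1 / (Fintype.card A : ℝ)) * g a) := by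
  have : (0 : ℝ) < Fintype.card A := by exact_mod_cast Fintype.card_pos
  refine dist _ (fun _ => by positivity) ?_
  simp only [Finset.sum_const, Finset.card_univ, nsmul_eq_mul]
  field_simp

/-- Reading one bit costs one query. -/
theorem read (i : ι) : QS 1 (fun (x : ι → Bool) (g : Bool → ℝ) => g (x i)) := by
  set s : ℝ := Real.sqrt 2 with hs
  have hs2 : s * s = 2 := Real.mul_self_sqrt (by norm_num)
  have hs0 : s ≠ 0 := by
    intro h; rw [h] at hs2; norm_num at hs2
  set H : Matrix Bool Bool ℝ := fun a b => sgn (a && b) / s with hH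
  have hHo : Hᵀ * H = 1 := by
    ext a b
    cases a <;> cases b <;> simp [Matrix.mul_apply, hH] <;> field_simp <;> nlinarith
  have h1 := (Impl.const_mul H hHo ((Impl.const (ι := ι) H hHo).mul
    (Impl.query (fun b : Bool => if b then some i else none))))
  refine (of_impl h1 false).congr fun x g => ?_
  have hh : s⁻¹ * s⁻¹ = 1 / 2 := by
    field_simp; nlinarith
  cases hx : x i <;>
    simp [Matrix.mul_apply, phase, hH, hx, Matrix.diagonal_apply, div_eq_mul_inv, hh] <;> norm_num

/-- Finitely many algorithms can be run on one common space from one common start state. -/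
theorem common {C : Type} [Fintype C] [DecidableEq C] {r : ℕ}
    {K : C → (ι → Bool) → (B → ℝ) → ℝ} (h : ∀ c, QS r (K c)) :
    ∃ (E : Type) (_ : Fintype E) (_ : DecidableEq E) (e₀ : E)
      (U : C → (ι → Bool) → Matrix E E ℝ) (out : C → E → B),
      (∀ c, Impl r (U c)) ∧ ∀ c x g, K c x g = ∑ e, (U c x e e₀) ^ 2 * g (out c e) := by
  classical
  choose E instF instD e₀ U out hU hK using h
  refine ⟨(c : C) → E c, inferInstance, inferInstance, e₀,
    fun c x => (blockDiagonal fun _ : ((j : {j // j ≠ c}) → E j) => U c x).submatrix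
      (Equiv.piSplitAt c E) (Equiv.piSplitAt c E),
    fun c e => out c (e c), fun c => ?_, fun c x g => ?_⟩
  · exact (Impl.block fun _ => hU c).submatrix _
  · rw [hK, ← (Equiv.piSplitAt c E).symm.sum_comp, Fintype.sum_prod_type]
    refine Finset.sum_congr rfl fun e _ => ?_
    have h1 : ∀ y, (Equiv.piSplitAt c E).symm (e, y) c = e := fun y =>
      congrArg Prod.fst ((Equiv.piSplitAt c E).apply_symm_apply (e, y))
    simp only [submatrix_apply, Equiv.apply_symm_apply, h1, blockDiagonal_apply]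
    rw [Finset.sum_eq_single ((Equiv.piSplitAt c E) e₀).2]
    · simp [Equiv.piSplitAt]
    · intro b _ hb
      rw [if_neg hb]; simp
    · simp

/-- Sequential composition with classical control. -/
theorem bind {q r : ℕ} {L : (ι → Bool) → (A → ℝ) → ℝ} {K : A → (ι → Bool) → (B → ℝ) → ℝ}
    (hL : QS q L) (hK : ∀ a, QS r (K a)) :
    QS (q + r) (fun x (g : B → ℝ) => L x (fun a => K a x g)) := by
  obtain ⟨E, _, _, e₀, U, out, hU, hL⟩ := hL
  obtain ⟨E', _, _, e₀', U', out', hU', hK'⟩ := common (C := E) (fun e => hK (out e))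
  have h1 : Impl q (fun x => (blockDiagonal fun _ : E' => U x).submatrix
      (Equiv.prodComm E' E) (Equiv.prodComm E' E)) := (Impl.block fun _ => hU).submatrix _
  have h2 : Impl r (fun x => blockDiagonal fun e : E => U' e x) := Impl.block hU'
  refine ⟨E' × E, inferInstance, inferInstance, (e₀', e₀), _, fun p => out' p.2 p.1,
    h1.mul h2, fun x g => ?_⟩
  beta_reduce
  rw [hL, Fintype.sum_prod_type_right]
  refine Finset.sum_congr rfl fun e _ => ?_
  rw [hK' e, Finset.mul_sum]
  refine Finset.sum_congr rfl fun e' _ => ?_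
  have : ((blockDiagonal fun e : E => U' e x) * (blockDiagonal fun _ : E' => U x).submatrix
      (Equiv.prodComm E' E) (Equiv.prodComm E' E)) (e', e) (e₀', e₀) =
      U' e x e' e₀' * U x e e₀ := by
    rw [Matrix.mul_apply, Finset.sum_eq_single (e₀', e)]
    · simp [blockDiagonal_apply]
    · rintro ⟨a, b⟩ _ hab
      by_cases hb : b = e
      · have ha : a ≠ e₀' := fun ha => hab (by rw [ha, hb])
        simp [blockDiagonal_apply, ha]
      · simp [blockDiagonal_apply, Ne.symm hb]
    · simp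
  rw [this]
  ring

/-- A decision tree is a quantum algorithm. -/
theorem of_DT {r : ℕ} {f : (ι → Bool) → A} (h : DT r f) :
    QS r (fun x (g : A → ℝ) => g (f x)) := by
  induction h with
  | const r a => exact (pure a).mono (Nat.zero_le _)
  | read r v f₀ f₁ _ _ ih₀ ih₁ =>
    have := (read v).bind (r := r)
      (K := fun b x (g : A → ℝ) => g (if b = true then f₁ x else f₀ x)) (fun b => by
        cases b
        · simpa using ih₀
        · simpa using ih₁)
    exact this.mono (by omega)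

/-- One exact step of amplitude amplification. -/
theorem amp3 {q : ℕ} {Ls : (ι → Bool) → (A → ℝ) → ℝ} {p : (ι → Bool) → ℝ}
    (h : QS q (fun x (G : Option A → ℝ) => Ls x (fun a => G (some a)) + (1 - p x) * G none)) :
    QS (3 * q) (fun x (G : Option A → ℝ) => (3 - 4 * p x) ^ 2 * Ls x (fun a => G (some a)) +
      (1 - (3 - 4 * p x) ^ 2 * p x) * G none) := by
  obtain ⟨E, _, _, e₀, U, out, hU, h⟩ := h
  have hLs : ∀ x (g : A → ℝ), Ls x g = ∑ e, U x e e₀ ^ 2 * (out e).elim 0 g := by
    intro x g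
    have := h x (fun o => o.elim 0 g)
    simpa using this
  have hp : ∀ x, 1 - p x = ∑ e, U x e e₀ ^ 2 * (out e).elim 1 (fun _ => 0) := by
    intro x
    have := h x (fun o => o.elim 1 (fun _ => 0))
    simp only [Option.elim_some, Option.elim_none, mul_one] at this
    rw [hLs] at this
    rw [← this]
    have : ∀ e, (out e).elim (0 : ℝ) (fun _ => 0) = 0 := fun e => by cases out e <;> rfl
    simp [this]
  set S₀ : Matrix E E ℝ := diagonal fun e => if e = e₀ then 1 else -1 with hS₀
  set sg : E → ℝ := fun e => (out e).elim 1 (fun _ => -1) with hsg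
  have hS₀o : S₀ᵀ * S₀ = 1 := by
    rw [hS₀, diagonal_transpose, diagonal_mul_diagonal, ← diagonal_one]
    congr 1; funext e; split_ifs <;> norm_num
  have hSgo : (diagonal sg)ᵀ * diagonal sg = 1 := by
    rw [diagonal_transpose, diagonal_mul_diagonal, ← diagonal_one]
    congr 1; funext e; simp only [hsg]; cases out e <;> norm_num
  have h3 := (Impl.const_mul S₀ hS₀o ((Impl.const_mul _ hSgo hU).mul hU.transpose)).mul hU
  refine ⟨E, _, _, e₀, _, out, h3.mono (by omega), fun x G => ?_⟩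
  have hUU : U x * (U x)ᵀ = 1 := mul_eq_one_comm.mp (hU.orth x)
  have hR : ∀ i j, (U x * S₀ * (U x)ᵀ) i j =
      2 * U x i e₀ * U x j e₀ - if i = j then 1 else 0 := by
    intro i j
    have h1 := congrFun (congrFun hUU i) j
    rw [Matrix.mul_apply, Matrix.one_apply] at h1
    rw [Matrix.mul_apply, ← h1]
    have : ∀ e, (U x * S₀) i e * (U x)ᵀ e j =
        (if e = e₀ then 2 * U x i e * U x j e else 0) - U x i e * (U x)ᵀ e j := by
      intro e
      rw [hS₀, mul_diagonal, transpose_apply]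
      split_ifs <;> ring
    simp only [this, Finset.sum_sub_distrib, Finset.sum_ite_eq', Finset.mem_univ, if_true]
  have hsum : ∑ e, U x e e₀ ^ 2 * sg e = 1 - 2 * p x := by
    have h1 := sum_col_sq (hU.orth x) e₀
    have : ∀ e, U x e e₀ ^ 2 * sg e =
        2 * (U x e e₀ ^ 2 * (out e).elim 1 (fun _ => 0)) - U x e e₀ ^ 2 := by
      intro e
      simp only [hsg]
      cases out e
      · simp only [Option.elim_none]; ring
      · simp only [Option.elim_some]; ring
    simp only [this, Finset.sum_sub_distrib, ← Finset.mul_sum, ← hp, h1]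
    ring
  have hcol : ∀ e, (U x * (S₀ * ((U x)ᵀ * (diagonal sg * U x)))) e e₀ =
      (2 * (1 - 2 * p x) - sg e) * U x e e₀ := by
    intro e
    rw [← Matrix.mul_assoc, ← Matrix.mul_assoc, Matrix.mul_apply]
    have : ∀ j, (U x * S₀ * (U x)ᵀ) e j * (diagonal sg * U x) j e₀ =
        2 * U x e e₀ * (U x j e₀ ^ 2 * sg j) - if e = j then sg j * U x j e₀ else 0 := by
      intro j
      rw [hR, diagonal_mul]
      split_ifs <;> ring
    simp only [this, Finset.sum_sub_distrib, ← Finset.mul_sum, hsum, Finset.sum_ite_eq,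
      Finset.mem_univ, if_true]
    ring
  have hid : 1 - (3 - 4 * p x) ^ 2 * p x = (1 - 4 * p x) ^ 2 * (1 - p x) := by ring
  simp only [hcol]
  have h4 : (1 - 4 * p x) ^ 2 * (1 - p x) * G none =
      ∑ e, (1 - 4 * p x) ^ 2 * (U x e e₀ ^ 2 * (out e).elim 1 (fun _ => 0)) * G none := by
    rw [← Finset.sum_mul, ← Finset.mul_sum, ← hp]
  rw [hid, hLs, h4, Finset.mul_sum, ← Finset.sum_add_distrib]
  refine Finset.sum_congr rfl fun e _ => ?_
  simp only [hsg]
  cases out e
  · simp only [Option.elim_none]; ring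
  · simp only [Option.elim_some]; ring

end QS

end Crest.Agent.R350
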