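import Crest.Agent.R350.QS

/-! # Row 350: search by iterated amplitude amplification -/

set_option autoImplicit false

namespace Crest.Agent.R350

/-- The factor by which `t` amplification steps multiply a success probability `p`. -/
def ampFactor (p : ℝ) : ℕ → ℝ
  | 0 => 1
  | t + 1 => (3 - 4 * (ampFactor p t * p)) ^ 2 * ampFactor p t

lemma ampFactor_nonneg (p : ℝ) : ∀ t, 0 ≤ ampFactor p t
  | 0 => zero_le_one
  | t + 1 => mul_nonneg (sq_nonneg _) (ampFactor_nonneg p t)

lemma ampFactor_mul_le_one {p : ℝ} (h1 : p ≤ 1) : ∀ t, ampFactor p t * p ≤ 1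
  | 0 => by simpa [ampFactor] using h1
  | t + 1 => by
    have ih := ampFactor_mul_le_one h1 t
    simp only [ampFactor]
    set P := ampFactor p t * p with hP
    have : (3 - 4 * P) ^ 2 * ampFactor p t * p = 1 - (1 - P) * (1 - 4 * P) ^ 2 := by
      rw [mul_assoc, ← hP]; ring
    rw [this]
    have : 0 ≤ (1 - P) * (1 - 4 * P) ^ 2 := mul_nonneg (by linarith) (sq_nonneg _)
    linarith

lemma ampFactor_growth {p : ℝ} (h0 : 0 ≤ p) :
    ∀ t, (∀ s, s < t → ampFactor p s * p ≤ 1 / 4) →
      9 ^ t * p * (1 - ampFactor p t * p) ≤ ampFactor p t * p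
  | 0, _ => by simp only [ampFactor]; nlinarith
  | t + 1, h => by
    have ih := ampFactor_growth h0 t (fun s hs => h s (by omega))
    have ht := h t (by omega)
    have hP0 : 0 ≤ ampFactor p t * p := mul_nonneg (ampFactor_nonneg p t) h0
    simp only [ampFactor]
    set P := ampFactor p t * p with hP
    have e1 : (3 - 4 * P) ^ 2 * ampFactor p t * p = (3 - 4 * P) ^ 2 * P := by
      rw [mul_assoc, ← hP]
    rw [e1]
    have e2 : 9 ^ (t + 1) * p * (1 - (3 - 4 * P) ^ 2 * P) =
        9 * (1 - 4 * P) ^ 2 * (9 ^ t * p * (1 - P)) := by ring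
    rw [e2]
    have h3 : 9 * (1 - 4 * P) ^ 2 ≤ (3 - 4 * P) ^ 2 := by nlinarith
    calc 9 * (1 - 4 * P) ^ 2 * (9 ^ t * p * (1 - P)) ≤ 9 * (1 - 4 * P) ^ 2 * P :=
          mul_le_mul_of_nonneg_left ih (by positivity)
      _ ≤ (3 - 4 * P) ^ 2 * P := mul_le_mul_of_nonneg_right h3 hP0

lemma exists_ampFactor_large {p : ℝ} (h0 : 0 ≤ p) (T : ℕ) (hT : 1 ≤ 9 ^ T * p) :
    ∃ t, t ≤ T ∧ 1 / 4 ≤ ampFactor p t * p := by
  by_contra hcon
  push Not at hcon
  have h1 := ampFactor_growth h0 T (fun s hs => (hcon s hs.le).le)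
  have h2 := hcon T le_rfl
  nlinarith

namespace QS

variable {ι A : Type}

theorem ampIter {q : ℕ} {Ls : (ι → Bool) → (A → ℝ) → ℝ} {p : (ι → Bool) → ℝ}
    (h : QS q (fun x (G : Option A → ℝ) => Ls x (fun a => G (some a)) + (1 - p x) * G none)) :
    ∀ t : ℕ, QS (3 ^ t * q) (fun x (G : Option A → ℝ) =>
      ampFactor (p x) t * Ls x (fun a => G (some a)) + (1 - ampFactor (p x) t * p x) * G none)
  | 0 => by simpa [ampFactor] using h
  | t + 1 => by
    have := amp3 (Ls := fun x g => ampFactor (p x) t * Ls x g)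
      (p := fun x => ampFactor (p x) t * p x) (ampIter h t)
    refine (this.mono (le_of_eq (by ring))).congr fun x G => ?_
    simp only [ampFactor]
    ring

/-- Search: the successful part of the output is scaled up to probability at least
`1 / (4 (T + 1))` once it has probability at least `9 ^ (-T)`. -/
theorem search {q : ℕ} {Ls : (ι → Bool) → (A → ℝ) → ℝ} {p : (ι → Bool) → ℝ}
    (h : QS q (fun x (G : Option A → ℝ) => Ls x (fun a => G (some a)) + (1 - p x) * G none))
    (h0 : ∀ x, 0 ≤ p x) (h1 : ∀ x, p x ≤ 1) (T : ℕ) :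
    ∃ c : (ι → Bool) → ℝ, (∀ x, 0 ≤ c x) ∧ (∀ x, c x * p x ≤ 1) ∧
      (∀ x, 1 ≤ 9 ^ T * p x → 1 / (4 * ((T : ℝ) + 1)) ≤ c x * p x) ∧
      QS (3 ^ T * q) (fun x (G : Option A → ℝ) =>
        c x * Ls x (fun a => G (some a)) + (1 - c x * p x) * G none) := by
  have hT : (0 : ℝ) < (T : ℝ) + 1 := by positivity
  refine ⟨fun x => ∑ t : Fin (T + 1), 1 / ((T : ℝ) + 1) * ampFactor (p x) t, fun x => ?_,
    fun x => ?_, fun x hx => ?_, ?_⟩
  · exact Finset.sum_nonneg fun t _ => mul_nonneg (by positivity) (ampFactor_nonneg _ _)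
  · rw [Finset.sum_mul]
    calc ∑ t : Fin (T + 1), 1 / ((T : ℝ) + 1) * ampFactor (p x) t * p x
        ≤ ∑ _t : Fin (T + 1), 1 / ((T : ℝ) + 1) := by
          refine Finset.sum_le_sum fun t _ => ?_
          rw [mul_assoc]
          exact mul_le_of_le_one_right (by positivity) (ampFactor_mul_le_one (h1 x) _)
      _ = 1 := by
          simp only [Finset.sum_const, Finset.card_univ, Fintype.card_fin, nsmul_eq_mul]
          push_cast
          field_simp
  · obtain ⟨t, ht, ht'⟩ := exists_ampFactor_large (h0 x) T hx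
    rw [Finset.sum_mul]
    calc 1 / (4 * ((T : ℝ) + 1)) = 1 / ((T : ℝ) + 1) * (1 / 4) := by field_simp
      _ ≤ 1 / ((T : ℝ) + 1) * ampFactor (p x) (⟨t, by omega⟩ : Fin (T + 1)) * p x := by
          rw [mul_assoc]
          exact mul_le_mul_of_nonneg_left ht' (by positivity)
      _ ≤ ∑ t : Fin (T + 1), 1 / ((T : ℝ) + 1) * ampFactor (p x) t * p x :=
          Finset.single_le_sum (f := fun t : Fin (T + 1) =>
            1 / ((T : ℝ) + 1) * ampFactor (p x) t * p x)
            (fun t _ => mul_nonneg (mul_nonneg (by positivity) (ampFactor_nonneg _ _)) (h0 x))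
            (Finset.mem_univ _)
  · have := (uniform (ι := ι) (Fin (T + 1))).bind (r := 3 ^ T * q)
      (K := fun (t : Fin (T + 1)) x (G : Option A → ℝ) =>
        ampFactor (p x) t * Ls x (fun a => G (some a)) + (1 - ampFactor (p x) t * p x) * G none)
      (fun t => (ampIter h t).mono
        (Nat.mul_le_mul_right _ (Nat.pow_le_pow_right (by norm_num) (by omega))))
    refine (this.mono (by omega)).congr fun x G => ?_
    simp only [Fintype.card_fin]
    push_cast
    have e : ∀ t : Fin (T + 1), 1 / ((T : ℝ) + 1) * (ampFactor (p x) t * Ls x (fun a => G (some a)) +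
        (1 - ampFactor (p x) t * p x) * G none) =
        1 / ((T : ℝ) + 1) * ampFactor (p x) t * Ls x (fun a => G (some a)) +
          (1 / ((T : ℝ) + 1) * G none - 1 / ((T : ℝ) + 1) * ampFactor (p x) t * p x * G none) := by
      intro t; ring
    simp only [e, Finset.sum_add_distrib, Finset.sum_sub_distrib, ← Finset.sum_mul,
      Finset.sum_const, Finset.card_univ, Fintype.card_fin, nsmul_eq_mul]
    push_cast
    field_simp

/-- Weighted search over a finite set of items with an input-dependent test. -/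
theorem search_test [Fintype A] {q r : ℕ} (wt : (ι → Bool) → A → ℝ)
    (hw : QS q (fun x (g : A → ℝ) => ∑ a, wt x a * g a))
    (hw0 : ∀ x a, 0 ≤ wt x a) (hw1 : ∀ x, ∑ a, wt x a = 1)
    (test : A → (ι → Bool) → Bool) (htest : ∀ a, DT r (test a)) (T : ℕ) :
    ∃ c : (ι → Bool) → ℝ, (∀ x, 0 ≤ c x) ∧
      (∀ x, c x * (∑ a, if test a x = true then wt x a else 0) ≤ 1) ∧
      (∀ x, 1 ≤ 9 ^ T * (∑ a, if test a x = true then wt x a else 0) →
        1 / (4 * ((T : ℝ) + 1)) ≤ c x * ∑ a, if test a x = true then wt x a else 0) ∧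
      QS (3 ^ T * (q + r)) (fun x (G : Option A → ℝ) =>
        c x * (∑ a, if test a x = true then wt x a * G (some a) else 0) +
          (1 - c x * ∑ a, if test a x = true then wt x a else 0) * G none) := by
  have h1 := hw.bind (r := r)
    (K := fun a x (G : Option A → ℝ) => G (if test a x = true then some a else none))
    (fun a => of_DT ((htest a).map (fun b => if b = true then some a else none)))
  refine search (Ls := fun x g => ∑ a, if test a x = true then wt x a * g a else 0)
    (p := fun x => ∑ a, if test a x = true then wt x a else 0) (h1.congr fun x G => ?_)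
    (fun x => Finset.sum_nonneg fun a _ => by split_ifs; exacts [hw0 x a, le_rfl])
    (fun x => ?_) T
  · rw [← hw1 x, ← Finset.sum_sub_distrib, Finset.sum_mul, ← Finset.sum_add_distrib]
    refine Finset.sum_congr rfl fun a _ => ?_
    by_cases h : test a x = true <;> simp [h]
  · rw [← hw1 x]
    exact Finset.sum_le_sum fun a _ => by split_ifs; exacts [le_rfl, hw0 x a]

end QS

end Crest.Agent.R350
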