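import Crest.Agent.R350.Search

/-! # Row 350: one-sided verification and the search for a champion -/

set_option autoImplicit false

namespace Crest.Agent.R350

namespace QS

variable {ι : Type}

/-- Repeated search for a failing check. -/
theorem verify {C : Type} [Fintype C] [Nonempty C] {r : ℕ} (bad : C → (ι → Bool) → Bool)
    (hbad : ∀ c, DT r (bad c)) (T : ℕ) (hT : Fintype.card C ≤ 9 ^ T) (R : ℕ) :
    ∃ L : (ι → Bool) → (Bool → ℝ) → ℝ, QS (R * (3 ^ T * r)) L ∧
      (∀ x, (∀ c, bad c x = false) → ∀ g, L x g = g true) ∧
      (∀ x, (∃ c, bad c x = true) →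
        L x (fun b => if b = true then 1 else 0) ≤ (1 - 1 / (4 * ((T : ℝ) + 1))) ^ R) := by
  have hC : (0 : ℝ) < Fintype.card C := by exact_mod_cast Fintype.card_pos
  obtain ⟨c, hc0, hc1, hc2, hstep⟩ := search_test (ι := ι) (fun _ _ => 1 / (Fintype.card C : ℝ))
    (uniform C) (fun _ _ => by positivity)
    (fun _ => by
      simp only [Finset.sum_const, Finset.card_univ, nsmul_eq_mul]
      field_simp) bad hbad T
  set s : (ι → Bool) → ℝ := fun x =>
    c x * ∑ a, if bad a x = true then 1 / (Fintype.card C : ℝ) else 0 with hs
  have key : ∀ j : ℕ, QS (j * (3 ^ T * r)) (fun x (g : Bool → ℝ) =>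
      (1 - s x) ^ j * g true + (1 - (1 - s x) ^ j) * g false) := by
    intro j
    induction j with
    | zero => simpa using pure (ι := ι) true
    | succ j ih =>
      have := hstep.bind (r := j * (3 ^ T * r))
        (K := fun o x (g : Bool → ℝ) => o.elim
          ((1 - s x) ^ j * g true + (1 - (1 - s x) ^ j) * g false) (fun _ => g false))
        (fun o => by
          cases o with
          | none => simpa using ih
          | some a => simpa using (pure (ι := ι) false).mono (Nat.zero_le _))
      refine (this.mono (le_of_eq (by ring))).congr fun x g => ?_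
      simp only [Option.elim_some, Option.elim_none]
      have e : (∑ a, if bad a x = true then 1 / (Fintype.card C : ℝ) * g false else 0) =
          (∑ a, if bad a x = true then 1 / (Fintype.card C : ℝ) else 0) * g false := by
        rw [Finset.sum_mul]
        exact Finset.sum_congr rfl fun a _ => by split_ifs <;> simp
      rw [e, ← mul_assoc]
      change s x * g false + (1 - s x) * _ = _
      ring
  refine ⟨_, key R, fun x hx g => ?_, fun x hx => ?_⟩
  · have : s x = 0 := by simp [hs, hx]
    simp [this]
  · obtain ⟨a, ha⟩ := hx
    have h1 : 1 / (Fintype.card C : ℝ) ≤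
        ∑ a, if bad a x = true then 1 / (Fintype.card C : ℝ) else 0 := by
      have := Finset.single_le_sum (f := fun a => if bad a x = true then
        1 / (Fintype.card C : ℝ) else 0) (fun a _ => by positivity) (Finset.mem_univ a)
      simpa [ha] using this
    have h2 : (Fintype.card C : ℝ) ≤ 9 ^ T := by exact_mod_cast hT
    have h3 := hc2 x (by
      calc (1 : ℝ) = Fintype.card C * (1 / (Fintype.card C : ℝ)) := by field_simp
        _ ≤ _ := mul_le_mul h2 h1 (by positivity) (by positivity))
    have h4 := hc1 x
    simp only [if_true, mul_one, Bool.false_eq_true, if_false, mul_zero, add_zero]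
    exact pow_le_pow_left₀ (by simp only [hs]; linarith) (by simp only [hs]; linarith) R

/-- The test that an item passes against a list of pivots. -/
def tourTest {P : Type} (init : P → (ι → Bool) → Bool) (surv : P → P → (ι → Bool) → Bool) :
    List P → P → (ι → Bool) → Bool
  | [], p, x => init p x
  | p' :: l, p, x => tourTest init surv l p x && surv p p' x

lemma tourTest_DT {P : Type} {init : P → (ι → Bool) → Bool} {surv : P → P → (ι → Bool) → Bool}
    {r₁ r₂ : ℕ} (hinit : ∀ p, DT r₁ (init p)) (hsurv : ∀ p p', DT r₂ (surv p p')) (p : P) :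
    ∀ l : List P, DT (r₁ + l.length * r₂) (tourTest init surv l p)
  | [] => by simpa [tourTest] using hinit p
  | p' :: l => by
    have := (tourTest_DT hinit hsurv p l).map₂ (hsurv p p') (fun a b => a && b)
    refine (this.mono (le_of_eq ?_)).congr fun x => rfl
    simp only [List.length_cons]
    ring

lemma tourTest_init {P : Type} {init : P → (ι → Bool) → Bool} {surv : P → P → (ι → Bool) → Bool}
    {p : P} {x : ι → Bool} : ∀ l : List P, tourTest init surv l p x = true → init p x = true
  | [], h => h
  | _ :: l, h => by
    simp only [tourTest, Bool.and_eq_true] at h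
    exact tourTest_init l h.1

/-- Running `j` more rounds from the list of pivots `l`. -/
def tourRun {P : Type} (step : List P → (ι → Bool) → (Option P → ℝ) → ℝ) :
    ℕ → List P → (ι → Bool) → (Option P → ℝ) → ℝ
  | 0, l, _, g => g l.head?
  | j + 1, l, x, g => step l x (fun o => tourRun step j (o.elim l (fun p => p :: l)) x g)

lemma half_sum {P : Type} [Fintype P] (wt : P → ℝ) (hw : ∀ p, 0 ≤ wt p) (S : P → Bool)
    (rel : P → P → Bool) (anti : ∀ p p', rel p p' = true → rel p' p = true → False) :
    (∑ p, if S p = true then wt p * ∑ p', (if (S p' && rel p' p) = true then wt p' else 0) else 0)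
      ≤ (∑ p, if S p = true then wt p else 0) ^ 2 / 2 := by
  set a : P → ℝ := fun p => if S p = true then wt p else 0 with ha
  have ha0 : ∀ p, 0 ≤ a p := fun p => by simp only [ha]; split_ifs; exacts [hw p, le_rfl]
  have h1 : (∑ p, if S p = true then
      wt p * ∑ p', (if (S p' && rel p' p) = true then wt p' else 0) else 0) =
      ∑ p, ∑ p', a p * a p' * (if rel p' p = true then 1 else 0) := by
    refine Finset.sum_congr rfl fun p _ => ?_
    by_cases hp : S p = true
    · simp only [hp, if_true, Finset.mul_sum, ha]
      refine Finset.sum_congr rfl fun p' _ => ?_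
      by_cases h1 : S p' = true <;> by_cases h2 : rel p' p = true <;> simp [h1, h2]
    · simp [hp, ha]
  have h2 : (∑ p, ∑ p', a p * a p' * (if rel p' p = true then 1 else 0)) =
      ∑ p, ∑ p', a p * a p' * (if rel p p' = true then 1 else 0) := by
    rw [Finset.sum_comm]
    exact Finset.sum_congr rfl fun p _ => Finset.sum_congr rfl fun p' _ => by ring
  have h3 : (∑ p, ∑ p', a p * a p' * (if rel p' p = true then 1 else 0)) +
      (∑ p, ∑ p', a p * a p' * (if rel p p' = true then 1 else 0)) ≤ (∑ p, a p) ^ 2 := by
    rw [sq, Finset.sum_mul_sum, ← Finset.sum_add_distrib]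
    refine Finset.sum_le_sum fun p _ => ?_
    rw [← Finset.sum_add_distrib]
    refine Finset.sum_le_sum fun p' _ => ?_
    have := mul_nonneg (ha0 p) (ha0 p')
    by_cases h1 : rel p' p = true <;> by_cases h2 : rel p p' = true
    · exact (anti _ _ h1 h2).elim
    · simp [h1, h2]
    · simp [h1, h2]
    · simp [h1, h2, this]
  rw [h1]
  linarith

/-- Finding the item that survives against all others. -/
theorem tournament {P : Type} [Fintype P] [DecidableEq P] {q r₁ r₂ : ℕ}
    (wt : (ι → Bool) → P → ℝ) (hw : QS q (fun x (g : P → ℝ) => ∑ a, wt x a * g a))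
    (hw0 : ∀ x a, 0 ≤ wt x a) (hw1 : ∀ x, ∑ a, wt x a = 1)
    (init : P → (ι → Bool) → Bool) (surv : P → P → (ι → Bool) → Bool)
    (hinit : ∀ p, DT r₁ (init p)) (hsurv : ∀ p p', DT r₂ (surv p p'))
    (anti : ∀ x p p', surv p p' x = true → surv p' p x = true → False) (T R : ℕ) :
    ∃ L : (ι → Bool) → (Option P → ℝ) → ℝ, QS (R * (3 ^ T * (q + (r₁ + R * r₂)))) L ∧
      ∀ x p₀, init p₀ x = true → (∀ p, init p x = true → p ≠ p₀ → surv p₀ p x = true) →
        1 ≤ 9 ^ T * wt x p₀ →
        L x (fun o => if o = some p₀ then 0 else 1) ≤
          (1 - 1 / (8 * ((T : ℝ) + 1))) ^ R * 9 ^ T := by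
  choose c hc0 hc1 hc2 hstep using fun l : List P =>
    search_test wt hw hw0 hw1 (tourTest init surv l) (fun p => tourTest_DT hinit hsurv p l) T
  set Φ : List P → (ι → Bool) → ℝ := fun l x =>
    ∑ a, if tourTest init surv l a x = true then wt x a else 0 with hΦ
  set step : List P → (ι → Bool) → (Option P → ℝ) → ℝ := fun l x G =>
    c l x * (∑ a, if tourTest init surv l a x = true then wt x a * G (some a) else 0) +
      (1 - c l x * Φ l x) * G none with hstepdef
  have hΦ0 : ∀ l x, 0 ≤ Φ l x := fun l x =>
    Finset.sum_nonneg fun a _ => by split_ifs; exacts [hw0 x a, le_rfl]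
  have hrun : ∀ (j : ℕ) (l : List P), l.length + j ≤ R →
      QS (j * (3 ^ T * (q + (r₁ + R * r₂)))) (tourRun step j l) := by
    intro j
    induction j with
    | zero => intro l _; simpa [tourRun] using pure (ι := ι) l.head?
    | succ j ih =>
      intro l hl
      have h1 : QS (3 ^ T * (q + (r₁ + R * r₂))) (step l) :=
        (hstep l).mono (by gcongr; omega)
      have := h1.bind (r := j * (3 ^ T * (q + (r₁ + R * r₂))))
        (K := fun o => tourRun step j (o.elim l (fun p => p :: l)))
        (fun o => ih _ (by cases o <;> simp <;> omega))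
      exact (this.mono (le_of_eq (by ring))).congr fun x g => rfl
  refine ⟨tourRun step R [], hrun R [] (by simp), fun x p₀ h₀ hchamp hwt => ?_⟩
  set ρ : ℝ := 1 - 1 / (8 * ((T : ℝ) + 1)) with hρ
  have hρ0 : 0 ≤ ρ := by
    have : 1 / (8 * ((T : ℝ) + 1)) ≤ 1 := by
      rw [div_le_one (by positivity)]
      have : (0 : ℝ) ≤ T := Nat.cast_nonneg T
      linarith
    linarith
  have hhead : ∀ l : List P, l.head? = some p₀ → ∀ p, tourTest init surv l p x = false := by
    intro l hl p
    cases l with
    | nil => simp at hl
    | cons p' l =>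
      obtain rfl : p' = p₀ := by simpa using hl
      by_contra hp
      simp only [tourTest, Bool.not_eq_false, Bool.and_eq_true] at hp
      by_cases hpp : p = p'
      · subst hpp
        exact anti x _ _ hp.2 hp.2
      · exact anti x _ _ hp.2 (hchamp p (tourTest_init l hp.1) hpp)
  have hge : ∀ l : List P, tourTest init surv l p₀ x = true → 1 ≤ 9 ^ T * Φ l x := by
    intro l hl
    refine hwt.trans (mul_le_mul_of_nonneg_left ?_ (by positivity))
    have := Finset.single_le_sum (f := fun a => if tourTest init surv l a x = true then
      wt x a else 0) (fun a _ => by split_ifs; exacts [hw0 x a, le_rfl]) (Finset.mem_univ p₀)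
    simpa [hl] using this
  have main : ∀ (j : ℕ) (l : List P),
      (tourTest init surv l p₀ x = true ∨ l.head? = some p₀) →
      tourRun step j l x (fun o => if o = some p₀ then 0 else 1) ≤ ρ ^ j * 9 ^ T * Φ l x := by
    intro j
    induction j with
    | zero =>
      intro l hl
      simp only [tourRun, pow_zero, one_mul]
      split_ifs with h
      · exact mul_nonneg (by positivity) (hΦ0 l x)
      · exact hge l (hl.resolve_right h)
    | succ j ih =>
      intro l hl
      simp only [tourRun, hstepdef, Option.elim_some, Option.elim_none]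
      have h1 : (∑ a, if tourTest init surv l a x = true then
          wt x a * tourRun step j (a :: l) x (fun o => if o = some p₀ then 0 else 1) else 0) ≤
          ρ ^ j * 9 ^ T * (Φ l x ^ 2 / 2) := by
        have h2 := half_sum (wt x) (hw0 x) (fun p => tourTest init surv l p x)
          (fun p p' => surv p p' x) (anti x)
        refine le_trans ?_ (mul_le_mul_of_nonneg_left h2 (by positivity))
        rw [Finset.mul_sum]
        refine Finset.sum_le_sum fun a _ => ?_
        split_ifs with ha
        · have h3 := ih (a :: l) (by
            rcases hl with hl | hl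
            · by_cases haa : a = p₀
              · right; simp [haa]
              · left
                simp only [tourTest, Bool.and_eq_true]
                exact ⟨hl, hchamp a (tourTest_init l ha) haa⟩
            · rw [hhead l hl a] at ha
              exact absurd ha (by simp))
          calc wt x a * tourRun step j (a :: l) x (fun o => if o = some p₀ then 0 else 1)
              ≤ wt x a * (ρ ^ j * 9 ^ T * Φ (a :: l) x) := mul_le_mul_of_nonneg_left h3 (hw0 x a)
            _ = _ := by simp only [hΦ, tourTest]; ring_nf
        · simp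
      have h4 := ih l hl
      have h5 : 0 ≤ 1 - c l x * Φ l x := by have := hc1 l x; simp only [hΦ]; linarith
      have h6 : Φ l x * (1 - c l x * Φ l x / 2) ≤ ρ * Φ l x := by
        rcases hl with hl | hl
        · have h7 := hc2 l x (hge l hl)
          have h8 : 1 - c l x * Φ l x / 2 ≤ ρ := by
            have : 1 / (8 * ((T : ℝ) + 1)) = 1 / (4 * ((T : ℝ) + 1)) / 2 := by
              field_simp; norm_num
            rw [hρ, this]
            simp only [hΦ]
            linarith
          rw [mul_comm ρ]
          exact mul_le_mul_of_nonneg_left h8 (hΦ0 l x)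
        · have : Φ l x = 0 := by simp [hΦ, hhead l hl]
          simp [this]
      calc c l x * (∑ a, if tourTest init surv l a x = true then
            wt x a * tourRun step j (a :: l) x (fun o => if o = some p₀ then 0 else 1) else 0) +
            (1 - c l x * Φ l x) * tourRun step j l x (fun o => if o = some p₀ then 0 else 1)
          ≤ c l x * (ρ ^ j * 9 ^ T * (Φ l x ^ 2 / 2)) +
            (1 - c l x * Φ l x) * (ρ ^ j * 9 ^ T * Φ l x) :=
            add_le_add (mul_le_mul_of_nonneg_left h1 (hc0 l x)) (mul_le_mul_of_nonneg_left h4 h5)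
        _ = ρ ^ j * 9 ^ T * (Φ l x * (1 - c l x * Φ l x / 2)) := by ring
        _ ≤ ρ ^ j * 9 ^ T * (ρ * Φ l x) := mul_le_mul_of_nonneg_left h6 (by positivity)
        _ = _ := by ring
  refine (main R [] (Or.inl h₀)).trans ?_
  have : Φ [] x ≤ 1 := by
    rw [← hw1 x]
    exact Finset.sum_le_sum fun a _ => by split_ifs; exacts [le_rfl, hw0 x a]
  exact mul_le_of_le_one_right (by positivity) this

end QS

end Crest.Agent.R350
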